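import Vale.Agent.P073.H155.FatStar

/-!
# P073, H155: sums over the edges of a face
-/

open Set Metric Topology Filter

set_option autoImplicit false

namespace Vale.Agent.P073.H155

open Vale.Agent.P073.St (V)
open Vale.Agent.P073.H73 Vale.Agent.P073.H193

variable {Ω : Set V} {M : Mesh Ω} {E : Edges M} {k : M.κ}

/-- the edge with the index `j` -/
def ce (C : Cyc E k) (j : ℕ) : E.ε := C.c (Fin.ofNat (C.n + 1) j)

theorem ofNat_of_lt {n j : ℕ} (hj : j < n + 1) : Fin.ofNat (n + 1) j = ⟨j, hj⟩ := by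
  apply Fin.ext
  simp only [Fin.ofNat]
  exact Nat.mod_eq_of_lt hj

theorem seg_vv (C : Cyc E k) (j : ℕ) : E.seg (ce C j) = segment ℝ (vv C j) (vv C (j + 1)) := by
  rw [vv_succ]
  exact C.seg _

theorem ends_vv (C : Cyc E k) (j : ℕ) :
    (vv C j = E.a (ce C j) ∧ vv C (j + 1) = E.b (ce C j)) ∨
      (vv C j = E.b (ce C j) ∧ vv C (j + 1) = E.a (ce C j)) := by
  rw [vv_succ]
  exact C.ends _

theorem norm_vv (C : Cyc E k) (j : ℕ) :
    ‖vv C (j + 1) - vv C j‖ = ‖E.b (ce C j) - E.a (ce C j)‖ := by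
  rcases ends_vv C j with ⟨h1, h2⟩ | ⟨h1, h2⟩
  · rw [h1, h2]
  · rw [h1, h2, norm_sub_rev]

theorem ce_inj (C : Cyc E k) {i j : ℕ} (hi : i < C.n + 1) (hj : j < C.n + 1)
    (h : ce C i = ce C j) : i = j := by
  have h1 := C.cinj h
  rw [ofNat_of_lt hi, ofNat_of_lt hj] at h1
  exact congrArg Fin.val h1

theorem sub_ce (C : Cyc E k) (j : ℕ) : E.seg (ce C j) ⊆ M.F k := C.sub _

theorem exists_ce (C : Cyc E k) {e : E.ε} (he : E.seg e ⊆ M.F k) :
    ∃ j < C.n + 1, ce C j = e := by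
  obtain ⟨i, rfl⟩ := C.surj e he
  refine ⟨i, i.2, ?_⟩
  unfold ce
  rw [ofNat_of_lt i.2]

theorem image_ce (C : Cyc E k) [DecidableEq E.ε] :
    (Finset.range (C.n + 1)).image (ce C) = (E.fin_face k).toFinset := by
  ext e
  rw [Finset.mem_image, (E.fin_face k).mem_toFinset]
  constructor
  · rintro ⟨j, -, rfl⟩
    exact sub_ce C j
  · intro he
    obtain ⟨j, hj, h⟩ := exists_ce C he
    exact ⟨j, Finset.mem_range.2 hj, h⟩

/-- **sums over the edges** -/
theorem sum_ce {X : Type*} [AddCommMonoid X] (C : Cyc E k) (f : E.ε → X) :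
    ∑ j ∈ Finset.range (C.n + 1), f (ce C j) = ∑ e ∈ (E.fin_face k).toFinset, f e := by
  classical
  rw [← image_ce C, Finset.sum_image]
  intro i hi j hj h
  exact ce_inj C (Finset.mem_range.1 hi) (Finset.mem_range.1 hj) h

theorem pair_inj (E : Edges M) : Function.Injective fun e : E.ε => (E.a e, E.b e) := by
  intro e e' h
  obtain ⟨h1, h2⟩ := Prod.ext_iff.1 h
  have hm : E.a e + (1 / 2 : ℝ) • (E.b e - E.a e) ∈ openSegment ℝ (E.a e) (E.b e) := by
    rw [openSegment_eq_image']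
    exact ⟨1 / 2, ⟨by norm_num, by norm_num⟩, rfl⟩
  refine E.eq_of_mem hm ?_
  have := openSegment_subset_segment ℝ _ _ hm
  unfold Edges.seg
  simp only at h1 h2
  rw [← h1, ← h2]
  exact this

theorem sum_ofFace {X : Type*} [AddCommMonoid X] (C : Cyc E k) (f : V × V → X) :
    ∑ j ∈ Finset.range (C.n + 1), f (E.a (ce C j), E.b (ce C j)) = ∑ e ∈ E.ofFace k, f e := by
  classical
  rw [sum_ce C fun e => f (E.a e, E.b e)]
  unfold Edges.ofFace
  rw [Finset.sum_image]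
  intro e _ e' _ h
  exact pair_inj E h

end Vale.Agent.P073.H155
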