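import Vale.Agent.P073.H155.Chart
import Vale.Agent.P073.H193.Cyc

/-!
# P073, H155 (EDGE-DATA): the faces of a mesh are stars
-/

open Set Metric Topology Filter

set_option autoImplicit false

namespace Vale.Agent.P073.H155

open Vale.Agent.P073.St (V)
open Vale.Agent.P073.H73 Vale.Agent.P073.H193
open _root_.P073 (ConHomeo coneSetAt)
open _root_.P073.H155 (cv Star cv_eq continuous_cv)

variable {n : ℕ} {ν : Fin n → V →L[ℝ] ℝ} {t : Fin n → ℝ}

/-- leaving a polygon along a ray -/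
theorem exists_exit {O w : V} (hO : O ∈ hs ν t) (hw : ∀ i, ¬ Act ν t i → ν i w = 0)
    (hout : O + w ∉ hs ν t) : ∃ s ∈ Ico (0:ℝ) 1, O + s • w ∈ intrinsicFrontier ℝ (hs ν t) ∧
      ∀ s' : ℝ, O + s' • w ∈ hs ν t → s' ≤ s := by
  classical
  set S : Finset (Fin n) := Finset.univ.filter fun i => t i < ν i (O + w) with hS
  have hSn : S.Nonempty := by
    by_contra hcon
    rw [Finset.not_nonempty_iff_eq_empty] at hcon
    refine hout fun i => ?_
    by_contra hlt
    have : i ∈ S := Finset.mem_filter.2 ⟨Finset.mem_univ _, not_le.1 hlt⟩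
    rw [hcon] at this
    exact absurd this (Finset.notMem_empty i)
  have key : ∀ i ∈ S, Act ν t i ∧ t i - ν i O < ν i w ∧ 0 ≤ t i - ν i O := by
    intro i hi
    have h1 := (Finset.mem_filter.1 hi).2
    rw [map_add] at h1
    have h2 := hO i
    refine ⟨?_, by linarith, by linarith⟩
    by_contra hna
    rw [hw i hna, eq_of_not_act hna hO] at h1
    linarith
  obtain ⟨i0, hi0, hmin⟩ := Finset.exists_min_image S (fun i => (t i - ν i O) / ν i w) hSn
  obtain ⟨ha, hb, hc⟩ := key i0 hi0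
  have hpos : 0 < ν i0 w := by linarith
  set s := (t i0 - ν i0 O) / ν i0 w with hs_def
  have hs0 : 0 ≤ s := div_nonneg hc hpos.le
  have hs1 : s < 1 := by rw [hs_def, div_lt_one hpos]; exact hb
  have hz : O + s • w ∈ hs ν t := by
    intro i
    rw [map_add, map_smul, smul_eq_mul]
    by_cases hi : i ∈ S
    · obtain ⟨_, hb', hc'⟩ := key i hi
      have hpos' : 0 < ν i w := by linarith
      have h3 : s ≤ (t i - ν i O) / ν i w := hmin i hi
      rw [le_div_iff₀ hpos'] at h3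
      linarith
    · have h4 : ν i (O + w) ≤ t i := by
        by_contra hlt
        exact hi (Finset.mem_filter.2 ⟨Finset.mem_univ _, not_le.1 hlt⟩)
      rw [map_add] at h4
      have h5 := hO i
      have h6 := mul_le_mul_of_nonneg_left h4 hs0
      have h7 := mul_le_mul_of_nonneg_left h5 (sub_nonneg.2 hs1.le)
      linarith
  have heq : ν i0 (O + s • w) = t i0 := by
    rw [map_add, map_smul, smul_eq_mul, hs_def]
    field_simp
    ring
  refine ⟨s, ⟨hs0, hs1⟩, mem_fr.2 ⟨i0, ha, hz, heq⟩, fun s' hs' => ?_⟩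
  have h8 := hs' i0
  rw [map_add, map_smul, smul_eq_mul] at h8
  rw [hs_def, le_div_iff₀ hpos]
  linarith

/-- **a polygon with an inner and an outer radius is a star** -/
theorem star_of_ball (hcpt : IsCompact (hs ν t)) {O : V} (hO : O ∈ hs ν t) {rho R : ℝ}
    (hrho : 0 < rho) (hB : ∀ z ∈ intrinsicFrontier ℝ (hs ν t), rho ≤ ‖z - O‖)
    (hR : ∀ z ∈ intrinsicFrontier ℝ (hs ν t), ‖z - O‖ ≤ R) {m : ℕ} {v : ℕ → V} (hm : 0 < m)
    (clo : v m = v 0) (inj : InjOn (cv m v) (Ico (0:ℝ) m))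
    (im : cv m v '' Icc (0:ℝ) m = intrinsicFrontier ℝ (hs ν t)) :
    Star m v O rho R (hs ν t) := by
  have hfrsub : intrinsicFrontier ℝ (hs ν t) ⊆ hs ν t := by
    intro z hz
    obtain ⟨i, -, hz⟩ := mem_fr.1 hz
    exact hz.1
  have hOf : O ∉ intrinsicFrontier ℝ (hs ν t) := by
    intro h
    have := hB O h
    rw [sub_self, norm_zero] at this
    linarith
  have hdir : ∀ x ∈ hs ν t, ∀ y ∈ hs ν t, ∀ s : ℝ, ∀ i, ¬ Act ν t i → ν i (s • (x - y)) = 0 := by
    intro x hx y hy s i hi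
    rw [map_smul, map_sub, eq_of_not_act hi hx, eq_of_not_act hi hy, sub_self, smul_zero]
  have hvm : ∀ j ≤ m, v j ∈ intrinsicFrontier ℝ (hs ν t) := by
    intro j hj
    rw [← im]
    rcases hj.lt_or_eq with h | h
    · exact ⟨j, ⟨Nat.cast_nonneg j, by exact_mod_cast hj⟩, _root_.P073.H155.cv_nat v h⟩
    · exact ⟨m, ⟨Nat.cast_nonneg m, le_refl _⟩, by rw [_root_.P073.H155.cv_last v hm, h]⟩
  refine ⟨hm, clo, inj, hrho, fun i hi => hR _ (hvm i hi), fun j hj => ?_, ?_⟩
  · -- the supporting functional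
    have hseg : segment ℝ (v j) (v (j + 1)) ⊆ intrinsicFrontier ℝ (hs ν t) := by
      rw [← im, segment_eq_image']
      rintro _ ⟨s, hs, rfl⟩
      have h1 : (j : ℝ) + 1 ≤ m := by exact_mod_cast hj
      refine ⟨j + s, ⟨add_nonneg (Nat.cast_nonneg j) hs.1, by linarith [hs.2]⟩, ?_⟩
      rw [cv_eq v hj (by linarith [hs.1]) (by linarith [hs.2]), add_sub_cancel_left]
    obtain ⟨i, hi, hside⟩ := sub_side (convex_segment (v j) (v (j + 1)))
      ⟨v j, left_mem_segment ℝ _ _⟩ (hseg.trans hfrsub) (by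
        rw [Set.disjoint_left]
        intro z hz hz'
        have h1 := hseg hz
        obtain ⟨i, hi, hzs⟩ := mem_fr.1 h1
        have h2 := (mem_rel.1 hz').2 i hi
        linarith [hzs.2])
    have hd : 0 < t i - ν i O := by
      rcases (hO i).lt_or_eq with h | h
      · linarith
      · exact absurd (mem_fr.2 ⟨i, hi, hO, h⟩) hOf
    have hval : ∀ z : V, ((t i - ν i O)⁻¹ • ν i) (z - O) = (ν i z - ν i O) / (t i - ν i O) := by
      intro z
      show (t i - ν i O)⁻¹ • ν i (z - O) = _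
      rw [map_sub, smul_eq_mul, div_eq_inv_mul]
    refine ⟨(t i - ν i O)⁻¹ • ν i, ?_, ?_, fun j' hj' => ?_, fun x hx y hy => ?_⟩
    · rw [hval, (hside (left_mem_segment ℝ _ _)).2, div_self hd.ne']
    · rw [hval, (hside (right_mem_segment ℝ _ _)).2, div_self hd.ne']
    · rw [hval, div_le_one hd]
      linarith [hfrsub (hvm j' hj') i]
    · -- the bound of the functional
      have key : ∀ x ∈ hs ν t, ∀ y ∈ hs ν t, ν i (x - y) ≤ (t i - ν i O) * (‖x - y‖ / rho) := by
        intro x hx y hy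
        by_contra hcon
        push Not at hcon
        have hne : x - y ≠ 0 := by
          intro h
          rw [h, map_zero, norm_zero, zero_div, mul_zero] at hcon
          exact lt_irrefl _ hcon
        have hn : 0 < ‖x - y‖ := norm_pos_iff.2 hne
        have hout : O + (rho / ‖x - y‖) • (x - y) ∉ hs ν t := by
          intro h
          have h1 := h i
          rw [map_add, map_smul, smul_eq_mul] at h1
          have h2 := mul_lt_mul_of_pos_left hcon (div_pos hrho hn)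
          have e : rho / ‖x - y‖ * ((t i - ν i O) * (‖x - y‖ / rho)) = t i - ν i O := by
            field_simp
          rw [e] at h2
          linarith
        obtain ⟨s, hs, hfr, -⟩ := exists_exit hO (hdir x hx y hy _) hout
        have h3 := hB _ hfr
        rw [add_sub_cancel_left, norm_smul, norm_smul, Real.norm_of_nonneg hs.1,
          Real.norm_of_nonneg (by positivity), div_mul_cancel₀ _ hn.ne'] at h3
        have := mul_lt_mul_of_pos_right hs.2 hrho
        linarith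
      have h1 := key x hx y hy
      have h2 := key y hy x hx
      have e : ((t i - ν i O)⁻¹ • ν i) (x - y) = ν i (x - y) / (t i - ν i O) := by
        show (t i - ν i O)⁻¹ • ν i (x - y) = _
        rw [smul_eq_mul, div_eq_inv_mul]
      rw [e, abs_div, abs_of_pos hd, div_le_iff₀ hd, abs_le]
      rw [norm_sub_rev y x, ← neg_sub x y, map_neg] at h2
      constructor <;> linarith
  · -- the cone
    rw [im]
    refine Subset.antisymm ?_ ?_
    · rintro _ ⟨s, hs, b, hb, rfl⟩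
      have : O + s • (b - O) = (1 - s) • O + s • b := by module
      rw [this]
      exact convex_hs hO (hfrsub hb) (by linarith [hs.2]) hs.1 (by ring)
    · intro x hx
      by_cases hxO : x = O
      · refine ⟨0, ⟨le_refl _, zero_le_one⟩, v 0, hvm 0 (Nat.zero_le m), ?_⟩
        rw [hxO, zero_smul, add_zero]
      · have hw : x - O ≠ 0 := sub_ne_zero.2 hxO
        have hn : 0 < ‖x - O‖ := norm_pos_iff.2 hw
        obtain ⟨K, hK⟩ : ∃ K, ∀ y ∈ hs ν t, ‖y - O‖ ≤ K := by
          obtain ⟨K, hK⟩ := hcpt.exists_bound_of_continuousOn (f := fun y => y - O)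
            (by fun_prop)
          exact ⟨K, hK⟩
        have hK0 : ‖x - O‖ ≤ K := hK x hx
        set s1 := (K + 1) / ‖x - O‖ with hs1
        have hs1' : 1 < s1 := by rw [hs1, one_lt_div hn]; linarith
        have hout : O + s1 • (x - O) ∉ hs ν t := by
          intro h
          have h1 := hK _ h
          rw [add_sub_cancel_left, norm_smul, Real.norm_of_nonneg (by linarith), hs1,
            div_mul_cancel₀ _ hn.ne'] at h1
          linarith
        obtain ⟨s, hs, hfr, hmax⟩ := exists_exit hO (hdir x hx O hO _) hout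
        have h2 : s1⁻¹ ≤ s := by
          apply hmax
          rw [smul_smul, inv_mul_cancel₀ (by linarith), one_smul, add_sub_cancel]
          exact hx
        have h3 : 1 ≤ s * s1 := by
          have := mul_le_mul_of_nonneg_right h2 (show 0 ≤ s1 by linarith)
          rwa [inv_mul_cancel₀ (by linarith)] at this
        refine ⟨(s * s1)⁻¹, ⟨by positivity, inv_le_one_of_one_le₀ h3⟩, _, hfr, ?_⟩
        rw [add_sub_cancel_left, smul_smul, smul_smul]
        have : (s * s1)⁻¹ * (s * s1) = 1 := inv_mul_cancel₀ (by linarith)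
        rw [mul_assoc, this, one_smul, add_sub_cancel]

/-- the same for a set which is equal to a polygon -/
theorem star_of_ball' {F : Set V} (hF : F = hs ν t) (hcpt : IsCompact F) {O : V} (hO : O ∈ F)
    {rho R : ℝ} (hrho : 0 < rho) (hB : ∀ z ∈ intrinsicFrontier ℝ F, rho ≤ ‖z - O‖)
    (hR : ∀ z ∈ intrinsicFrontier ℝ F, ‖z - O‖ ≤ R) {m : ℕ} {v : ℕ → V} (hm : 0 < m)
    (clo : v m = v 0) (inj : InjOn (cv m v) (Ico (0:ℝ) m))
    (im : cv m v '' Icc (0:ℝ) m = intrinsicFrontier ℝ F) :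
    Star m v O rho R F := by
  subst hF
  exact star_of_ball hcpt hO hrho hB hR hm clo inj im

/-! ### The cyclic polygon of a face -/

variable {Ω : Set V} {M : Mesh Ω} {E : Edges M} {k : M.κ}

/-- the vertices with indices in `ℕ` -/
noncomputable def vv (C : Cyc E k) (i : ℕ) : V := C.v (Fin.ofNat (C.n + 1) i)

theorem ofNat_succ (n i : ℕ) : Fin.ofNat (n + 1) (i + 1) = Fin.ofNat (n + 1) i + 1 := by
  apply Fin.ext
  rw [Fin.val_add]
  simp only [Fin.ofNat, Fin.val_one']
  rw [Nat.add_mod]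

theorem vv_succ (C : Cyc E k) (i : ℕ) : vv C (i + 1) = C.v (Fin.ofNat (C.n + 1) i + 1) := by
  rw [vv, ofNat_succ]

theorem vv_clo (C : Cyc E k) : vv C (C.n + 1) = vv C 0 := by
  unfold vv
  congr 1
  apply Fin.ext
  simp [Fin.ofNat]

theorem cv_vv (C : Cyc E k) {j : ℕ} (hj : j < C.n + 1) {T : ℝ} (h0 : (j : ℝ) ≤ T)
    (h1 : T ≤ j + 1) : cv (C.n + 1) (vv C) T = C.v (Fin.ofNat (C.n + 1) j) +
      (T - j) • (C.v (Fin.ofNat (C.n + 1) j + 1) - C.v (Fin.ofNat (C.n + 1) j)) := by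
  rw [cv_eq _ hj h0 h1, vv_succ]; rfl

theorem cv_vv_inj (C : Cyc E k) : InjOn (cv (C.n + 1) (vv C)) (Ico (0:ℝ) ((C.n + 1 : ℕ) : ℝ)) := by
  intro T hT T' hT' h
  have hj : ⌊T⌋₊ < C.n + 1 := (Nat.floor_lt hT.1).2 hT.2
  have hj' : ⌊T'⌋₊ < C.n + 1 := (Nat.floor_lt hT'.1).2 hT'.2
  have a1 := Nat.floor_le hT.1
  have a2 := Nat.lt_floor_add_one T
  have b1 := Nat.floor_le hT'.1
  have b2 := Nat.lt_floor_add_one T'
  rw [cv_vv C hj a1 a2.le, cv_vv C hj' b1 b2.le] at h
  obtain ⟨h1, h2⟩ := C.inj ⟨by linarith, by linarith⟩ ⟨by linarith, by linarith⟩ h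
  have h3 : ⌊T⌋₊ = ⌊T'⌋₊ := by
    have := congrArg Fin.val h1
    simp only [Fin.ofNat] at this
    rwa [Nat.mod_eq_of_lt hj, Nat.mod_eq_of_lt hj'] at this
  rw [h3] at h2
  linarith

theorem cv_vv_image (C : Cyc E k) :
    cv (C.n + 1) (vv C) '' Icc (0:ℝ) ((C.n + 1 : ℕ) : ℝ) = intrinsicFrontier ℝ (M.F k) := by
  rw [C.fr_eq]
  refine Subset.antisymm ?_ ?_
  · rintro _ ⟨T, hT, rfl⟩
    obtain ⟨j, hj, h0, h1⟩ := Star.exists_edge (Nat.succ_pos C.n) hT
    rw [cv_vv C hj h0 h1]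
    refine mem_iUnion.2 ⟨Fin.ofNat (C.n + 1) j, ?_⟩
    rw [segment_eq_image']
    exact ⟨T - j, ⟨by linarith, by linarith⟩, rfl⟩
  · intro z hz
    obtain ⟨i, hz⟩ := mem_iUnion.1 hz
    rw [segment_eq_image'] at hz
    obtain ⟨s, hs, rfl⟩ := hz
    have hi : Fin.ofNat (C.n + 1) (i : ℕ) = i := by
      apply Fin.ext
      simp [Fin.ofNat, Nat.mod_eq_of_lt i.2]
    have h2 : ((i : ℕ) : ℝ) + 1 ≤ ((C.n + 1 : ℕ) : ℝ) := by exact_mod_cast i.2
    refine ⟨(i : ℕ) + s, ⟨add_nonneg (Nat.cast_nonneg _) hs.1, by linarith [hs.2]⟩, ?_⟩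
    rw [cv_vv C i.2 (by linarith [hs.1]) (by linarith [hs.2]), hi, add_sub_cancel_left]

theorem norm_sub_centre {b : ℝ × ℝ} (hb : b ∈ _root_.P073.H31.bR) :
    1 / 2 ≤ ‖b - (1 / 2, 1 / 2)‖ := by
  have h1 : |b.1 - 1 / 2| ≤ ‖b - (1 / 2, 1 / 2)‖ := norm_fst_le (b - (1 / 2, 1 / 2))
  have h2 : |b.2 - 1 / 2| ≤ ‖b - (1 / 2, 1 / 2)‖ := norm_snd_le (b - (1 / 2, 1 / 2))
  obtain ⟨-, h | h | h | h⟩ := hb
  · rw [h, abs_of_nonpos (by norm_num)] at h1; linarith
  · rw [h, abs_of_nonneg (by norm_num)] at h1; linarith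
  · rw [h, abs_of_nonpos (by norm_num)] at h2; linarith
  · rw [h, abs_of_nonneg (by norm_num)] at h2; linarith

theorem norm_centre_sub {b : ℝ × ℝ} (hb : b ∈ usq) : ‖b - (1 / 2, 1 / 2)‖ ≤ 1 / 2 := by
  obtain ⟨⟨h1, h2⟩, h3, h4⟩ := hb
  show max |b.1 - 1 / 2| |b.2 - 1 / 2| ≤ 1 / 2
  exact max_le (abs_le.2 ⟨by linarith, by linarith⟩) (abs_le.2 ⟨by linarith, by linarith⟩)

theorem centre_mem : ((1 / 2, 1 / 2) : ℝ × ℝ) ∈ usq :=
  ⟨⟨by norm_num, by norm_num⟩, by norm_num, by norm_num⟩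

theorem Fat.const {c r : ℝ} {F : Set V} (h : Fat c r F) (hr : 0 < r) : 0 < c ∧ 1 ≤ c ^ 2 := by
  obtain ⟨φ, h1, h2⟩ := h.chart
  have m0 : ((0, 0) : ℝ × ℝ) ∈ usq := ⟨⟨le_refl _, zero_le_one⟩, le_refl _, zero_le_one⟩
  have m1 : ((1, 1) : ℝ × ℝ) ∈ usq := ⟨⟨zero_le_one, le_refl _⟩, zero_le_one, le_refl _⟩
  have e : ‖((0, 0) : ℝ × ℝ) - (1, 1)‖ = 1 := by
    show max |(0:ℝ) - 1| |(0:ℝ) - 1| = 1
    norm_num
  have k1 := h1 _ m0 _ m1
  have k2 := h2 _ m0 _ m1
  rw [e, mul_one] at k1 k2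
  have hc : 0 < c := by
    by_contra hcon
    have := mul_nonpos_of_nonpos_of_nonneg (not_lt.1 hcon)
      (norm_nonneg (φ.toFun (0, 0) - φ.toFun (1, 1)))
    linarith
  refine ⟨hc, ?_⟩
  have k3 := mul_le_mul_of_nonneg_left k1 hc.le
  have k4 : r * 1 ≤ r * c ^ 2 := by linarith [show c * (c * r) = r * c ^ 2 by ring]
  exact le_of_mul_le_mul_left k4 hr

theorem Fat.isCompact {c r : ℝ} {F : Set V} (h : Fat c r F) : IsCompact F := by
  obtain ⟨φ, -⟩ := h.chart
  exact φ.isCompact_right (isCompact_Icc.prod isCompact_Icc)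

/-- the relative boundary of a square has distance `σ` to the centre -/
theorem sqr_fr {a : V} {l : Fin 3} {σ : ℝ} (hsq : hs ν t = sqr a l σ) {z : V}
    (hz : z ∈ intrinsicFrontier ℝ (hs ν t)) : σ ≤ ‖z - a‖ := by
  obtain ⟨i, ⟨y, hy, hyi⟩, hzF, hzi⟩ := mem_fr.1 hz
  by_contra hlt
  push Not at hlt
  have hz' : z ∈ sqr a l σ := hsq ▸ hzF
  have hy' : y ∈ sqr a l σ := hsq ▸ hy
  obtain ⟨e, he, hes⟩ : ∃ e > 0, ‖z - a‖ + e * ‖z - y‖ ≤ σ := by
    have h0 := norm_nonneg (z - y)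
    have h1 : 0 < ‖z - y‖ + 1 := by linarith
    refine ⟨(σ - ‖z - a‖) / (‖z - y‖ + 1), div_pos (by linarith) h1, ?_⟩
    have h2 : (σ - ‖z - a‖) / (‖z - y‖ + 1) * ‖z - y‖ ≤
        (σ - ‖z - a‖) / (‖z - y‖ + 1) * (‖z - y‖ + 1) :=
      mul_le_mul_of_nonneg_left (by linarith) (div_nonneg (by linarith) h1.le)
    rw [div_mul_cancel₀ _ h1.ne'] at h2
    linarith
  have hmem : z + e • (z - y) ∈ hs ν t := by
    rw [hsq]
    refine ⟨?_, fun j => ?_⟩
    · simp only [Pi.add_apply, Pi.smul_apply, Pi.sub_apply, smul_eq_mul]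
      rw [hz'.1, hy'.1]; ring
    · have h1 : |(z + e • (z - y) - a) j| ≤ ‖z + e • (z - y) - a‖ := by
        rw [← Real.norm_eq_abs]
        exact norm_le_pi_norm (z + e • (z - y) - a) j
      refine le_trans h1 ?_
      have : z + e • (z - y) - a = (z - a) + e • (z - y) := by abel
      rw [this]
      refine (norm_add_le _ _).trans ?_
      rw [norm_smul, Real.norm_of_nonneg he.le]
      exact hes
  have h2 := hmem i
  rw [map_add, map_smul, map_sub, smul_eq_mul, hzi] at h2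
  have := mul_pos he (sub_pos.2 hyi)
  linarith

/-- the representation of a square is unique -/
theorem sqr_unique {a a' : V} {l l' : Fin 3} {σ σ' : ℝ} (hσ : 0 < σ) (hσ' : 0 < σ')
    (h : sqr a l σ = sqr a' l' σ') : a = a' ∧ σ = σ' := by
  -- half widths
  have key : ∀ {a a' : V} {l l' : Fin 3} {σ σ' : ℝ}, 0 < σ → 0 < σ' → sqr a l σ = sqr a' l' σ' →
      ∀ j, |a' j - a j| + (if j = l' then 0 else σ') ≤ if j = l then 0 else σ := by
    intro a a' l l' σ σ' hσ hσ' h j
    set s' : ℝ := if j = l' then 0 else σ' with hs'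
    have hs0 : 0 ≤ s' := by rw [hs']; split_ifs <;> linarith
    have hs1 : s' ≤ σ' := by rw [hs']; split_ifs <;> linarith
    have mem : ∀ τ : ℝ, |τ| = s' → Function.update a' j (a' j + τ) ∈ sqr a l σ := by
      intro τ hτ
      rw [h]
      refine ⟨?_, fun i => ?_⟩
      · by_cases hj : j = l'
        · have : τ = 0 := by
            rw [hs', if_pos hj] at hτ
            exact abs_eq_zero.1 hτ
          rw [this, add_zero, Function.update_eq_self]
        · rw [Function.update_of_ne (Ne.symm hj)]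
      · by_cases hi : i = j
        · subst hi
          rw [Function.update_self, add_sub_cancel_left, hτ]
          exact hs1
        · rw [Function.update_of_ne hi, sub_self, abs_zero]
          exact hσ'.le
    have b1 : ∀ τ : ℝ, |τ| = s' → |a' j + τ - a j| ≤ if j = l then 0 else σ := by
      intro τ hτ
      have h1 := mem τ hτ
      by_cases hj : j = l
      · rw [if_pos hj]
        subst hj
        have h2 := h1.1
        rw [Function.update_self] at h2
        rw [h2, sub_self, abs_zero]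
      · rw [if_neg hj]
        have h2 := h1.2 j
        rwa [Function.update_self] at h2
    have c1 := b1 s' (abs_of_nonneg hs0)
    have c2 := b1 (-s') (by rw [abs_neg, abs_of_nonneg hs0])
    rcases le_total 0 (a' j - a j) with h3 | h3
    · rw [abs_of_nonneg h3]
      have := (abs_le.1 c1).2
      linarith
    · rw [abs_of_nonpos h3]
      have := (abs_le.1 c2).1
      linarith
  have k1 := key hσ hσ' h
  have k2 := key hσ' hσ h.symm
  have e1 : ∀ j, a j = a' j := by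
    intro j
    have h1 := k1 j
    have h2 := k2 j
    have h3 := abs_nonneg (a' j - a j)
    rw [abs_sub_comm (a j) (a' j)] at h2
    have h4 : |a' j - a j| = 0 := by linarith
    have := abs_eq_zero.1 h4
    linarith
  refine ⟨funext e1, ?_⟩
  obtain ⟨j, hj⟩ : ∃ j : Fin 3, j ≠ l := by
    by_cases h0 : l = 0
    · exact ⟨1, by rw [h0]; decide⟩
    · exact ⟨0, fun h => h0 h.symm⟩
  have h1 := k1 j
  have h2 := k2 j
  rw [e1 j, sub_self, abs_zero, zero_add, if_neg hj] at h1 h2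
  by_cases hj' : j = l'
  · rw [if_pos hj'] at h2; linarith
  · rw [if_neg hj'] at h1 h2; linarith

/-- **every face is a star**, with universal constants for squares -/
theorem exists_star (C : Cyc E k) : ∃ (O : V) (rho R : ℝ), O ∈ M.F k ∧
    Star (C.n + 1) (vv C) O rho R (M.F k) ∧ 0 ≤ R ∧ R / rho ≤ M.c k ^ 2 ∧
    M.r k ≤ 2 * M.c k * rho ∧
    ∀ (a : V) (l : Fin 3) (σ : ℝ), 0 < σ → M.F k = sqr a l σ → O = a ∧ rho = σ ∧ R = σ := by
  have hfat := M.fat k
  have hr := M.rpos k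
  obtain ⟨hc0, hc1⟩ := Fat.const hfat hr
  obtain ⟨n, ν, t, hF⟩ := hfat.half
  have hF' : M.F k = hs ν t := hF
  have hcpt : IsCompact (M.F k) := Fat.isCompact hfat
  have him := cv_vv_image C
  by_cases hsq : ∃ (a : V) (l : Fin 3) (σ : ℝ), 0 < σ ∧ M.F k = sqr a l σ
  · obtain ⟨a, l, σ, hσ, hsq⟩ := hsq
    have haF : a ∈ M.F k := by
      rw [hsq]; exact ⟨rfl, fun j => by rw [sub_self, abs_zero]; exact hσ.le⟩
    refine ⟨a, σ, σ, haF, ?_, hσ.le, ?_, ?_, fun a' l' σ' hσ' h' => ?_⟩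
    · refine star_of_ball' hF' hcpt haF hσ (fun z hz => ?_)
        (fun z hz => ?_) (Nat.succ_pos _) (vv_clo C) (cv_vv_inj C) him
      · rw [hF'] at hz hsq
        exact sqr_fr hsq hz
      · rw [hF'] at hz
        obtain ⟨i, -, hz, -⟩ := mem_fr.1 hz
        rw [← hF', hsq] at hz
        exact (pi_norm_le_iff_of_nonneg hσ.le).2 fun j => hz.2 j
    · rw [div_self hσ.ne']; exact hc1
    · obtain ⟨φ, h1, h2⟩ := hfat.chart
      have m0 : ((0, 0) : ℝ × ℝ) ∈ usq := ⟨⟨le_refl _, zero_le_one⟩, le_refl _, zero_le_one⟩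
      have m1 : ((1, 1) : ℝ × ℝ) ∈ usq := ⟨⟨zero_le_one, le_refl _⟩, zero_le_one, le_refl _⟩
      have e : ‖((0, 0) : ℝ × ℝ) - (1, 1)‖ = 1 := by
        show max |(0:ℝ) - 1| |(0:ℝ) - 1| = 1
        norm_num
      have k2 := h2 _ m0 _ m1
      rw [e, mul_one] at k2
      have p0 : φ.toFun (0, 0) ∈ sqr a l σ := hsq.subset (φ.mapsTo m0)
      have p1 : φ.toFun (1, 1) ∈ sqr a l σ := hsq.subset (φ.mapsTo m1)
      have n0 : ‖φ.toFun (0, 0) - a‖ ≤ σ := (pi_norm_le_iff_of_nonneg hσ.le).2 fun j => p0.2 j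
      have n1 : ‖φ.toFun (1, 1) - a‖ ≤ σ := (pi_norm_le_iff_of_nonneg hσ.le).2 fun j => p1.2 j
      have n2 : ‖φ.toFun (0, 0) - φ.toFun (1, 1)‖ ≤ σ + σ := by
        have : φ.toFun (0, 0) - φ.toFun (1, 1) =
          (φ.toFun (0, 0) - a) - (φ.toFun (1, 1) - a) := by abel
        rw [this]
        exact (norm_sub_le _ _).trans (add_le_add n0 n1)
      have := mul_le_mul_of_nonneg_left n2 hc0.le
      linarith
    · obtain ⟨h3, h4⟩ := sqr_unique hσ hσ' (hsq ▸ h')
      exact ⟨h3, h4, h4⟩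
  · obtain ⟨φ, h1, h2⟩ := hfat.chart
    have hO : φ.toFun (1 / 2, 1 / 2) ∈ M.F k := φ.mapsTo centre_mem
    have hbd := chart_bd hfat φ
    refine ⟨φ.toFun (1 / 2, 1 / 2), M.r k / (2 * M.c k), M.c k * M.r k / 2, hO, ?_,
      by positivity, ?_, ?_, fun a l σ hσ h => absurd ⟨a, l, σ, hσ, h⟩ hsq⟩
    · refine star_of_ball' hF' hcpt hO (by positivity) (fun z hz => ?_)
        (fun z hz => ?_) (Nat.succ_pos _) (vv_clo C) (cv_vv_inj C) him
      · rw [← hbd] at hz
        obtain ⟨b, hb, rfl⟩ := hz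
        have g1 := h2 b hb.1 _ centre_mem
        have g2 := norm_sub_centre hb
        rw [div_le_iff₀ (by positivity)]
        have := mul_le_mul_of_nonneg_left g2 hr.le
        linarith
      · rw [← hbd] at hz
        obtain ⟨b, hb, rfl⟩ := hz
        have g1 := h1 b hb.1 _ centre_mem
        have g2 := norm_centre_sub hb.1
        have := mul_le_mul_of_nonneg_left g2 (mul_nonneg hc0.le hr.le)
        linarith
    · rw [div_div_eq_mul_div, div_le_iff₀ hr]
      apply le_of_eq; ring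
    · apply le_of_eq; field_simp

end Vale.Agent.P073.H155
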