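import Vale.Agent.P073.H155.Perim
import Vale.Agent.P073.H155.FatStar
import Vale.Agent.P073.H950.Pieces
import Vale.Agent.P073.H950.Usc
import Vale.Agent.P073.H233.CellSum
import Vale.Agent.P073.H73.PostA

/-!
# P073, H155 (ENER): face numbers from Lipschitz bounds on the cones over the edges
-/

open Set Metric Topology Filter MeasureTheory
open scoped ENNReal

set_option autoImplicit false

namespace P073.H155

open P073.H950 (pm pm_le le_pm pm_nonneg pm_eq_or)

section cones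

variable {E : Type*} [NormedAddCommGroup E] [NormedSpace ℝ E] {n : ℕ} {v : ℕ → E} {O : E}
  {rho R : ℝ} {F : Set E}

/-- **Lipschitz on the cones, Lipschitz on the face** -/
theorem Star.lip_of_cones (hS : Star n v O rho R F) (hF : Convex ℝ F) {M : Type*}
    [PseudoMetricSpace M] {g : E → M} {K : ℝ} (hg : ∀ j < n, ∀ x ∈ cn v O j, ∀ y ∈ cn v O j,
      dist (g x) (g y) ≤ K * dist x y) {x y : E} (hx : x ∈ F) (hy : y ∈ F) :
    dist (g x) (g y) ≤ K * dist x y := by
  refine H950.dist_le_of_pieces hF (P := fun j : Fin n => cn v O j)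
    (fun j => (isCompact_cn v O j).isClosed) (fun z hz => ?_)
    (fun j a _ ha b _ hb => hg j j.2 a ha b hb) hx hy
  obtain ⟨j, hj, hz⟩ := hS.exists_cn hz
  exact mem_iUnion.2 ⟨⟨j, hj⟩, hz⟩

/-- the maximal constant of the cones through the point -/
noncomputable def cm (n : ℕ) (v : ℕ → E) (O : E) (A : ℕ → ℝ) (x : E) : ℝ :=
  pm (fun j : Fin n => cn v O j) (fun (j : Fin n) _ => A j) x

theorem cm_nonneg (n : ℕ) (v : ℕ → E) (O : E) (A : ℕ → ℝ) (x : E) : 0 ≤ cm n v O A x :=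
  pm_nonneg _

theorem le_cm {A : ℕ → ℝ} {j : ℕ} (hj : j < n) {x : E} (hx : x ∈ cn v O j) :
    A j ≤ cm n v O A x :=
  le_pm (S := fun j : Fin n => cn v O j) (G := fun (j : Fin n) _ => A j) (j := ⟨j, hj⟩) hx

theorem cm_le {A : ℕ → ℝ} {c : ℝ} {x : E} :
    cm n v O A x ≤ c ↔ 0 ≤ c ∧ ∀ j < n, x ∈ cn v O j → A j ≤ c := by
  unfold cm
  rw [pm_le]
  exact and_congr_right fun _ => ⟨fun h j hj hx => h ⟨j, hj⟩ hx, fun h j hx => h j j.2 hx⟩

theorem cm_eq_or (n : ℕ) (v : ℕ → E) (O : E) (A : ℕ → ℝ) (x : E) :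
    cm n v O A x = 0 ∨ ∃ j < n, x ∈ cn v O j ∧ cm n v O A x = A j := by
  rcases pm_eq_or (S := fun j : Fin n => cn v O j) (G := fun (j : Fin n) _ => A j) x with
    h | ⟨j, hx, h⟩
  · exact Or.inl h
  · exact Or.inr ⟨j, j.2, hx, h⟩

theorem usc_cm (n : ℕ) (v : ℕ → E) (O : E) (A : ℕ → ℝ) :
    UpperSemicontinuous (cm n v O A) :=
  P073.H950.upperSemicontinuous_pm (fun j => (isCompact_cn v O j).isClosed)
    fun _ => upperSemicontinuousOn_const

/-- near a point of the face, every point of the face is in a common cone -/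
theorem Star.ev_common (hS : Star n v O rho R F) (x : E) :
    ∀ᶠ y in 𝓝[F] x, ∃ j < n, x ∈ cn v O j ∧ y ∈ cn v O j := by
  have h1 : ∀ᶠ y in 𝓝 x, ∀ j : Fin n, x ∉ cn v O j → y ∉ cn v O j := by
    rw [eventually_all]
    intro j
    by_cases h : x ∈ cn v O j
    · exact Eventually.of_forall fun y hy => absurd h hy
    · filter_upwards [(isCompact_cn v O j).isClosed.isOpen_compl.mem_nhds h] with y hy _
      exact hy
  filter_upwards [mem_nhdsWithin_of_mem_nhds h1, self_mem_nhdsWithin] with y hy hyF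
  obtain ⟨j, hj, hyj⟩ := hS.exists_cn hyF
  refine ⟨j, hj, ?_, hyj⟩
  by_contra h
  exact hy ⟨j, hj⟩ h hyj

/-- **the local Lipschitz bound** -/
theorem Star.ev_lip (hS : Star n v O rho R F) {cost : E → E → ℝ} {A : ℕ → ℝ}
    (hc : ∀ j < n, ∀ x ∈ cn v O j, ∀ y ∈ cn v O j, cost y x ≤ A j * dist y x) (x : E) :
    ∀ᶠ y in 𝓝[F] x, cost y x ≤ cm n v O A x * dist y x := by
  filter_upwards [hS.ev_common x] with y hy
  obtain ⟨j, hj, hx, hy⟩ := hy
  exact (hc j hj x hx y hy).trans (mul_le_mul_of_nonneg_right (le_cm hj hx) dist_nonneg)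

end cones

/-! ### Volumes -/

open Vale.Agent.P073.St (V)
open Vale.Agent.P073.SQ (cube ev)
open Vale.Agent.P073.H73 (sqr faceL)

/-- the volume of a set with short sections -/
theorem volume_le_of_section {S : Set V} (hS : MeasurableSet S) (m : Fin 3) {a : V} {σ L : ℝ}
    (hσ : 0 ≤ σ) (hsub : S ⊆ cube a σ)
    (hL : ∀ x ∈ S, ∀ y ∈ S, (∀ i, i ≠ m → x i = y i) → |x m - y m| ≤ L) :
    volume S ≤ ENNReal.ofReal (4 * σ ^ 2 * L) := by
  set T : Set (ℝ × (Fin 2 → ℝ)) := (Vale.Agent.P073.SQ.Edge.eq m).symm ⁻¹' S with hT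
  have hTm : MeasurableSet T := (Vale.Agent.P073.SQ.Edge.eq m).symm.measurable hS
  have h1 : volume S = volume T := by
    have h2 := (Vale.Agent.P073.SQ.Edge.eq_pres m).measure_preimage_equiv T
    rw [← h2, hT]
    congr 1
    ext x
    simp
  have hmem : ∀ r y, (r, y) ∈ T ↔ (m.insertNth r y : V) ∈ S := fun r y => Iff.rfl
  rw [h1, Measure.volume_eq_prod, Measure.prod_apply_symm hTm]
  have hsec : ∀ y : Fin 2 → ℝ, volume ((fun r => (r, y)) ⁻¹' T) ≤
      (Vale.Agent.P073.SQ.Edge.sq (m.removeNth a) σ).indicator (fun _ => ENNReal.ofReal L) y := by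
    intro y
    by_cases hy : y ∈ Vale.Agent.P073.SQ.Edge.sq (m.removeNth a) σ
    · rw [indicator_of_mem hy]
      refine (Real.volume_le_diam _).trans (ediam_le fun r hr s hs => ?_)
      rw [edist_dist, Real.dist_eq]
      refine ENNReal.ofReal_le_ofReal ?_
      have := hL _ ((hmem r y).1 hr) _ ((hmem s y).1 hs) fun i hi => by
        rcases Fin.eq_self_or_eq_succAbove m i with rfl | ⟨k, rfl⟩
        · exact absurd rfl hi
        · rw [Fin.insertNth_apply_succAbove, Fin.insertNth_apply_succAbove]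
      simpa only [Fin.insertNth_apply_same] using this
    · rw [indicator_of_notMem hy, nonpos_iff_eq_zero]
      have : (fun r : ℝ => (r, y)) ⁻¹' T = ∅ := by
        rw [Set.eq_empty_iff_forall_notMem]
        intro r hr
        apply hy
        intro k
        have := hsub ((hmem r y).1 hr) (m.succAbove k)
        rwa [Fin.insertNth_apply_succAbove] at this
      rw [this, measure_empty]
  refine (lintegral_mono hsec).trans ?_
  rw [lintegral_indicator_const (Vale.Agent.P073.SQ.Edge.measurableSet_sq _ _),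
    Vale.Agent.P073.SQ.Edge.volume_sq _ hσ]
  by_cases hL0 : 0 ≤ L
  · rw [← ENNReal.ofReal_mul hL0]
    apply le_of_eq
    congr 1
    ring
  · rw [ENNReal.ofReal_of_nonpos (not_le.1 hL0).le, zero_mul]
    exact zero_le

variable {n : ℕ} {v : ℕ → V} {a : V} {l : Fin 3} {σ : ℝ}

/-- every edge lies in a side of the square -/
theorem exists_side_sqr (hσ : 0 < σ) (hS : Star n v a σ σ (sqr a l σ)) {j : ℕ} (hj : j < n) :
    ∃ (i : Fin 3) (c : ℝ), i ≠ l ∧ c ≠ 0 ∧ v j i = a i + c ∧ v (j + 1) i = a i + c := by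
  obtain ⟨f, f1, -, f3⟩ := hS.exists_sup hj
  set z : V := v j + (1 / 2 : ℝ) • (v (j + 1) - v j) with hz
  have hzs : z ∈ segment ℝ (v j) (v (j + 1)) := by
    rw [segment_eq_image']
    exact ⟨1 / 2, ⟨by norm_num, by norm_num⟩, rfl⟩
  have hzF := hS.seg_sub hj hzs
  have h1 : σ ≤ ‖z - a‖ := by
    have h2 := f3 z hzF a hS.mem_O
    rw [f1 z hzs, abs_one, le_div_iff₀ hσ, one_mul] at h2
    exact h2
  obtain ⟨i, hi⟩ : ∃ i, σ ≤ |z i - a i| := by
    by_contra hcon
    push Not at hcon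
    refine absurd h1 (not_le.2 ?_)
    rw [pi_norm_lt_iff hσ]
    intro i
    rw [Real.norm_eq_abs]
    exact hcon i
  have hl : i ≠ l := by
    rintro rfl
    rw [hzF.1, sub_self, abs_zero] at hi
    linarith
  have b1 := (hS.seg_sub hj (left_mem_segment ℝ _ _)).2 i
  have b2 := (hS.seg_sub hj (right_mem_segment ℝ _ _)).2 i
  have e : z i - a i = ((v j i - a i) + (v (j + 1) i - a i)) / 2 := by
    rw [hz]
    simp only [Pi.add_apply, Pi.smul_apply, Pi.sub_apply, smul_eq_mul]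
    ring
  rw [e] at hi
  rw [abs_le] at b1 b2
  rcases le_abs.1 hi with h | h
  · exact ⟨i, σ, hl, hσ.ne', by linarith, by linarith⟩
  · exact ⟨i, -σ, hl, (neg_neg_of_pos hσ).ne, by linarith, by linarith⟩

/-- the third index -/
theorem exists_third (i l : Fin 3) (h : i ≠ l) :
    ∃ m : Fin 3, m ≠ i ∧ m ≠ l ∧ ∀ k, k = i ∨ k = l ∨ k = m := by
  fin_cases i <;> fin_cases l <;> first
    | exact absurd rfl h
    | exact ⟨0, by decide, by decide, by decide⟩
    | exact ⟨1, by decide, by decide, by decide⟩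
    | exact ⟨2, by decide, by decide, by decide⟩

/-- the points over a cone -/
def ovc (v : ℕ → V) (a : V) (l : Fin 3) (σ : ℝ) (j : ℕ) : Set V :=
  {x | x ∈ cube a σ ∧ Function.update x l (a l) ∈ cn v a j}

theorem isClosed_ovc (v : ℕ → V) (a : V) (l : Fin 3) (σ : ℝ) (j : ℕ) :
    IsClosed (ovc v a l σ j) := by
  have h1 : Continuous fun x : V => Function.update x l (a l) :=
    continuous_id.update l continuous_const
  exact (Vale.Agent.P073.SQ.isClosed_cube a σ).inter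
    ((isCompact_cn v a j).isClosed.preimage h1)

/-- **the volume over a cone** -/
theorem volume_ovc_le (hσ : 0 < σ) (hS : Star n v a σ σ (sqr a l σ)) {j : ℕ} (hj : j < n) :
    volume (ovc v a l σ j) ≤ ENNReal.ofReal (4 * σ ^ 2 * ‖v (j + 1) - v j‖) := by
  obtain ⟨i, c, hil, hc, h1, h2⟩ := exists_side_sqr hσ hS hj
  obtain ⟨m, hmi, hml, hm⟩ := exists_third i l hil
  refine volume_le_of_section (isClosed_ovc v a l σ j).measurableSet m hσ.le
    (fun x hx => hx.1) fun x hx y hy hxy => ?_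
  obtain ⟨-, s, hs, b, hb, hxb⟩ := hx
  obtain ⟨-, s', hs', b', hb', hyb⟩ := hy
  rw [segment_eq_image'] at hb hb'
  obtain ⟨r, hr, rfl⟩ := hb
  obtain ⟨r', hr', rfl⟩ := hb'
  have ex := fun k : Fin 3 => congrArg (fun z : V => z k) hxb
  have ey := fun k : Fin 3 => congrArg (fun z : V => z k) hyb
  simp only [Pi.add_apply, Pi.smul_apply, Pi.sub_apply, smul_eq_mul] at ex ey
  have exi := ex i
  have eyi := ey i
  have exm := ex m
  have eym := ey m
  rw [Function.update_of_ne hil, h1, h2] at exi eyi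
  rw [Function.update_of_ne hml] at exm eym
  rw [hxy i hmi.symm] at exi
  have hss : s = s' := by
    have : s * c = s' * c := by linarith
    exact mul_right_cancel₀ hc this
  subst hss
  have e : x m - y m = s * ((r - r') * (v (j + 1) m - v j m)) := by
    rw [exm, eym]; ring
  rw [e, abs_mul, abs_mul, abs_of_nonneg hs.1]
  have g1 : |r - r'| ≤ 1 := abs_le.2 ⟨by linarith [hr.1, hr'.2], by linarith [hr.2, hr'.1]⟩
  have g2 : |v (j + 1) m - v j m| ≤ ‖v (j + 1) - v j‖ := by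
    rw [← Pi.sub_apply, ← Real.norm_eq_abs]
    exact norm_le_pi_norm _ m
  calc s * (|r - r'| * |v (j + 1) m - v j m|) ≤ 1 * (1 * ‖v (j + 1) - v j‖) :=
        mul_le_mul hs.2 (mul_le_mul g1 g2 (abs_nonneg _) zero_le_one)
          (mul_nonneg (abs_nonneg _) (abs_nonneg _)) zero_le_one
    _ = ‖v (j + 1) - v j‖ := by ring

theorem update_mem_sqr (hσ : 0 < σ) {x : V} (hx : x ∈ cube a σ) :
    Function.update x l (a l) ∈ sqr a l σ := by
  refine ⟨Function.update_self _ _ _, fun k => ?_⟩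
  by_cases hk : k = l
  · subst hk
    rw [Function.update_self, sub_self, abs_zero]
    exact hσ.le
  · rw [Function.update_of_ne hk]
    exact hx k

/-- **the integral of a function which is bounded on the cones** -/
theorem lint_le (hσ : 0 < σ) (hS : Star n v a σ σ (sqr a l σ)) {A : ℕ → ℝ} {p : ℝ}
    (hp : 0 < p) :
    ∫⁻ x in cube a σ, ENNReal.ofReal (cm n v a A (Function.update x l (a l)) ^ p) ≤
      ∑ j ∈ Finset.range n,
        ENNReal.ofReal (4 * σ ^ 2 * ‖v (j + 1) - v j‖) * ENNReal.ofReal (A j ^ p) := by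
  classical
  have h1 : ∀ x ∈ cube a σ, ENNReal.ofReal (cm n v a A (Function.update x l (a l)) ^ p) ≤
      ∑ j ∈ Finset.range n, (ovc v a l σ j).indicator (fun _ => ENNReal.ofReal (A j ^ p)) x := by
    intro x hx
    rcases cm_eq_or n v a A (Function.update x l (a l)) with h | ⟨j, hj, hxj, h⟩
    · rw [h, Real.zero_rpow hp.ne', ENNReal.ofReal_zero]
      exact zero_le
    · rw [h]
      have hm : x ∈ ovc v a l σ j := ⟨hx, hxj⟩
      have h2 : (ovc v a l σ j).indicator (fun _ => ENNReal.ofReal (A j ^ p)) x =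
        ENNReal.ofReal (A j ^ p) := indicator_of_mem hm _
      rw [← h2]
      exact Finset.single_le_sum
        (f := fun j => (ovc v a l σ j).indicator (fun _ => ENNReal.ofReal (A j ^ p)) x)
        (fun _ _ => zero_le) (Finset.mem_range.2 hj)
  refine (setLIntegral_mono' (Vale.Agent.P073.SQ.isClosed_cube a σ).measurableSet h1).trans ?_
  rw [lintegral_finsetSum _ fun j _ => measurable_const.indicator
    (isClosed_ovc v a l σ j).measurableSet]
  refine Finset.sum_le_sum fun j hj => ?_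
  rw [lintegral_indicator_const (isClosed_ovc v a l σ j).measurableSet, mul_comm]
  gcongr
  exact (Measure.restrict_apply_le _ _).trans (volume_ovc_le hσ hS (Finset.mem_range.1 hj))

/-! ### The numbers -/

/-- the constant -/
noncomputable def dp (p : ℝ) : ℝ := 4 * 2 ^ (p - 1) * (1 + 12 ^ p)

theorem dp_pos (p : ℝ) : 0 < dp p := by unfold dp; positivity

theorem add_rpow_le {x y p : ℝ} (hx : 0 ≤ x) (hy : 0 ≤ y) (hp : 1 ≤ p) :
    (x + y) ^ p ≤ 2 ^ (p - 1) * (x ^ p + y ^ p) := by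
  lift x to NNReal using hx
  lift y to NNReal using hy
  exact_mod_cast NNReal.rpow_add_le_mul_rpow_add_rpow x y hp

/-- **the power sum** -/
theorem num_le {p σ C : ℝ} (hp : 1 ≤ p) (hσ : 0 < σ) (hC : 0 ≤ C) {n : ℕ} {e b : ℕ → ℝ}
    (he : ∀ j < n, 0 < e j) (hb : ∀ j < n, 0 ≤ b j)
    (hper : ∑ j ∈ Finset.range n, e j ≤ 12 * σ) :
    ∑ j ∈ Finset.range n, 4 * σ ^ 2 * e j *
        (C * (b j / e j + (∑ i ∈ Finset.range n, b i) / σ)) ^ p ≤
      dp p * C ^ p * σ ^ 2 * ∑ j ∈ Finset.range n, e j ^ (1 - p) * b j ^ p := by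
  set W : ℝ := ∑ i ∈ Finset.range n, b i with hW
  set S : ℝ := ∑ j ∈ Finset.range n, e j ^ (1 - p) * b j ^ p with hSd
  have hp0 : 0 < p := by linarith
  have he' : ∀ j ∈ Finset.range n, 0 < e j := fun j hj => he j (Finset.mem_range.1 hj)
  have hb' : ∀ j ∈ Finset.range n, 0 ≤ b j := fun j hj => hb j (Finset.mem_range.1 hj)
  have hW0 : 0 ≤ W := Finset.sum_nonneg hb'
  have hS0 : 0 ≤ S := Finset.sum_nonneg fun j hj =>
    mul_nonneg (Real.rpow_nonneg (he' j hj).le _) (Real.rpow_nonneg (hb' j hj) _)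
  have hL0 : 0 ≤ ∑ j ∈ Finset.range n, e j := Finset.sum_nonneg fun j hj => (he' j hj).le
  -- one term
  have h1 : ∀ j ∈ Finset.range n, 4 * σ ^ 2 * e j * (C * (b j / e j + W / σ)) ^ p ≤
      4 * σ ^ 2 * C ^ p * 2 ^ (p - 1) * (e j ^ (1 - p) * b j ^ p) +
        4 * σ ^ 2 * C ^ p * 2 ^ (p - 1) * (W / σ) ^ p * e j := by
    intro j hj
    have hej := he' j hj
    have hbj := hb' j hj
    have q1 : 0 ≤ b j / e j := div_nonneg hbj hej.le
    have q2 : 0 ≤ W / σ := div_nonneg hW0 hσ.le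
    have g1 : (b j / e j + W / σ) ^ p ≤ 2 ^ (p - 1) * ((b j / e j) ^ p + (W / σ) ^ p) := by
      exact add_rpow_le q1 q2 hp
    rw [Real.mul_rpow hC (add_nonneg q1 q2)]
    have g2 : e j * (b j / e j) ^ p = e j ^ (1 - p) * b j ^ p := by
      rw [Real.div_rpow hbj hej.le, Real.rpow_sub hej, Real.rpow_one]
      ring
    have hk : 0 ≤ 4 * σ ^ 2 * e j * C ^ p := by positivity
    calc 4 * σ ^ 2 * e j * (C ^ p * (b j / e j + W / σ) ^ p)
        = 4 * σ ^ 2 * e j * C ^ p * (b j / e j + W / σ) ^ p := by ring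
      _ ≤ 4 * σ ^ 2 * e j * C ^ p * (2 ^ (p - 1) * ((b j / e j) ^ p + (W / σ) ^ p)) :=
          mul_le_mul_of_nonneg_left g1 hk
      _ = 4 * σ ^ 2 * C ^ p * 2 ^ (p - 1) * (e j * (b j / e j) ^ p) +
        4 * σ ^ 2 * C ^ p * 2 ^ (p - 1) * (W / σ) ^ p * e j := by ring
      _ = _ := by rw [g2]
  refine (Finset.sum_le_sum h1).trans ?_
  rw [Finset.sum_add_distrib, ← Finset.mul_sum, ← Finset.mul_sum]
  -- the second sum
  have h2 : W ^ p ≤ (∑ j ∈ Finset.range n, e j) ^ (p - 1) * S :=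
    Vale.Agent.P073.H233.rpow_sum_le _ hp he' hb'
  have h3 : (∑ j ∈ Finset.range n, e j) ^ (p - 1) ≤ (12 * σ) ^ (p - 1) :=
    Real.rpow_le_rpow hL0 hper (by linarith)
  have h4 : (W / σ) ^ p * ∑ j ∈ Finset.range n, e j ≤ 12 ^ p * S := by
    have hσp : 0 < σ ^ p := Real.rpow_pos_of_pos hσ p
    calc (W / σ) ^ p * ∑ j ∈ Finset.range n, e j
        = W ^ p / σ ^ p * ∑ j ∈ Finset.range n, e j := by rw [Real.div_rpow hW0 hσ.le]
      _ ≤ ((12 * σ) ^ (p - 1) * S) / σ ^ p * (12 * σ) := by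
          refine mul_le_mul (div_le_div_of_nonneg_right
            (h2.trans (mul_le_mul_of_nonneg_right h3 hS0)) hσp.le) hper hL0 ?_
          positivity
      _ = ((12 * σ) ^ (p - 1) * (12 * σ)) * S / σ ^ p := by ring
      _ = 12 ^ p * S := by
          rw [← Real.rpow_add_one (by positivity), sub_add_cancel,
            Real.mul_rpow (by norm_num) hσ.le]
          field_simp
  have hk : 0 ≤ 4 * σ ^ 2 * C ^ p * 2 ^ (p - 1) := by positivity
  calc 4 * σ ^ 2 * C ^ p * 2 ^ (p - 1) * S +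
        4 * σ ^ 2 * C ^ p * 2 ^ (p - 1) * (W / σ) ^ p * ∑ j ∈ Finset.range n, e j
      = 4 * σ ^ 2 * C ^ p * 2 ^ (p - 1) * (S + (W / σ) ^ p * ∑ j ∈ Finset.range n, e j) := by ring
    _ ≤ 4 * σ ^ 2 * C ^ p * 2 ^ (p - 1) * (S + 12 ^ p * S) :=
        mul_le_mul_of_nonneg_left (by linarith) hk
    _ = dp p * C ^ p * σ ^ 2 * S := by unfold dp; ring

/-! ### The main statements -/

theorem Star.edge_pos {O : V} {rho R : ℝ} {F : Set V} (hS : Star n v O rho R F) {j : ℕ}
    (hj : j < n) : 0 < ‖v (j + 1) - v j‖ := by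
  rw [norm_pos_iff, sub_ne_zero]
  intro h
  have h0 : (j : ℝ) + 1 ≤ n := by exact_mod_cast hj
  have h1 : cv n v j = v j := cv_nat v hj
  have h2 : cv n v (j + 1 / 2 : ℝ) = v j := by
    rw [cv_eq v hj (by linarith) (by linarith), h, sub_self, smul_zero, add_zero]
  have h3 := hS.inj ⟨Nat.cast_nonneg j, by linarith⟩
    ⟨by positivity, by linarith⟩ (h1.trans h2.symm)
  linarith

/-- the bound on the cone over the edge `j` -/
noncomputable def ab (C rho : ℝ) (n : ℕ) (v : ℕ → V) (b : ℕ → ℝ) (j : ℕ) : ℝ :=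
  C * (b j / ‖v (j + 1) - v j‖ + (∑ i ∈ Finset.range n, b i) / rho)

theorem ab_nonneg {C rho : ℝ} (hC : 0 ≤ C) (hr : 0 ≤ rho) {b : ℕ → ℝ} (hb : ∀ j < n, 0 ≤ b j)
    {j : ℕ} (hj : j < n) : 0 ≤ ab C rho n v b j :=
  mul_nonneg hC (add_nonneg (div_nonneg (hb j hj) (norm_nonneg _))
    (div_nonneg (Finset.sum_nonneg fun i hi => hb i (Finset.mem_range.1 hi)) hr))

/-- **Lipschitz on the whole face** -/
theorem Star.ener_lip {O : V} {rho R : ℝ} {F : Set V} (hS : Star n v O rho R F)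
    (hF : Convex ℝ F) {ν : V →L[ℝ] ℝ} {t : ℝ} (hν : ν ≠ 0) (hpl : ∀ x ∈ F, ν x = t)
    {M : Type*} [PseudoMetricSpace M] {g : V → M} {C K : ℝ} (hC : 0 ≤ C) (hK : 0 ≤ K)
    {b : ℕ → ℝ} (hb : ∀ j < n, b j ≤ K * ‖v (j + 1) - v j‖)
    (hg : ∀ j < n, ∀ x ∈ cn v O j, ∀ y ∈ cn v O j, dist (g x) (g y) ≤ ab C rho n v b j * dist x y)
    {x y : V} (hx : x ∈ F) (hy : y ∈ F) :
    dist (g x) (g y) ≤ C * (1 + 12 * (R / rho)) * K * dist x y := by
  refine hS.lip_of_cones hF (fun j hj x hx y hy => (hg j hj x hx y hy).trans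
    (mul_le_mul_of_nonneg_right ?_ dist_nonneg)) hx hy
  have h1 : b j / ‖v (j + 1) - v j‖ ≤ K := (div_le_iff₀ (hS.edge_pos hj)).2 (hb j hj)
  have h2 : (∑ i ∈ Finset.range n, b i) / rho ≤ K * (12 * (R / rho)) := by
    have h3 : ∑ i ∈ Finset.range n, b i ≤ K * (12 * R) := by
      refine (Finset.sum_le_sum fun i hi => hb i (Finset.mem_range.1 hi)).trans ?_
      rw [← Finset.mul_sum]
      exact mul_le_mul_of_nonneg_left (perim_le hS hν hpl) hK
    rw [div_le_iff₀ hS.rho0]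
    have e : K * (12 * (R / rho)) * rho = K * (12 * R) := by
      have := hS.rho0.ne'
      field_simp
    rw [e]; exact h3
  unfold ab
  calc C * (b j / ‖v (j + 1) - v j‖ + (∑ i ∈ Finset.range n, b i) / rho)
      ≤ C * (K + K * (12 * (R / rho))) := mul_le_mul_of_nonneg_left (add_le_add h1 h2) hC
    _ = C * (1 + 12 * (R / rho)) * K := by ring

theorem sqr_plane (a : V) (l : Fin 3) (σ : ℝ) :
    (ContinuousLinearMap.proj l : V →L[ℝ] ℝ) ≠ 0 ∧
      ∀ x ∈ sqr a l σ, (ContinuousLinearMap.proj l : V →L[ℝ] ℝ) x = a l := by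
  refine ⟨fun h => ?_, fun x hx => hx.1⟩
  have := DFunLike.congr_fun h (fun _ => (1:ℝ) : V)
  exact one_ne_zero this

/-- **the integral of the local Lipschitz bound** -/
theorem ener_int (hσ : 0 < σ) (hS : Star n v a σ σ (sqr a l σ)) {C p : ℝ} (hp : 1 ≤ p)
    (hC : 0 ≤ C) {b : ℕ → ℝ} (hb : ∀ j < n, 0 ≤ b j) :
    ∫⁻ x in cube a σ,
        ENNReal.ofReal (cm n v a (ab C σ n v b) (Function.update x l (a l)) ^ p) ≤
      ENNReal.ofReal (dp p * C ^ p * σ ^ 2 *
        ∑ j ∈ Finset.range n, ‖v (j + 1) - v j‖ ^ (1 - p) * b j ^ p) := by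
  refine (lint_le hσ hS (by linarith)).trans ?_
  have e : ∀ j ∈ Finset.range n,
      ENNReal.ofReal (4 * σ ^ 2 * ‖v (j + 1) - v j‖) * ENNReal.ofReal (ab C σ n v b j ^ p) =
      ENNReal.ofReal (4 * σ ^ 2 * ‖v (j + 1) - v j‖ * ab C σ n v b j ^ p) := fun j _ =>
    (ENNReal.ofReal_mul (mul_nonneg (by positivity) (norm_nonneg _))).symm
  rw [Finset.sum_congr rfl e, ← ENNReal.ofReal_sum_of_nonneg fun j hj =>
    mul_nonneg (by positivity) (Real.rpow_nonneg (ab_nonneg hC hσ.le hb (Finset.mem_range.1 hj)) _)]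
  refine ENNReal.ofReal_le_ofReal ?_
  obtain ⟨hν, hpl⟩ := sqr_plane a l σ
  exact num_le hp hσ hC (fun j hj => hS.edge_pos hj) hb (perim_le hS hν hpl)

/-- **the energy on the face** -/
theorem ener_face (hσ : 0 < σ) (hS : Star n v a σ σ (sqr a l σ)) {C p : ℝ} (hp : 1 ≤ p)
    (hC : 0 ≤ C) {b : ℕ → ℝ} (hb : ∀ j < n, 0 ≤ b j) {g : V → V}
    (hg : ∀ j < n, ∀ x ∈ cn v a j, ∀ y ∈ cn v a j, ‖g x - g y‖ ≤ ab C σ n v b j * ‖x - y‖) :
    faceL p g a l σ ≤ 2 * ENNReal.ofReal (dp p * C ^ p * σ ^ 2 *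
        ∑ j ∈ Finset.range n, ‖v (j + 1) - v j‖ ^ (1 - p) * b j ^ p) := by
  have hp0 : 0 ≤ p := by linarith
  have hcube : cube a σ = closedBall a σ := by
    ext x
    rw [mem_closedBall, dist_pi_le_iff hσ.le]
    exact forall_congr' fun l => by rw [Real.dist_eq]
  have hae : ∀ᵐ x ∂(volume.restrict (cube a σ)), ∀ l, |x l - a l| < σ := by
    have h0 : volume (sphere a σ) = 0 := Measure.addHaar_sphere_of_ne_zero _ _ hσ.ne'
    filter_upwards [ae_restrict_mem (Vale.Agent.P073.SQ.isClosed_cube a σ).measurableSet,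
      ae_restrict_of_ae (measure_eq_zero_iff_ae_notMem.1 h0)] with x hx hx'
    rw [hcube, mem_closedBall] at hx
    have h1 : dist x a < σ := lt_of_le_of_ne hx fun h => hx' (mem_sphere.2 h)
    intro l
    rw [dist_pi_lt_iff hσ] at h1
    simpa [Real.dist_eq] using h1 l
  have key : ∀ j ∈ Finset.univ.erase l, ∫⁻ x in cube a σ,
      ENNReal.ofReal (‖lineDeriv ℝ g (Function.update x l (a l)) (ev j)‖ ^ p) ≤
      ENNReal.ofReal (dp p * C ^ p * σ ^ 2 *
        ∑ j ∈ Finset.range n, ‖v (j + 1) - v j‖ ^ (1 - p) * b j ^ p) := by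
    intro j hj
    have hjl : j ≠ l := Finset.ne_of_mem_erase hj
    refine (lintegral_mono_ae ?_).trans (ener_int hσ hS hp hC hb)
    filter_upwards [hae] with x hx
    refine ENNReal.ofReal_le_ofReal (Real.rpow_le_rpow (norm_nonneg _) ?_ hp0)
    set y := Function.update x l (a l) with hy
    have hyl : y l = a l := by rw [hy, Function.update_self]
    have hyσ : ∀ k, |y k - a k| < σ := by
      intro k
      by_cases hk : k = l
      · rw [hk, hyl, sub_self, abs_zero]; exact hσ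
      · rw [hy, Function.update_of_ne hk]; exact hx k
    have hyF : y ∈ sqr a l σ := ⟨hyl, fun k => (hyσ k).le⟩
    have e1 : ∀ r : ℝ, ∀ k, (y + r • ev j) k = y k + (if k = j then r else 0) := by
      intro r k
      by_cases hk : k = j
      · subst hk; simp [ev]
      · simp [ev, hk]
    refine norm_deriv_le_of_lip' (cm_nonneg _ _ _ _ _) ?_
    have hcont : Tendsto (fun t : ℝ => y + t • ev j) (𝓝 0) (𝓝 y) := by
      have : Continuous fun t : ℝ => y + t • ev j := by fun_prop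
      simpa using this.tendsto 0
    have hmem : ∀ᶠ t : ℝ in 𝓝 0, y + t • ev j ∈ sqr a l σ := by
      have hev : ∀ᶠ t : ℝ in 𝓝 0, |y j + t - a j| < σ := by
        have hc : Continuous fun t : ℝ => |y j + t - a j| := by fun_prop
        exact hc.continuousAt.eventually_lt continuousAt_const (by simpa using hyσ j)
      filter_upwards [hev] with t ht
      refine ⟨?_, fun k => ?_⟩
      · rw [e1, if_neg hjl.symm, add_zero, hyl]
      · rw [e1]
        by_cases hk : k = j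
        · subst hk; rw [if_pos rfl]; exact ht.le
        · rw [if_neg hk, add_zero]; exact (hyσ k).le
    have hlip := hS.ev_lip (cost := fun z z' => ‖g z - g z'‖) (A := ab C σ n v b)
      (fun j hj x hx z hz => by rw [dist_eq_norm]; exact hg j hj z hz x hx) y
    filter_upwards [(tendsto_nhdsWithin_iff.2 ⟨hcont, hmem⟩).eventually hlip] with t ht
    rw [dist_eq_norm, add_sub_cancel_left, norm_smul, Vale.Agent.P073.AB.S293.ev_norm, mul_one] at ht
    simpa using ht
  unfold faceL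
  refine (Finset.sum_le_sum key).trans ?_
  rw [Finset.sum_const, Finset.card_erase_of_mem (Finset.mem_univ l), Finset.card_univ,
    Fintype.card_fin, nsmul_eq_mul]
  norm_num

end P073.H155
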