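import Vale.Agent.P073.H155.Shared1
import Vale.Agent.P073.H345.PBox

/-!
# P073, H155: **(GE-SHARED)** the edges between a peeled face and a face off the plates
-/

open Set Metric Topology Filter

set_option autoImplicit false

namespace P073.H155

open _root_.P073 _root_.P073.Net _root_.P073.PA691 _root_.P073.H236 _root_.P073.H579
open _root_.P073.H345
open Vale.Agent.P073.St (V)
open Vale.Agent.P073.H471 Vale.Agent.P073.H267
open Vale.Agent.P073.H805 (RIn ROut)
open Vale.Agent.P073.H73 (Mesh)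
open Vale.Agent.P073.H193 (Edges)

variable {Ω Λ : Set V} {v : V} {K : BoxCx Λ v} {S : Rad K} {W : Wid K S} {B : Boxes W}
  {G : Geo B} {L : PLev G} {M : Mesh Ω} {E : Edges M} {h h1 h2 : ConHomeo Ω Λ}

/-- the boxes of round T with direction `l` at the square `s` -/
def RelT (s : K.S) (l : Fin 3) : TBx K → Prop
  | .inl e => K.edge e ⊆ K.sq s ∧ K.dir e = l
  | .inr H => H.s = s ∧ H.l = l

theorem RelT.ax {s : K.S} {l : Fin 3} {b : TBx K} (h : RelT s l b) : b.ax = l := by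
  cases b with
  | inl e => exact h.2
  | inr H => exact h.2

/-- **(BAND)**: the cells of the levels of round P avoid the (closed) slivers -/
def BandP (L : PLev G) (sl : TBx K → Finset (ℝ × ℝ)) : Prop :=
  ∀ s β, ∀ n < L.N s β, ∀ b, RelT s (tg s β) b → ∀ p ∈ sl b,
    p.2 < L.a s β n - 2 * L.c s β ∨ L.a s β n + 2 * L.c s β < p.1

/-- half widths of the flats -/
noncomputable def cP (L : PLev G) (s : K.S) (j : Fin 3) : ℝ := L.c s (bt s j)

theorem cP_pos (L : PLev G) (s : K.S) (j : Fin 3) : 0 < cP L s j := (L.lvs s _).c0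

/-- position of a point of a plate, off the plate -/
theorem wall_of_level {s : K.S} {β : Bool} {y : V} (hy : y ∈ G.PB (3 / 4) s)
    (hy1 : y ∉ G.PB 1 s) (hn : |y (K.nrm s) - K.slo s (K.nrm s)| ≤ 1 / 2 * B.τ s)
    (hlo : K.slo s (tg s β) + G.a s ≤ y (tg s β)) (hhi : y (tg s β) ≤ K.shi s (tg s β) - G.a s) :
    (∃ β', G.Wall s (tg s (!β)) (tg s β) β' y) ∧
      (y (tg s (!β)) ≤ K.slo s (tg s (!β)) + G.a s ∨
        K.shi s (tg s (!β)) - G.a s ≤ y (tg s (!β))) := by
  have hp := Geo.p_pos (G := G) s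
  have hpa := Geo.p_a (G := G) s
  have hτ := B.τ_pos s
  have h1 := (Geo.mem_PB.1 hy).1 _ (tg_ne s (!β))
  have h2 : y (tg s (!β)) < K.slo s (tg s (!β)) + G.p s ∨
      K.shi s (tg s (!β)) - G.p s < y (tg s (!β)) := by
    by_contra hcon
    push Not at hcon
    apply hy1
    refine Geo.mem_PB.2 ⟨fun k hk => ?_, by linarith⟩
    rcases tg_cases s β hk with rfl | rfl
    · constructor <;> linarith
    · constructor <;> linarith [hcon.1, hcon.2]
  refine ⟨?_, ?_⟩
  · rcases h2 with h2 | h2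
    · refine ⟨false, ⟨tg_ne s _, tg_ne s _, (tg_ne_not s β).symm, hn, ?_, hlo, hhi⟩⟩
      simp only [Bool.false_eq_true, if_false]
      constructor <;> linarith [h1.1]
    · refine ⟨true, ⟨tg_ne s _, tg_ne s _, (tg_ne_not s β).symm, hn, ?_, hlo, hhi⟩⟩
      simp only [if_true]
      constructor <;> linarith [h1.2]
  · rcases h2 with h2 | h2
    · left; linarith
    · right; linarith

/-- **(GE-SHARED)** -/
theorem ge_shared {ω : TBx K → ℝ} {O : M.κ → V} {LaT : E.ε → ℝ} {Lf : M.κ → E.ε → ℝ}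
    {Lam1 : M.κ → ℝ} {sl : TBx K → Finset (ℝ × ℝ)} {Pr : Set M.ι} {Act : Set M.κ}
    (HT : T3Out G M E h h1 ω O LaT Lf Lam1 sl) (HR : RIn G M h1 Pr Act L.lv E)
    (HO : ROut G M h1 h2 Pr Act L.lv E) (hband : BandP L sl) {s : K.S} {k l : M.κ}
    (hk : k ∈ Act) (hks : ∃ x ∈ M.F k, h1.toFun x ∈ G.PB 1 s)
    (hl : ∀ x ∈ M.F l, ∀ s', h1.toFun x ∉ G.PB 1 s') {e : E.ε} (hek : E.seg e ⊆ M.F k)
    (hel : E.seg e ⊆ M.F l) {La : ℝ}
    (hLa : ∀ β t, L.omP s (tg s β) t * LaT e ≤ L.c s β * La) :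
    ∃ s1 s2 s3 s4 : V → ℝ, EdgeNum (E.a e) (E.b e) h2.toFun (L.kP s) (L.lv s) (L.loP s) (L.hiP s)
      (L.omP s) La h1.toFun s1 s2 s3 s4 := by
  obtain ⟨x₀, hx₀, hx₀s⟩ := hks
  have hseg : E.seg e = segment ℝ (E.a e) (E.b e) := rfl
  have hMΩ : M.F k ⊆ Ω := Vale.Agent.P073.H193.mesh_sub M k
  -- `h2 = h1` on the edge
  have heq : ∀ x ∈ segment ℝ (E.a e) (E.b e), h2.toFun x = h1.toFun x := fun x hx =>
    HO.off x (hMΩ (hek hx)) (hl x (hel hx))
  have hnear : ∀ x ∈ segment ℝ (E.a e) (E.b e), h1.toFun x ∈ G.PB (3 / 4) s := fun x hx => by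
    rw [← heq x hx]; exact (HO.near k hk s x₀ hx₀ hx₀s x (hek hx)).1
  have hnrm : ∀ x ∈ segment ℝ (E.a e) (E.b e),
      |h1.toFun x (K.nrm s) - K.slo s (K.nrm s)| ≤ 1 / 2 * B.τ s := by
    intro x hx
    have h3 := HR.nrm k hk s x (hek hx) (hnear x hx)
    have hτ := B.τ_pos s
    linarith
  -- position of the crossing points
  have hpos : ∀ x ∈ segment ℝ (E.a e) (E.b e), ∀ j, h1.toFun x j ∈ L.lv s j →
      ∃ β, j = tg s β ∧ (∃ n < L.N s β, L.a s β n = h1.toFun x j) ∧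
        (∃ β', G.Wall s (tg s (!β)) (tg s β) β' (h1.toFun x)) ∧
        (h1.toFun x (tg s (!β)) ≤ K.slo s (tg s (!β)) + G.a s ∨
          K.shi s (tg s (!β)) - G.a s ≤ h1.toFun x (tg s (!β))) := by
    intro x hx j hj
    obtain ⟨hjn, n, hn, hna⟩ := PLev.mem_lv.1 hj
    have hj' : tg s (bt s j) = j := tg_bt s hjn
    have hw := L.win s (bt s j) hn
    have hc := (L.lvs s (bt s j)).c0
    rw [hna, hj'] at hw
    have h5 := wall_of_level (β := bt s j) (hnear x hx) (hl x (hel hx) s) (hnrm x hx)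
      (by rw [hj']; linarith [hw.1]) (by rw [hj']; linarith [hw.2])
    exact ⟨bt s j, hj'.symm, ⟨n, hn, hna⟩, h5⟩
  refine Exists.imp (fun s1 => Exists.imp fun s2 => Exists.imp fun s3 => Exists.imp fun s4 H =>
    ?_) (edgeNum_of_vert (h := h1.toFun) (k := L.kP s) (L := L.lv s) (lo := L.loP s)
      (hi := L.hiP s) (om := L.omP s) (c := cP L s) (Lt := LaT e) (La := La) (E.ne e)
      (h1.injOn.mono (hek.trans hMΩ)) (L.ins1P s) (fun j _ => cP_pos L s j) ?_ ?_ ?_ ?_ ?_ ?_)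
  · -- from `h1` to `h2`
    have hcr : ∀ x, CrsPt (E.a e) (E.b e) h2.toFun (L.lv s) x →
        CrsPt (E.a e) (E.b e) h1.toFun (L.lv s) x := by
      rintro x ⟨hx, j, hj⟩
      exact ⟨hx, j, by rw [← heq x hx]; exact hj⟩
    refine ⟨fun x hx => H.a1 x (hcr x hx), fun x hx => H.a2 x (hcr x hx),
      fun x hx => H.a3 x (hcr x hx), fun x hx => H.a4 x (hcr x hx), fun x hx => H.a5 x (hcr x hx),
      fun x y hx hy => H.dis x y (hcr x hx) (hcr y hy), fun x hx s hs => ?_,
      fun x hx j hj => ?_, fun x hx j hj => ?_, fun x hx j hj => ?_⟩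
    · rw [heq x hx.1]; exact H.fib x (hcr x hx) s hs
    · rw [heq x hx] at hj ⊢; exact H.g1 x hx j hj
    · rw [heq x hx] at hj ⊢; exact H.g2 x hx j hj
    · rw [heq x hx] at hj ⊢; exact H.lip x hx j hj
  · intro j t _; rfl
  · intro j t _; rfl
  · -- spacing
    intro j t ht t' ht' hne
    obtain ⟨hjn, n, hn, hna⟩ := PLev.mem_lv.1 ht
    obtain ⟨-, n', hn', hna'⟩ := PLev.mem_lv.1 ht'
    have hs := (L.lvs s (bt s j)).sepd
    have m1 : t ∈ (L.lvs s (bt s j)).L := (L.lvs s (bt s j)).mem_L.2 ⟨n, hn, hna⟩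
    have m2 : t' ∈ (L.lvs s (bt s j)).L := (L.lvs s (bt s j)).mem_L.2 ⟨n', hn', hna'⟩
    show 4 * L.c s (bt s j) ≤ |t - t'|
    rcases lt_or_gt_of_ne hne with h3 | h3
    · have := hs t m1 t' m2 h3
      rw [abs_of_neg (sub_neg.2 h3)]; linarith
    · have := hs t' m2 t m1 h3
      rw [abs_of_pos (sub_pos.2 h3)]; linarith
  · -- the other coordinates
    intro x hx j hj j' hne
    obtain ⟨β, rfl, -, -, h4⟩ := hpos x hx j hj
    by_cases hjn : j' = K.nrm s
    · subst hjn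
      refine ⟨by rw [PLev.kP_nrm]; rfl, fun t ht => ?_⟩
      rw [PLev.lv_nrm] at ht
      exact absurd ht (Finset.notMem_empty t)
    · have hj' : j' = tg s (!β) := by
        rcases tg_cases s β hjn with h5 | h5
        · exact absurd h5 hne
        · exact h5
      subst hj'
      constructor
      · rw [PLev.kP_tg]
        show kQ (L.bx (!β) s) (L.bx (!β) s).j _ = _
        rw [kQ_self]
        exact L.qm_id s (!β) h4
      · intro t ht
        obtain ⟨-, n, hn, hna⟩ := PLev.mem_lv.1 ht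
        rw [bt_tg] at hn hna
        have hw := L.win s (!β) hn
        rw [hna] at hw
        show 2 * L.c s (bt s (tg s (!β))) ≤ _
        rw [bt_tg]
        have hc := (L.lvs s (!β)).c0
        rcases h4 with h4 | h4
        · rw [abs_of_nonpos (by linarith [hw.1])]; linarith [hw.1]
        · rw [abs_of_nonneg (by linarith [hw.2])]; linarith [hw.2]
  · -- weights
    intro j t ht
    obtain ⟨hjn, -⟩ := PLev.mem_lv.1 ht
    have hj' : tg s (bt s j) = j := tg_bt s hjn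
    refine ⟨(L.omP_pos s j t).le, ?_⟩
    have := hLa (bt s j) t
    rw [hj'] at this
    exact this
  · -- vertical pieces
    intro x hx j hj
    obtain ⟨β, rfl, ⟨n, hn, hna⟩, ⟨β', hW⟩, -⟩ := hpos x hx j hj
    obtain ⟨b, hb, hbr⟩ : ∃ b : TBx K, h1.toFun x ∈ G.TB true b ∧ RelT s (tg s β) b := by
      rcases Geo.wall hW with ⟨e', h3, h4, -, h6⟩ | ⟨H, h3, -, h5, -, h6⟩
      · exact ⟨.inl e', h6, h3, h4⟩
      · exact ⟨.inr H, h6, h3, h5⟩
    have hax : b.ax = tg s β := hbr.ax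
    have hbd := hband s β n hn b hbr
    rw [hna] at hbd
    have hc := (L.lvs s β).c0
    obtain ⟨e1, e2⟩ := lineMap_pr (E.ne e) hx
    have hno : NoSl (sl b) (h1.toFun x b.ax) := by
      intro p hp hpm
      rw [hax] at hpm
      rcases hbd p hp with h3 | h3
      · linarith [hpm.2]
      · linarith [hpm.1]
    obtain ⟨t1, t2, u, w, ψ, h12, ⟨p, hp, hp1⟩, ⟨p', hp', hp2⟩, -, hu, huw, hw1, hsm, hver, hcont,
      hinj, himg, hlip⟩ := HT.edge e b (pr (E.a e) (E.b e) x) e2 (by rw [e1]; exact hb)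
        (by rw [e1]; exact hno)
    rw [e1] at hver
    have hψx : ψ (pr (E.a e) (E.b e) x) = h1.toFun x (tg s β) := by
      have := congrFun (hver _ hsm) b.ax
      rw [e1, Function.update_self] at this
      rw [← this, hax]
    have hmem : h1.toFun x (tg s β) ∈ Icc t1 t2 := by
      rw [← himg, ← hψx]; exact mem_image_of_mem ψ hsm
    have hle1 := HT.sl_le b p hp
    have hle2 := HT.sl_le b p' hp'
    have c1 : t1 ≤ h1.toFun x (tg s β) - 2 * L.c s β := by
      rcases hbd p hp with h3 | h3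
      · linarith
      · linarith [hmem.1]
    have c2 : h1.toFun x (tg s β) + 2 * L.c s β ≤ t2 := by
      rcases hbd p' hp' with h3 | h3
      · linarith [hmem.2]
      · linarith
    refine ⟨u, w, ψ, hu, huw, hw1, fun r hr => ?_, hcont, hinj, ?_, hlip⟩
    · rw [hver r hr, hax]
    · rw [himg]
      show Icc (_ - 2 * L.c s (bt s (tg s β))) (_ + 2 * L.c s (bt s (tg s β))) ⊆ _
      rw [bt_tg]
      exact Icc_subset_Icc c1 c2

end P073.H155
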