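import Vale.Agent.P073.H669.TBd
import Vale.Agent.P073.H345.PBox

/-!
# P073, block H155: at most four squares at an edge

`sqE_card_le`: `(sqE e).card ≤ 4` in every box complex.
-/

open Set Metric Topology Filter

set_option linter.unusedSectionVars false
set_option autoImplicit false

namespace P073.H155

open _root_.P073 _root_.P073.Net _root_.P073.PA691
open _root_.P073.H345 (tg tg_ne tg_ne_not tg_cases bt tg_bt)
open Vale.Agent.P073.St (V)
open Vale.Agent.P073.H669 (sqE mem_sqE edge_ab dir_ne_nrm)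

variable {Λ : Set V} {v : V} {K : BoxCx Λ v}

theorem fin3_cases : ∀ {a l k : Fin 3}, k ≠ a → k ≠ l → l ≠ a → ∀ m, m = a ∨ m = l ∨ m = k := by
  decide

/-- a point in the relative interior of the edge -/
theorem exists_mid (K : BoxCx Λ v) (e : K.G) : ∃ x ∈ K.edge e, K.w (K.a e) (K.dir e) < x (K.dir e) ∧
    x (K.dir e) < K.w (K.b e) (K.dir e) ∧ ∀ k, k ≠ K.dir e → x k = K.w (K.a e) k := by
  obtain ⟨t, h1, h2⟩ := exists_between (K.ab_dir e)
  refine ⟨Function.update (K.w (K.a e)) (K.dir e) t, ⟨fun k => ?_, fun k => ?_⟩, ?_, ?_,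
    fun k hk => Function.update_of_ne hk _ _⟩
  · by_cases hk : k = K.dir e
    · subst hk; rw [Function.update_self]; exact h1.le
    · rw [Function.update_of_ne hk]
  · by_cases hk : k = K.dir e
    · subst hk; rw [Function.update_self]; exact h2.le
    · rw [Function.update_of_ne hk]; exact (K.ab_off e k hk).le
  · rw [Function.update_self]; exact h1
  · rw [Function.update_self]; exact h2

/-- an edge of a square is in its boundary -/
theorem side_of_edge {e : K.G} {s : K.S} (he : K.edge e ⊆ K.sq s) {k : Fin 3} (hk : k ≠ K.nrm s)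
    (hkd : k ≠ K.dir e) : K.w (K.a e) k = K.slo s k ∨ K.w (K.a e) k = K.shi s k := by
  obtain ⟨x, hx, h1, h2, h3⟩ := exists_mid K e
  obtain ⟨ha, hb⟩ := edge_ab he
  have hxs := he hx
  by_contra hcon
  push Not at hcon
  refine K.sqo_edge s x ?_ ?_ e hx
  · have h4 := hxs.1 (K.nrm s)
    have h5 := hxs.2 (K.nrm s)
    have h6 := K.s_flat s
    linarith
  · intro m hm
    by_cases hmd : m = K.dir e
    · subst hmd
      have h4 := ha.1 (K.dir e)
      have h5 := hb.2 (K.dir e)
      constructor <;> linarith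
    · have hmk : m = k := by
        rcases fin3_cases hk hkd (dir_ne_nrm he) m with h | h | h
        · exact absurd h hm
        · exact absurd h hmd
        · exact h
      subst hmk
      have h4 := ha.1 m
      have h5 := ha.2 m
      rw [h3 m hmd]
      exact ⟨lt_of_le_of_ne h4 (Ne.symm hcon.1), lt_of_le_of_ne h5 hcon.2⟩

/-- two squares at the edge with the same normal direction, on the same side -/
theorem sq_unique {e : K.G} {s s' : K.S} (he : K.edge e ⊆ K.sq s) (he' : K.edge e ⊆ K.sq s')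
    (hn : K.nrm s = K.nrm s') {k : Fin 3} (hk : k ≠ K.nrm s) (hkd : k ≠ K.dir e)
    (hs : (K.w (K.a e) k = K.slo s k ∧ K.w (K.a e) k = K.slo s' k) ∨
      (K.w (K.a e) k = K.shi s k ∧ K.w (K.a e) k = K.shi s' k)) : s = s' := by
  by_contra hne
  obtain ⟨x, hx, h1, h2, h3⟩ := exists_mid K e
  obtain ⟨ha, hb⟩ := edge_ab he
  obtain ⟨ha', hb'⟩ := edge_ab he'
  have hlt := K.s_lt s k hk
  have hlt' := K.s_lt s' k (by rwa [← hn])
  obtain ⟨t, ht, ht'⟩ : ∃ t, (K.slo s k < t ∧ t < K.shi s k) ∧ K.slo s' k ≤ t ∧ t ≤ K.shi s' k := by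
    rcases hs with ⟨h4, h5⟩ | ⟨h4, h5⟩
    · rw [← h4] at hlt ⊢
      rw [← h5] at hlt' ⊢
      obtain ⟨t, h6, h7⟩ := exists_between (lt_min hlt hlt')
      obtain ⟨h8, h9⟩ := lt_min_iff.1 h7
      exact ⟨t, ⟨h6, h8⟩, h6.le, h9.le⟩
    · rw [← h4] at hlt ⊢
      rw [← h5] at hlt' ⊢
      obtain ⟨t, h6, h7⟩ := exists_between (max_lt hlt hlt')
      obtain ⟨h8, h9⟩ := max_lt_iff.1 h6
      exact ⟨t, ⟨h8, h7⟩, h9.le, h7.le⟩
  have key : ∀ m, m = K.nrm s ∨ m = K.dir e ∨ m = k := fin3_cases hk hkd (dir_ne_nrm he)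
  have hxs := he hx
  have hxs' := he' hx
  have hf := K.s_flat s
  refine K.sqo_disj s s' hne (Function.update x k t) ?_ ?_ ?_
  · rw [Function.update_of_ne hk.symm]
    have h4 := hxs.1 (K.nrm s)
    have h5 := hxs.2 (K.nrm s)
    linarith
  · intro m hm
    rcases key m with h | h | h
    · exact absurd h hm
    · subst h
      rw [Function.update_of_ne (Ne.symm hkd)]
      have h4 := ha.1 (K.dir e)
      have h5 := hb.2 (K.dir e)
      constructor <;> linarith
    · subst h
      rw [Function.update_self]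
      exact ht
  · refine ⟨fun m => ?_, fun m => ?_⟩
    all_goals
      by_cases hmk : m = k
      · subst hmk
        rw [Function.update_self]
        first
          | exact ht'.1
          | exact ht'.2
      · rw [Function.update_of_ne hmk]
        first
          | exact hxs'.1 m
          | exact hxs'.2 m

/-- **at most four squares at an edge** -/
theorem sqE_card_le (e : K.G) : (sqE e).card ≤ 4 := by
  classical
  have h1 : ((Finset.univ.erase (K.dir e)) ×ˢ (Finset.univ : Finset Bool)).card = 4 := by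
    rw [Finset.card_product, Finset.card_erase_of_mem (Finset.mem_univ _)]
    rfl
  rw [← h1]
  refine Finset.card_le_card_of_injOn
    (fun s => (K.nrm s, decide (K.w (K.a e) (tg s (!bt s (K.dir e))) =
      K.slo s (tg s (!bt s (K.dir e)))))) (fun s hs => ?_) ?_
  · have hs : s ∈ sqE e := hs
    have he := mem_sqE.1 hs
    rw [Finset.mem_coe, Finset.mem_product]
    exact ⟨Finset.mem_erase.2 ⟨(dir_ne_nrm he).symm, Finset.mem_univ _⟩, Finset.mem_univ _⟩
  · intro s hs s' hs' hss
    have he := mem_sqE.1 (Finset.mem_coe.1 hs)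
    have he' := mem_sqE.1 (Finset.mem_coe.1 hs')
    have hn : K.nrm s = K.nrm s' := congrArg Prod.fst hss
    have hd : decide (K.w (K.a e) (tg s (!bt s (K.dir e))) = K.slo s (tg s (!bt s (K.dir e)))) =
      decide (K.w (K.a e) (tg s' (!bt s' (K.dir e))) = K.slo s' (tg s' (!bt s' (K.dir e)))) :=
      congrArg Prod.snd hss
    have htg : ∀ β, tg s' β = tg s β := fun β => by unfold tg; rw [hn]
    have hbt : bt s' (K.dir e) = bt s (K.dir e) := by unfold bt; rw [htg]
    have e1 : tg s (bt s (K.dir e)) = K.dir e := tg_bt s (dir_ne_nrm he)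
    have hkd : tg s (!bt s (K.dir e)) ≠ K.dir e := by
      have h2 := tg_ne_not s (bt s (K.dir e))
      rw [e1] at h2
      exact h2.symm
    rw [hbt, htg] at hd
    have hd' := decide_eq_decide.1 hd
    have hk := tg_ne s (!bt s (K.dir e))
    refine sq_unique he he' hn hk hkd ?_
    rcases side_of_edge he hk hkd with h2 | h2
    · exact Or.inl ⟨h2, hd'.1 h2⟩
    · rcases side_of_edge he' (k := tg s (!bt s (K.dir e))) (by rwa [← hn]) hkd with h3 | h3
      · exact Or.inl ⟨hd'.2 h3, h3⟩
      · exact Or.inr ⟨h2, h3⟩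

end P073.H155
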