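import Vale.Agent.P073.H155.THin4
import Vale.Agent.P073.H687.PL4D
import Vale.Agent.P073.H155.SqE

/-!
# P073, block H155: the numbers at an edge, from one small number

`numT_of`: the structure `NumT` from one number `η` which bounds the steps of ROUND P, the half
widths of its flats and its displacement off the windows, for the squares at the edge.
`winE`: the windows at an edge, from the marked points of the squares; `numT_win`: the numbers.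
-/

open Set Metric Topology Filter MeasureTheory

set_option linter.unusedSectionVars false
set_option autoImplicit false

namespace P073.H155

open _root_.P073 _root_.P073.H579 _root_.P073.Net _root_.P073.PA691 _root_.P073.H236
  _root_.P073.H345 _root_.P073.H142 _root_.P073.H919 _root_.P073.H936 _root_.P073.H936.K3
  _root_.P073.H429
open _root_.P073.H880.RP (Sg3 Dat ROut3)
open Vale.Agent.P073.St (V)
open Vale.Agent.P073.H73 (Mesh)
open Vale.Agent.P073.H669 (Bds eLo eHi sqE)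
open Vale.Agent.P073.H471 Vale.Agent.P073.H267

variable {Ω Λ : Set V} {v : V} {K : BoxCx Λ v} {S : Rad K} {W : Wid K S} {B : Boxes W} {G : Geo B}
  {M : Mesh Ω} {D : Dat K M} {L : PLev G} {F Fσ : Bool → BFam 3 D.S₀ Λ}
  {ς : Bool → D.S₀ → ℝ} {Tσ : Bool → ConHomeo Λ Λ} {ω : TBx K → ℝ}

/-- the half gaps are smaller than half a step -/
theorem e_lt_stp (P : Sg3 L D.S₀ Fσ ς Tσ) (β : Bool) (s : D.S₀) : 2 * (Fσ β).e s <
    stp (L.N s.1 β) (K.slo s.1 (tg s.1 β) + G.a s.1) (K.shi s.1 (tg s.1 β) - G.a s.1) := by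
  have h1 := (Fσ β).heo s
  rw [(P.B β s).N, (P.B β s).al, (P.B β s).be] at h1
  exact h1

/-- the step, times the number of the levels -/
theorem N_stp (L : PLev G) (s : K.S) (β : Bool) : (L.N s β : ℝ) *
    stp (L.N s β) (K.slo s (tg s β) + G.a s) (K.shi s (tg s β) - G.a s) =
      K.shi s (tg s β) - K.slo s (tg s β) - 2 * G.a s := by
  have hN : (0:ℝ) < L.N s β := by exact_mod_cast (L.lvs s β).pos
  unfold stp
  field_simp
  ring

/-- **the numbers at an edge**, from one small number `η` -/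
theorem numT_of (P : Sg3 L D.S₀ Fσ ς Tσ) {e : K.G} {sl₀ X : Finset (ℝ × ℝ)} {μ σ τ η : ℝ}
    (hη : 0 ≤ η)
    (hst : ∀ β, ∀ s : D.S₀, K.edge e ⊆ K.sq s.1 → stp (L.N s.1 β)
      (K.slo s.1 (tg s.1 β) + G.a s.1) (K.shi s.1 (tg s.1 β) - G.a s.1) ≤ η)
    (hc : ∀ β, ∀ s : D.S₀, K.edge e ⊆ K.sq s.1 → L.c s.1 β ≤ η)
    (hd : ∀ β, ∀ s : D.S₀, K.edge e ⊆ K.sq s.1 → tg s.1 β = K.dir e →
      ∀ t, (∀ p ∈ X, t ∉ Icc p.1 p.2) → |(F β).σ s t - t| ≤ η)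
    (ha : 12 * η ≤ G.be (K.a e)) (hb : 12 * η ≤ G.be (K.b e)) (hT : 2 * η ≤ B.T e)
    (h31 : ∀ s ∈ D.S₀, K.edge e ⊆ K.sq s → η ≤ 31 * G.a s)
    (sIn : SlB G e (5 * σ) sl₀) (Xle : ∀ p ∈ X, p.1 ≤ p.2)
    (Xs : ∑ p ∈ X, (p.2 - p.1) ≤ τ) (μ0 : 0 < μ) (μ1 : μ ≤ 1)
    (bud : 5 * σ + τ + 24 * η * (sl₀.card + X.card) ≤ μ / 8 * (ebe W e - eal W e))
    (hς : ∀ β, ∀ s : D.S₀, K.edge e ⊆ K.sq s.1 → tg s.1 β = K.dir e →
      ς β s * (K.shi s.1 (tg s.1 β) - K.slo s.1 (tg s.1 β)) * (8 * ((sqE e).card + 1)) ≤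
        μ * (ebe W e - eal W e)) :
    NumT L F Fσ ς ω e sl₀ X μ σ τ η η η (6 * η) (12 * η) where
  δ0 := hη
  hδ := fun β s hes => by
    have h1 := e_lt_stp P β s
    have h2 := hst β s hes
    have h3 := (Fσ β).he s
    linarith
  T0 := hη
  hT := hd
  K0 := hη
  hK := hc
  sum := by linarith
  D2 := by linarith
  be_a := ha
  be_b := hb
  Te := hT
  gap := fun s hs hes => by
    have h1 := gσ_lt P (bt s (K.dir e)) ⟨s, hs⟩
    have h2 := hst (bt s (K.dir e)) ⟨s, hs⟩ hes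
    have h3 := gσ_nonneg P (bt s (K.dir e)) s
    have h4 := h31 s hs hes
    change 2 * gσ Fσ ς (bt s (K.dir e)) s < _ at h1
    linarith
  sIn := sIn
  Xle := Xle
  Xs := Xs
  μ0 := μ0
  μ1 := μ1
  bud := by
    have h1 : 2 * (12 * η) * ((sl₀.card : ℝ) + X.card) = 24 * η * (sl₀.card + X.card) := by ring
    rw [h1]
    exact bud
  bud' := fun s hs hes => by
    have e1 : tg s (bt s (K.dir e)) = K.dir e := tg_bt_dir hes
    have h1 := hς (bt s (K.dir e)) ⟨s, hs⟩ hes e1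
    have h2 := e_lt_stp P (bt s (K.dir e)) ⟨s, hs⟩
    have h3 := (P.isS (bt s (K.dir e))).s0 ⟨s, hs⟩
    have h4 := (Fσ (bt s (K.dir e))).he ⟨s, hs⟩
    have h5 := N_stp L s (bt s (K.dir e))
    have h6 : gσ Fσ ς (bt s (K.dir e)) s = ς (bt s (K.dir e)) ⟨s, hs⟩ *
      (Fσ (bt s (K.dir e))).e ⟨s, hs⟩ := gσ_eq Fσ ς (bt s (K.dir e)) ⟨s, hs⟩
    have h7 : (0:ℝ) < L.N s (bt s (K.dir e)) := by exact_mod_cast (L.lvs s _).pos
    have h8 : (0:ℝ) < 8 * ((sqE e).card + 1) := by positivity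
    have h9 : 0 < G.a s := by
      have := Geo.p_pos (G := G) s
      have := Geo.p_a (G := G) s
      linarith
    rw [h6]
    refine le_trans ?_ h1
    refine mul_le_mul_of_nonneg_right ?_ h8.le
    change 2 * (Fσ (bt s (K.dir e))).e ⟨s, hs⟩ < stp (L.N s (bt s (K.dir e)))
      (K.slo s (tg s (bt s (K.dir e))) + G.a s) (K.shi s (tg s (bt s (K.dir e))) - G.a s) at h2
    show (L.N s (bt s (K.dir e)) : ℝ) * (2 * (ς (bt s (K.dir e)) ⟨s, hs⟩ *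
      (Fσ (bt s (K.dir e))).e ⟨s, hs⟩)) ≤ ς (bt s (K.dir e)) ⟨s, hs⟩ *
        (K.shi s (tg s (bt s (K.dir e))) - K.slo s (tg s (bt s (K.dir e))))
    calc (L.N s (bt s (K.dir e)) : ℝ) * (2 * (ς (bt s (K.dir e)) ⟨s, hs⟩ *
          (Fσ (bt s (K.dir e))).e ⟨s, hs⟩))
        = ς (bt s (K.dir e)) ⟨s, hs⟩ * ((L.N s (bt s (K.dir e)) : ℝ) *
          (2 * (Fσ (bt s (K.dir e))).e ⟨s, hs⟩)) := by ring
      _ ≤ ς (bt s (K.dir e)) ⟨s, hs⟩ * ((L.N s (bt s (K.dir e)) : ℝ) *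
          stp (L.N s (bt s (K.dir e))) (K.slo s (tg s (bt s (K.dir e))) + G.a s)
            (K.shi s (tg s (bt s (K.dir e))) - G.a s)) :=
          mul_le_mul_of_nonneg_left (mul_le_mul_of_nonneg_left h2.le h7.le) h3.le
      _ ≤ _ := by
          rw [h5]
          exact mul_le_mul_of_nonneg_left (by linarith) h3.le

/-! ### the windows at an edge -/

open Vale.Agent.P073.H669 (mem_sqE)
open Vale.Agent.P073.H687 (wnd Marks)

open Classical in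
/-- **the windows at the edge `e`** -/
noncomputable def winE (R : K.S → ℝ) (Q : K.S → Bool → Finset ℝ) (e : K.G) : Finset (ℝ × ℝ) :=
  (sqE e).biUnion fun s => (Q s (bt s (K.dir e))).image fun q => (q - R s, q + R s)

variable {R : K.S → ℝ} {Q : K.S → Bool → Finset ℝ} {e : K.G}

theorem mem_winE {p : ℝ × ℝ} : p ∈ winE R Q e ↔
    ∃ s, K.edge e ⊆ K.sq s ∧ ∃ q ∈ Q s (bt s (K.dir e)), p = (q - R s, q + R s) := by
  classical
  unfold winE
  rw [Finset.mem_biUnion]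
  constructor
  · rintro ⟨s, hs, hp⟩
    obtain ⟨q, hq, rfl⟩ := Finset.mem_image.1 hp
    exact ⟨s, mem_sqE.1 hs, q, hq, rfl⟩
  · rintro ⟨s, hs, q, hq, rfl⟩
    exact ⟨s, mem_sqE.2 hs, Finset.mem_image.2 ⟨q, hq, rfl⟩⟩

theorem winE_le (hR : ∀ s, 0 ≤ R s) : ∀ p ∈ winE R Q e, p.1 ≤ p.2 := by
  intro p hp
  obtain ⟨s, -, q, -, rfl⟩ := mem_winE.1 hp
  have := hR s
  show q - R s ≤ q + R s
  linarith

theorem notMem_wnd {s : K.S} (hs : K.edge e ⊆ K.sq s) {β : Bool} (hβ : tg s β = K.dir e) {t : ℝ}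
    (ht : ∀ p ∈ winE R Q e, t ∉ Icc p.1 p.2) : t ∉ wnd R Q s β := by
  have e1 : tg s (bt s (K.dir e)) = K.dir e := tg_bt_dir hs
  have e2 : β = bt s (K.dir e) := by
    by_contra hne
    have h1 : β = !bt s (K.dir e) := by
      cases β <;> cases h : bt s (K.dir e) <;> simp_all
    rw [h1] at hβ
    exact tg_ne_not s (bt s (K.dir e)) (e1.trans hβ.symm)
  subst e2
  intro hw
  unfold wnd at hw
  obtain ⟨q, hq, h1⟩ := mem_iUnion₂.1 hw
  exact ht _ (mem_winE.2 ⟨s, hs, q, hq, rfl⟩) ⟨h1.1.le, h1.2.le⟩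

theorem winE_card (hQ : ∀ s β, (Q s β).card ≤ 4) : (winE R Q e).card ≤ 4 * (sqE e).card := by
  classical
  unfold winE
  refine Finset.card_biUnion_le.trans ?_
  refine (Finset.sum_le_sum fun s _ => Finset.card_image_le.trans (hQ s _)).trans ?_
  rw [Finset.sum_const, smul_eq_mul, mul_comm]

theorem winE_sum (hQ : ∀ s β, (Q s β).card ≤ 4) {Rm : ℝ} (hR : ∀ s, 0 ≤ R s)
    (hRm : ∀ s, K.edge e ⊆ K.sq s → R s ≤ Rm) :
    ∑ p ∈ winE R Q e, (p.2 - p.1) ≤ 8 * (sqE e).card * Rm := by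
  have h1 : ∑ p ∈ winE R Q e, (p.2 - p.1) ≤ ∑ _p ∈ winE R Q e, 2 * Rm := by
    refine Finset.sum_le_sum fun p hp => ?_
    obtain ⟨s, hs, q, -, rfl⟩ := mem_winE.1 hp
    have := hRm s hs
    show q + R s - (q - R s) ≤ 2 * Rm
    linarith
  refine h1.trans ?_
  rw [Finset.sum_const, nsmul_eq_mul]
  by_cases h0 : (sqE e).card = 0
  · have h2 := winE_card (R := R) (e := e) hQ
    rw [h0, mul_zero] at h2
    rw [h0, Nat.le_zero.1 h2]
    simp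
  · have h3 : 0 ≤ Rm := by
      obtain ⟨s, hs⟩ := Finset.card_pos.1 (Nat.pos_of_ne_zero h0)
      exact (hR s).trans (hRm s (mem_sqE.1 hs))
    have h4 : ((winE R Q e).card : ℝ) ≤ 4 * (sqE e).card := by exact_mod_cast winE_card hQ
    calc ((winE R Q e).card : ℝ) * (2 * Rm) ≤ 4 * (sqE e).card * (2 * Rm) :=
          mul_le_mul_of_nonneg_right h4 (by positivity)
      _ = 8 * (sqE e).card * Rm := by ring

/-- **the numbers at an edge**, with the windows of the marked points -/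
theorem numT_win (P : Sg3 L D.S₀ Fσ ς Tσ) {sl₀ : Finset (ℝ × ℝ)} {μ σ η Rm : ℝ} {nT : ℕ}
    (hη : 0 ≤ η) (hR : ∀ s, 0 ≤ R s) (hRm : ∀ s, K.edge e ⊆ K.sq s → R s ≤ Rm)
    (hQ : ∀ s β, (Q s β).card ≤ 4)
    (hst : ∀ β, ∀ s : D.S₀, K.edge e ⊆ K.sq s.1 → stp (L.N s.1 β)
      (K.slo s.1 (tg s.1 β) + G.a s.1) (K.shi s.1 (tg s.1 β) - G.a s.1) ≤ η)
    (hc : ∀ β, ∀ s : D.S₀, K.edge e ⊆ K.sq s.1 → L.c s.1 β ≤ η)
    (hd : ∀ β, ∀ s : D.S₀, K.edge e ⊆ K.sq s.1 → ∀ t, t ∉ wnd R Q s.1 β →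
      |(F β).σ s t - t| ≤ η)
    (ha : 12 * η ≤ G.be (K.a e)) (hb : 12 * η ≤ G.be (K.b e)) (hT : 2 * η ≤ B.T e)
    (h31 : ∀ s ∈ D.S₀, K.edge e ⊆ K.sq s → η ≤ 31 * G.a s)
    (sIn : SlB G e (5 * σ) sl₀) (hnT : sl₀.card ≤ nT) (μ0 : 0 < μ)
    (μ1 : μ ≤ 1)
    (bud : 5 * σ + 8 * (sqE e).card * Rm + 24 * η * (nT + 4 * (sqE e).card) ≤
      μ / 8 * (ebe W e - eal W e))
    (hς : ∀ β, ∀ s : D.S₀, K.edge e ⊆ K.sq s.1 → tg s.1 β = K.dir e →
      ς β s * (K.shi s.1 (tg s.1 β) - K.slo s.1 (tg s.1 β)) * (8 * ((sqE e).card + 1)) ≤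
        μ * (ebe W e - eal W e)) :
    NumT L F Fσ ς ω e sl₀ (winE R Q e) μ σ (8 * (sqE e).card * Rm) η η η (6 * η) (12 * η) := by
  refine numT_of P hη hst hc (fun β s hes htg t ht => hd β s hes t (notMem_wnd hes htg ht)) ha hb
    hT h31 sIn (winE_le hR) (winE_sum hQ hR hRm) μ0 μ1 ?_ hς
  have h1 : (sl₀.card : ℝ) ≤ nT := by exact_mod_cast hnT
  have h2 : ((winE R Q e).card : ℝ) ≤ 4 * (sqE e).card := by exact_mod_cast winE_card hQ
  have h3 := mul_le_mul_of_nonneg_left (add_le_add h1 h2) (by linarith : 0 ≤ 24 * η)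
  linarith

/-- **the numbers at an edge**, with the windows of the marked points; there are at most four
squares at an edge -/
theorem numT_win4 (P : Sg3 L D.S₀ Fσ ς Tσ) {sl₀ : Finset (ℝ × ℝ)} {μ σ η Rm : ℝ} {nT : ℕ}
    (hη : 0 ≤ η) (hR : ∀ s, 0 ≤ R s) (hRm0 : 0 ≤ Rm) (hRm : ∀ s, K.edge e ⊆ K.sq s → R s ≤ Rm)
    (hQ : ∀ s β, (Q s β).card ≤ 4)
    (hst : ∀ β, ∀ s : D.S₀, K.edge e ⊆ K.sq s.1 → stp (L.N s.1 β)
      (K.slo s.1 (tg s.1 β) + G.a s.1) (K.shi s.1 (tg s.1 β) - G.a s.1) ≤ η)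
    (hc : ∀ β, ∀ s : D.S₀, K.edge e ⊆ K.sq s.1 → L.c s.1 β ≤ η)
    (hd : ∀ β, ∀ s : D.S₀, K.edge e ⊆ K.sq s.1 → ∀ t, t ∉ wnd R Q s.1 β →
      |(F β).σ s t - t| ≤ η)
    (ha : 12 * η ≤ G.be (K.a e)) (hb : 12 * η ≤ G.be (K.b e)) (hT : 2 * η ≤ B.T e)
    (h31 : ∀ s ∈ D.S₀, K.edge e ⊆ K.sq s → η ≤ 31 * G.a s)
    (sIn : SlB G e (5 * σ) sl₀) (hnT : sl₀.card ≤ nT) (μ0 : 0 < μ)
    (μ1 : μ ≤ 1)
    (bud : 5 * σ + 32 * Rm + 24 * η * (nT + 16) ≤ μ / 8 * (ebe W e - eal W e))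
    (hς : ∀ β, ∀ s : D.S₀, K.edge e ⊆ K.sq s.1 → tg s.1 β = K.dir e →
      ς β s * (K.shi s.1 (tg s.1 β) - K.slo s.1 (tg s.1 β)) * 40 ≤ μ * (ebe W e - eal W e)) :
    NumT L F Fσ ς ω e sl₀ (winE R Q e) μ σ (8 * (sqE e).card * Rm) η η η (6 * η) (12 * η) := by
  have h1 : ((sqE e).card : ℝ) ≤ 4 := by exact_mod_cast sqE_card_le e
  have h2 : (0:ℝ) ≤ (sqE e).card := Nat.cast_nonneg _
  refine numT_win P hη hR hRm hQ hst hc hd ha hb hT h31 sIn hnT μ0 μ1 ?_ fun β s hes htg => ?_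
  · have h3 : 8 * ((sqE e).card : ℝ) * Rm ≤ 32 * Rm := by nlinarith
    have h4 : 24 * η * ((nT : ℝ) + 4 * (sqE e).card) ≤ 24 * η * (nT + 16) :=
      mul_le_mul_of_nonneg_left (by linarith) (by linarith)
    linarith
  · refine le_trans ?_ (hς β s hes htg)
    have h3 := (P.isS β).s0 s
    have h4 := (K.s_lt s.1 (tg s.1 β) (tg_ne s.1 β)).le
    exact mul_le_mul_of_nonneg_left (by linarith) (mul_nonneg h3.le (by linarith))

end P073.H155
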