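import Vale.Agent.P073.H155.THin3
import Vale.Agent.P073.H687.PL4D

/-!
# P073, block H155: **[T-PART]**, the thin bands and the hook of the tubes

`exists_tband`: thin bands at an edge which avoid the slivers of ROUND T, the gaps of ROUND P, and a
finite family `X` of windows where the displacement of ROUND P may be large.  `exists_tpart`: from
the outputs of ROUND T and of ROUND P: thin bands for all tubes, with the hypotheses `HkT` of the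
hook of the tubes.
-/

open Set Metric Topology Filter MeasureTheory

set_option linter.unusedSectionVars false
set_option autoImplicit false

namespace P073.H155

open _root_.P073 _root_.P073.H579 _root_.P073.Net _root_.P073.PA691 _root_.P073.H236
  _root_.P073.H345 _root_.P073.H142 _root_.P073.H919 _root_.P073.H936 _root_.P073.H936.K3
  _root_.P073.H429
open _root_.P073.H880.RP (Sg3 Dat ROut3)
open Vale.Agent.P073.H341 (ROutZ HtOk)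
open Vale.Agent.P073.St (V)
open Vale.Agent.P073.H73 (Mesh)
open Vale.Agent.P073.H193 (Edges)
open Vale.Agent.P073.H669 (Bds eLo eHi sqE gap gap_le sum_gap_le mem_tbSl)
open Vale.Agent.P073.H687 (SlG)
open Vale.Agent.P073.H471 Vale.Agent.P073.H267

variable {Ω Λ : Set V} {v : V} {K : BoxCx Λ v} {S : Rad K} {W : Wid K S} {B : Boxes W} {G : Geo B}

/-! ### thin bands from the total length of the slivers -/

/-- the length of the fattened slivers in the window: slivers outside the window do not count -/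
theorem sum_fat_far {al be D : ℝ} {sl inner : Finset (ℝ × ℝ)} (hab : al ≤ be) (hD : 0 ≤ D)
    (hin : ∀ p ∈ inner, p.1 ≤ p.2)
    (h : ∀ p ∈ sl, p ∈ inner ∨ p.2 + D ≤ al ∨ be ≤ p.1 - D) :
    ∑ p ∈ fat sl D, (clam al be p.2 - clam al be p.1) ≤
      ∑ p ∈ inner, (p.2 - p.1) + 2 * D * sl.card := by
  classical
  have e1 : ∑ p ∈ fat sl D, (clam al be p.2 - clam al be p.1) =
      ∑ p ∈ sl, (clam al be (p.2 + D) - clam al be (p.1 - D)) := by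
    unfold fat
    rw [Finset.sum_image]
    intro a _ b _ hab'
    have h3 := congrArg Prod.fst hab'
    have h4 := congrArg Prod.snd hab'
    change a.1 - D = b.1 - D at h3
    change a.2 + D = b.2 + D at h4
    exact Prod.ext (by linarith) (by linarith)
  have key : ∀ p ∈ sl, clam al be (p.2 + D) - clam al be (p.1 - D) ≤
      (if p ∈ inner then p.2 - p.1 else 0) + 2 * D := by
    intro p hp
    by_cases hpi : p ∈ inner
    · rw [if_pos hpi]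
      have h3 := hin p hpi
      have := clam_sub_le (l := al) (r := be) (s := p.1 - D) (t := p.2 + D) (by linarith)
      linarith
    · rw [if_neg hpi]
      rcases h p hp with h | h | h
      · exact absurd h hpi
      · have e2 : clam al be (p.2 + D) = 0 := clam_of_le h
        have e3 := clam_nonneg al be (p.1 - D)
        linarith
      · have e2 : clam al be (p.1 - D) = be - al := clam_of_ge hab h
        have e3 : clam al be (p.2 + D) ≤ be - al := clam_le_len hab _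
        linarith
  rw [e1]
  refine (Finset.sum_le_sum key).trans ?_
  rw [Finset.sum_add_distrib, Finset.sum_const, nsmul_eq_mul, ← Finset.sum_filter]
  have h5 : ∑ p ∈ sl.filter (fun p => p ∈ inner), (p.2 - p.1) ≤ ∑ p ∈ inner, (p.2 - p.1) := by
    refine Finset.sum_le_sum_of_subset_of_nonneg (fun p hp => (Finset.mem_filter.1 hp).2) ?_
    intro p hp _
    have := hin p hp
    linarith
  have h6 : (sl.card : ℝ) * (2 * D) = 2 * D * sl.card := by ring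
  linarith

/-- **slivers at an edge**: long ones only near the ends of the box -/
def SlB (G : Geo B) (e : K.G) (σ : ℝ) (sl : Finset (ℝ × ℝ)) : Prop :=
  ∃ J, J ≤ G.be (K.a e) ∧ J ≤ G.be (K.b e) ∧ SlG G J (.inl e) σ sl

theorem SlB.mono {e : K.G} {σ σ' : ℝ} {sl : Finset (ℝ × ℝ)} (H : SlB G e σ sl) (h : σ ≤ σ') :
    SlB G e σ' sl := by
  obtain ⟨J, h1, h2, h3⟩ := H
  exact ⟨J, h1, h2, h3.mono le_rfl h (Finset.Subset.refl _)⟩

theorem slB_of_sum {e : K.G} {σ : ℝ} {sl : Finset (ℝ × ℝ)} (h : ∀ p ∈ sl, p.1 ≤ p.2)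
    (hs : ∑ p ∈ sl, (p.2 - p.1) ≤ σ) : SlB G e σ sl :=
  ⟨0, (G.be_pos _).le, (G.be_pos _).le, sl, h, hs, fun _ hp => Or.inl hp⟩

/-- the total length of a union of slivers -/
theorem sum_len_union {A B : Finset (ℝ × ℝ)} [DecidableEq (ℝ × ℝ)]
    (hA : ∀ p ∈ A, p.1 ≤ p.2) :
    ∑ p ∈ A ∪ B, (p.2 - p.1) ≤ ∑ p ∈ A, (p.2 - p.1) + ∑ p ∈ B, (p.2 - p.1) := by
  have h1 := Finset.sum_union_inter (s₁ := A) (s₂ := B) (f := fun p : ℝ × ℝ => p.2 - p.1)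
  have h2 : 0 ≤ ∑ p ∈ A ∩ B, (p.2 - p.1) := Finset.sum_nonneg fun p hp => by
    have := hA p (Finset.mem_inter.1 hp).1
    linarith
  linarith

theorem SlB.union {e : K.G} {σ τ : ℝ} {sl X : Finset (ℝ × ℝ)} [DecidableEq (ℝ × ℝ)]
    (H : SlB G e σ sl) (hX : ∀ p ∈ X, p.1 ≤ p.2) (hτ : ∑ p ∈ X, (p.2 - p.1) ≤ τ) :
    SlB G e (σ + τ) (sl ∪ X) := by
  obtain ⟨J, h1, h2, inner, h3, h4, h5⟩ := H
  refine ⟨J, h1, h2, inner ∪ X, fun p hp => ?_, ?_, fun p hp => ?_⟩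
  · rcases Finset.mem_union.1 hp with h | h
    · exact h3 p h
    · exact hX p h
  · have := sum_len_union (B := X) h3
    linarith
  · rcases Finset.mem_union.1 hp with h | h
    · rcases h5 p h with h6 | h6
      · exact Or.inl (Finset.mem_union_left _ h6)
      · exact Or.inr h6
    · exact Or.inl (Finset.mem_union_right _ h)

section bandS

variable {S₀ : Set K.S} {e : K.G} {sl : Finset (ℝ × ℝ)} {D : ℝ} {Ns : K.S → ℕ}
  {P P' : K.S → ℕ → ℝ}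

/-- **thin bands in the window of the tube** -/
theorem exists_thnS {σ : ℝ} (hs : SlB G e σ sl)
    (hsl : ∀ p ∈ sl, p.1 ≤ p.2) (hD : 0 ≤ D) (hDe : D ≤ G.be (K.a e)) (hDe' : D ≤ G.be (K.b e))
    (HP : ∀ s ∈ S₀, K.edge e ⊆ K.sq s → Bds (Ns s) (P s) (P' s)) {gP : K.S → ℝ}
    (hgP : ∀ s, 0 ≤ gP s)
    (hP : ∀ s ∈ S₀, K.edge e ⊆ K.sq s → ∀ k, k + 1 < Ns s → P s (k + 1) - P' s k ≤ gP s)
    {μ : ℝ} (hμ : 0 < μ) (hμ1 : μ ≤ 1) (hσ : σ + 2 * D * sl.card ≤ μ / 8 * (ebe W e - eal W e))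
    (hNs : ∀ s ∈ S₀, K.edge e ⊆ K.sq s →
      Ns s * gP s * (8 * ((sqE e).card + 1)) ≤ μ * (ebe W e - eal W e)) {δ : ℝ} (hδ : 0 < δ) :
    ∃ M : ℕ, 0 < M ∧ (ebe W e - eal W e) / M ≤ δ ∧ ∃ e₀ > 0, ∀ ε, 0 < ε → ε ≤ e₀ →
      ∃ Th : Thn (eal W e) (ebe W e) (slF S₀ e sl D Ns P P') μ, Th.M = M ∧ Th.e = ε := by
  classical
  have hl : 0 < ebe W e - eal W e := by
    have := eal_lt_ebe W e
    linarith
  refine exists_thn (by linarith) _ (slF_le hD hsl HP) hμ hμ1 ?_ hδ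
  obtain ⟨J, j1, j2, inner, j3, j4, j5⟩ := hs
  obtain ⟨h8, h9⟩ := Vale.Agent.P073.H669.eLo_T (W := W) G e
  have hba := G.be_pos (K.a e)
  have hbb := G.be_pos (K.b e)
  have hA : ∑ p ∈ fat sl D, (clam (eal W e) (ebe W e) p.2 - clam (eal W e) (ebe W e) p.1) ≤
      ∑ p ∈ inner, (p.2 - p.1) + 2 * D * sl.card := by
    refine sum_fat_far (by linarith) hD j3 fun p hp => ?_
    rcases j5 p hp with h | ⟨-, t, rfl | rfl, h6, h7⟩
    · exact Or.inl h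
    · refine Or.inr (Or.inl ?_)
      change p.2 + D ≤ eLo W e
      change p.2 ≤ G.tlo true (.inl e) (K.dir e) + J at h7
      linarith
    · refine Or.inr (Or.inr ?_)
      change eHi W e ≤ p.1 - D
      change G.thi true (.inl e) (K.dir e) - J ≤ p.1 at h6
      linarith
  have hc : (0:ℝ) < 8 * ((sqE e).card + 1) := by positivity
  have h2' : ∀ s ∈ sqE e, ∑ p ∈ (if s ∈ S₀ ∧ K.edge e ⊆ K.sq s then gap (Ns s) (P s) (P' s) 0
      else ∅ : Finset (ℝ × ℝ)), (clam (eal W e) (ebe W e) p.2 - clam (eal W e) (ebe W e) p.1) ≤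
      μ * (ebe W e - eal W e) / (8 * ((sqE e).card + 1)) := by
    intro s _
    split_ifs with hs
    · have h3 := sum_gap_le (N := Ns s) (T := P s) (T' := P' s) (D := 0) (e := gP s)
        (by have := hgP s; linarith) (hP s hs.1 hs.2)
      have h4 := hNs s hs.1 hs.2
      have h5 : ∑ p ∈ gap (Ns s) (P s) (P' s) 0,
          (clam (eal W e) (ebe W e) p.2 - clam (eal W e) (ebe W e) p.1) ≤
          ∑ p ∈ gap (Ns s) (P s) (P' s) 0, (p.2 - p.1) :=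
        Finset.sum_le_sum fun p hp => clam_sub_le (gap_le (HP s hs.1 hs.2) le_rfl p hp)
      rw [le_div_iff₀ hc]
      have h6 : ∑ p ∈ gap (Ns s) (P s) (P' s) 0,
          (clam (eal W e) (ebe W e) p.2 - clam (eal W e) (ebe W e) p.1) ≤ Ns s * gP s := by
        have : (Ns s : ℝ) * (gP s + 2 * 0) = Ns s * gP s := by ring
        linarith
      exact (mul_le_mul_of_nonneg_right h6 hc.le).trans h4
    · rw [Finset.sum_empty]; positivity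
  have hB : ∑ s ∈ sqE e, ∑ p ∈ (if s ∈ S₀ ∧ K.edge e ⊆ K.sq s then gap (Ns s) (P s) (P' s) 0
      else ∅ : Finset (ℝ × ℝ)), (clam (eal W e) (ebe W e) p.2 - clam (eal W e) (ebe W e) p.1) ≤
      μ / 8 * (ebe W e - eal W e) := by
    refine (Finset.sum_le_sum h2').trans ?_
    rw [Finset.sum_const, nsmul_eq_mul, ← mul_div_assoc, div_le_iff₀ hc]
    have h4 : (0:ℝ) ≤ μ * (ebe W e - eal W e) := by positivity
    nlinarith
  have hC : ∑ p ∈ slF S₀ e sl D Ns P P',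
      (clam (eal W e) (ebe W e) p.2 - clam (eal W e) (ebe W e) p.1) ≤
      ∑ p ∈ fat sl D, (clam (eal W e) (ebe W e) p.2 - clam (eal W e) (ebe W e) p.1) +
      ∑ s ∈ sqE e, ∑ p ∈ (if s ∈ S₀ ∧ K.edge e ⊆ K.sq s then gap (Ns s) (P s) (P' s) 0
        else ∅ : Finset (ℝ × ℝ)), (clam (eal W e) (ebe W e) p.2 - clam (eal W e) (ebe W e) p.1) :=
    sum_tbSl_le' (e := e) (gT := fat sl D)
    (gP := fun s => if s ∈ S₀ ∧ K.edge e ⊆ K.sq s then gap (Ns s) (P s) (P' s) 0 else ∅)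
    (f := fun p => clam (eal W e) (ebe W e) p.2 - clam (eal W e) (ebe W e) p.1)
    (fun p hp => sub_nonneg.2 (clam_mono _ _ hp)) (fat_le hD hsl) (fun s p hp => by
      split_ifs at hp with hs
      · exact gap_le (HP s hs.1 hs.2) le_rfl p hp
      · exact absurd hp (Finset.notMem_empty p))
  linarith

/-- **the intervals of `X`, fattened by `D`, meet no thin band** -/
theorem thnS_off [DecidableEq (ℝ × ℝ)] {μ : ℝ} {X : Finset (ℝ × ℝ)}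
    (Th : Thn (eal W e) (ebe W e) (slF S₀ e (sl ∪ X) D Ns P P') μ)
    {i : Th.I} {p : ℝ × ℝ} (hp : p ∈ X) : p.2 + D < Th.c i - Th.w i ∨
      Th.c i + Th.w i < p.1 - D := by
  have hp' : (p.1 - D, p.2 + D) ∈ slF S₀ e (sl ∪ X) D Ns P P' :=
    mem_tbSl.2 (Or.inl (mem_fat.2 ⟨p, Finset.mem_union_right _ hp, rfl⟩))
  exact Th.off (i := i) hp'

end bandS

/-! ### one edge -/

section band

variable {S₀ : Set K.S} {L : PLev G} {Fσ : Bool → BFam 3 S₀ Λ} {ς : Bool → S₀ → ℝ}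
  {Tσ : Bool → ConHomeo Λ Λ} {e : K.G} {sl₀ X : Finset (ℝ × ℝ)} {μ D₂ Dd dT : ℝ} {ω : TBx K → ℝ}

open Classical in
/-- the slivers of the thin bands at the edge `e` -/
noncomputable abbrev slT (L : PLev G) (Fσ : Bool → BFam 3 S₀ Λ) (ς : Bool → S₀ → ℝ) (e : K.G)
    (sl₀ X : Finset (ℝ × ℝ)) (D₂ : ℝ) : Finset (ℝ × ℝ) :=
  slF S₀ e (sl₀ ∪ X) D₂ (fun s => L.N s (bt s (K.dir e))) (Pσ L Fσ ς e) (P'σ L Fσ ς e)

/-- **what is used of the thin bands** -/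
structure TBand (L : PLev G) (Fσ : Bool → BFam 3 S₀ Λ) (ς : Bool → S₀ → ℝ) (e : K.G)
    (sl₀ X : Finset (ℝ × ℝ)) (Dd : ℝ) {sl' : Finset (ℝ × ℝ)}
    (Th : Thn (eal W e) (ebe W e) sl' μ) : Prop where
  inP : ∀ i : Th.I, ∀ s ∈ S₀, K.edge e ⊆ K.sq s →
    ∃ k < L.N s (bt s (K.dir e)), Pσ L Fσ ς e s k ≤ Th.c i - Th.w i ∧
      Th.c i + Th.w i ≤ P'σ L Fσ ς e s k
  noSl : ∀ i : Th.I, ∀ t, |t - Th.c i| ≤ Th.w i + Dd → NoSl sl₀ t
  locD : ∀ i : Th.I, ∀ (σ : ℝ → ℝ) (dT : ℝ), StrictMono σ → 0 ≤ dT → dT ≤ Dd →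
    (∀ t, (∀ p ∈ X, t ∉ Icc p.1 p.2) → |σ t - t| ≤ dT) →
    LocD σ {t | |t - Th.c i| ≤ Th.w i + Dd} dT
  /-- every window, fattened by `2 Dd`, lies between two thin bands -/
  offX : ∀ i : Th.I, ∀ p ∈ X, p.2 + 2 * Dd < Th.c i - Th.w i ∨ Th.c i + Th.w i < p.1 - 2 * Dd

theorem tband_of (P : Sg3 L S₀ Fσ ς Tσ)
    (hg : ∀ s ∈ S₀, K.edge e ⊆ K.sq s → gσ Fσ ς (bt s (K.dir e)) s ≤ 31 * G.a s)
    (hDd : 0 ≤ Dd) (hD₂ : 2 * Dd ≤ D₂)
    (Th : Thn (eal W e) (ebe W e) (slT L Fσ ς e sl₀ X D₂) μ) : TBand L Fσ ς e sl₀ X Dd Th where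
  inP := inP_of P hg Th
  noSl := fun i t ht p hp => by
    classical
    exact noSl_of Th (by linarith) i (ht.trans (by linarith)) p (Finset.mem_union_left _ hp)
  locD := fun i σ dT hσ hd hdD hW => by
    classical
    have hw := Th.w_pos i
    have h1 : LocD σ (Icc (Th.c i - (Th.w i + Dd)) (Th.c i + (Th.w i + Dd))) dT := by
      refine locD_of hσ (Wd := {p | p ∈ X}) hd (by linarith) hW fun p hp => ?_
      rcases thnS_off Th (i := i) hp with h2 | h2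
      · change p.2 + D₂ < Th.c i - Th.w i at h2
        left; linarith
      · change Th.c i + Th.w i < p.1 - D₂ at h2
        right; linarith
    refine h1.mono (fun t ht => ?_) le_rfl
    have ht : |t - Th.c i| ≤ Th.w i + Dd := ht
    obtain ⟨h2, h3⟩ := abs_le.1 ht
    constructor <;> linarith
  offX := fun i p hp => by
    classical
    rcases thnS_off Th (i := i) hp with h2 | h2
    · change p.2 + D₂ < Th.c i - Th.w i at h2
      left; linarith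
    · change Th.c i + Th.w i < p.1 - D₂ at h2
      right; linarith

/-- **the thin bands at an edge** -/
theorem exists_tband (P : Sg3 L S₀ Fσ ς Tσ)
    (hg : ∀ s ∈ S₀, K.edge e ⊆ K.sq s → gσ Fσ ς (bt s (K.dir e)) s ≤ 31 * G.a s) {σ τ : ℝ}
    (hs : SlB G e σ sl₀) (hsl : ∀ p ∈ sl₀, p.1 ≤ p.2)
    (hX : ∀ p ∈ X, p.1 ≤ p.2) (hτ : ∑ p ∈ X, (p.2 - p.1) ≤ τ)
    (hDd : 0 ≤ Dd) (hD₂ : 2 * Dd ≤ D₂) (hDe : D₂ ≤ G.be (K.a e)) (hDe' : D₂ ≤ G.be (K.b e))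
    (hμ : 0 < μ) (hμ1 : μ ≤ 1)
    (hσ : σ + τ + 2 * D₂ * (sl₀.card + X.card) ≤ μ / 8 * (ebe W e - eal W e))
    (hNs : ∀ s ∈ S₀, K.edge e ⊆ K.sq s → L.N s (bt s (K.dir e)) *
      (2 * gσ Fσ ς (bt s (K.dir e)) s) * (8 * ((sqE e).card + 1)) ≤ μ * (ebe W e - eal W e))
    {δ : ℝ} (hδ : 0 < δ) :
    ∃ Mn : ℕ, 0 < Mn ∧ (ebe W e - eal W e) / Mn ≤ δ ∧ ∃ e₀ > 0, ∀ ε, 0 < ε → ε ≤ e₀ →
      ∃ Th : Thn (eal W e) (ebe W e) (slT L Fσ ς e sl₀ X D₂) μ, Th.M = Mn ∧ Th.e = ε ∧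
        TBand L Fσ ς e sl₀ X Dd Th := by
  classical
  have h0 : 0 ≤ D₂ := by linarith
  have hc : ((sl₀ ∪ X).card : ℝ) ≤ sl₀.card + X.card := by
    exact_mod_cast Finset.card_union_le sl₀ X
  have h1 := mul_le_mul_of_nonneg_left hc (by linarith : 0 ≤ 2 * D₂)
  obtain ⟨Mn, hM, hMδ, e₀, he₀, key⟩ := exists_thnS (S₀ := S₀) (D := D₂)
    (Ns := fun s => L.N s (bt s (K.dir e))) (P := Pσ L Fσ ς e) (P' := P'σ L Fσ ς e)
    (hs.union hX hτ) (fun p hp => by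
      rcases Finset.mem_union.1 hp with h | h
      · exact hsl p h
      · exact hX p h) h0 hDe hDe' (bdsσ P e)
    (gP := fun s => 2 * gσ Fσ ς (bt s (K.dir e)) s)
    (fun s => by have := gσ_nonneg P (bt s (K.dir e)) s; positivity)
    (fun s _ _ k _ => (gapσ L Fσ ς e s k).le) hμ hμ1 (by
      show σ + τ + 2 * D₂ * ((sl₀ ∪ X).card : ℝ) ≤ μ / 8 * (ebe W e - eal W e)
      linarith) hNs hδ
  refine ⟨Mn, hM, hMδ, e₀, he₀, fun ε h2 h3 => ?_⟩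
  obtain ⟨Th, h4, h5⟩ := key ε h2 h3
  exact ⟨Th, h4, h5, tband_of P hg hDd hD₂ Th⟩

end band

/-! ### all edges -/

variable {M : Mesh Ω} {E : Edges M} {D : Dat K M} {c d : ℝ}
  {Y : Lat B} {L : PLev G} {F Fσ : Bool → BFam 3 D.S₀ Λ} {ς : Bool → D.S₀ → ℝ}
  {T Tσ : Bool → ConHomeo Λ Λ} {κ₀ κ₁ : V → V} {Zb : D.S₀ → Set M.ι}
  {h h1 h2 h3 h4 h5 f5 : ConHomeo Ω Λ} {u : V} {hΩ : IsOpen Ω} {r q : D.S₀ → ℝ}
  {ι : Type} {Fm : ι → Set V} {ω : TBx K → ℝ} {m : ℝ} {G₀ : Set (TBx K)} {Act₀ : Set M.κ}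
  {O₁ : M.κ → V} {La : E.ε → ℝ} {Lf : M.κ → E.ε → ℝ} {Lam1 : M.κ → ℝ}
  {sl : G₀ → Finset (ℝ × ℝ)}
  {H : HkG M L (Subtype.val : D.S₀ → K.S) F T κ₀ κ₁ c d Zb h2 h3 h4 u}
  {O : HkGF H hΩ r q h5}

/-- **the numbers at the edge `e`**: `X` are the windows where the displacement of ROUND P may be
large, `dT` is the displacement off these windows -/
structure NumT (L : PLev G) (F Fσ : Bool → BFam 3 D.S₀ Λ) (ς : Bool → D.S₀ → ℝ) (_ω : TBx K → ℝ)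
    (e : K.G) (sl₀ X : Finset (ℝ × ℝ)) (μ σ τ δ dT dK Dd D₂ : ℝ) : Prop where
  δ0 : 0 ≤ δ
  hδ : ∀ β, ∀ s : D.S₀, K.edge e ⊆ K.sq s.1 → (Fσ β).e s ≤ δ
  T0 : 0 ≤ dT
  hT : ∀ β, ∀ s : D.S₀, K.edge e ⊆ K.sq s.1 → tg s.1 β = K.dir e →
    ∀ t, (∀ p ∈ X, t ∉ Icc p.1 p.2) → |(F β).σ s t - t| ≤ dT
  K0 : 0 ≤ dK
  hK : ∀ β, ∀ s : D.S₀, K.edge e ⊆ K.sq s.1 → L.c s.1 β ≤ dK
  sum : 2 * δ + (2 * dT + 2 * dK) ≤ Dd
  D2 : 2 * Dd ≤ D₂
  be_a : D₂ ≤ G.be (K.a e)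
  be_b : D₂ ≤ G.be (K.b e)
  Te : 2 * δ ≤ B.T e
  gap : ∀ s ∈ D.S₀, K.edge e ⊆ K.sq s → gσ Fσ ς (bt s (K.dir e)) s ≤ 31 * G.a s
  /-- long slivers only near the ends of the box -/
  sIn : SlB G e (5 * σ) sl₀
  Xle : ∀ p ∈ X, p.1 ≤ p.2
  Xs : ∑ p ∈ X, (p.2 - p.1) ≤ τ
  μ0 : 0 < μ
  μ1 : μ ≤ 1
  bud : 5 * σ + τ + 2 * D₂ * (sl₀.card + X.card) ≤ μ / 8 * (ebe W e - eal W e)
  bud' : ∀ s ∈ D.S₀, K.edge e ⊆ K.sq s → L.N s (bt s (K.dir e)) *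
      (2 * gσ Fσ ς (bt s (K.dir e)) s) * (8 * ((sqE e).card + 1)) ≤ μ * (ebe W e - eal W e)

theorem NumT.numE {e : K.G} {sl₀ X : Finset (ℝ × ℝ)} {μ σ τ δ dT dK Dd D₂ : ℝ}
    (N : NumT L F Fσ ς ω e sl₀ X μ σ τ δ dT dK Dd D₂) {sl' : Finset (ℝ × ℝ)}
    {Th : Thn (eal W e) (ebe W e) sl' μ} (Tb : TBand L Fσ ς e sl₀ X Dd Th) :
    NumE L F Fσ e Th δ dT dK Dd where
  δ0 := N.δ0
  hδ := N.hδ
  T0 := N.T0
  hT := fun β s hes htg i => Tb.locD i _ dT ((F β).σ_strictMono s) N.T0 (by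
    linarith [N.sum, N.T0, N.K0, N.δ0]) (N.hT β s hes htg)
  K0 := N.K0
  hK := N.hK
  sum := N.sum
  be_a := by linarith [N.D2, N.be_a, N.sum, N.T0, N.K0, N.δ0]
  be_b := by linarith [N.D2, N.be_b, N.sum, N.T0, N.K0, N.δ0]
  Te := N.Te

/-- **[T-PART]** the thin bands of all tubes, and the hypotheses of the hook of the tubes -/
theorem exists_tpart (hΛ : IsOpen Λ) (A : PreT O h1 f5 Fσ ς Tσ E Fm) {h3t : ConHomeo Ω Λ}
    {μ₂ : Bool → D.S₀ → ℝ} {T2 : Bool → ConHomeo Λ Λ} (Mt : MapT H h3t μ₂ T2)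
    (O1 : T3OutG G M E h h1 ω m G₀ Act₀ O₁ La Lf Lam1 sl) {γ : Type*} {φ : γ → K.G}
    (hφ : Function.Injective φ) (heG : ∀ b, (.inl (φ b) : TBx K) ∈ G₀)
    {X : γ → Finset (ℝ × ℝ)} {μ σ τ δ dT dK Dd D₂ : γ → ℝ}
    (N : ∀ b, NumT L F Fσ ς ω (φ b) (sl ⟨.inl (φ b), heG b⟩) (X b) (μ b) (σ b) (τ b) (δ b) (dT b)
      (dK b) (Dd b) (D₂ b)) {δT : γ → ℝ} (hδT : ∀ b, 0 < δT b) :
    ∃ Mn : γ → ℕ, (∀ b, 0 < Mn b) ∧ (∀ b, (ebe W (φ b) - eal W (φ b)) / Mn b ≤ δT b) ∧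
    ∃ e₀ : γ → ℝ, (∀ b, 0 < e₀ b) ∧ ∀ ε : γ → ℝ, (∀ b, 0 < ε b) → (∀ b, ε b ≤ e₀ b) →
    ∃ Th : ∀ b, Thn (eal W (φ b)) (ebe W (φ b))
        (slT L Fσ ς (φ b) (sl ⟨.inl (φ b), heG b⟩) (X b) (D₂ b)) (μ b),
      (∀ b, (Th b).M = Mn b) ∧ (∀ b, (Th b).e = ε b) ∧
      (∀ b, TBand L Fσ ς (φ b) (sl ⟨.inl (φ b), heG b⟩) (X b) (Dd b) (Th b)) ∧
      ∀ (Y : Lat B) (Zt : γ → Set M.ι), (∀ b, ∀ i ∈ Zt b, ∃ m z, M.Q i = dyc u m z) →
        (∀ b, ∀ i ∈ Zt b, f5.toFun '' M.Q i ⊆ interior (YB Y (φ b))) →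
        (∀ b, ∀ i ∈ Zt b, PsvT H h1 h3t i) → HkT M Y φ Th Zt f5 u := by
  have key : ∀ b, _ := fun b => exists_tband (Dd := Dd b) (D₂ := D₂ b) A.P (N b).gap (N b).sIn
    (fun p hp => O1.sl_le ⟨.inl (φ b), heG b⟩ p hp)
    (N b).Xle (N b).Xs (by
      linarith [(N b).sum, (N b).T0, (N b).K0, (N b).δ0]) (N b).D2 (N b).be_a (N b).be_b
    (N b).μ0 (N b).μ1 (N b).bud (N b).bud' (hδT b)
  choose Mn k1 k2 e₀ k3 k4 using key
  refine ⟨Mn, k1, k2, e₀, k3, fun ε hε hε' => ?_⟩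
  choose Th k5 k6 k7 using fun b => k4 b (ε b) (hε b) (hε' b)
  refine ⟨Th, k5, k6, k7, fun Y Zt hcube hint I => ?_⟩
  exact hkT_of hΛ A Mt O1 hφ heG (fun b => (N b).numE (k7 b)) (fun b => (k7 b).inP)
    (fun b => (k7 b).noSl) hcube hint I

end P073.H155
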