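import Vale.Agent.P073.H155.Own2

/-!
# P073, H155 (GE-SHARED): the numbers of an edge which is vertical over the flats
-/

open Set Metric Topology Filter

set_option autoImplicit false

namespace P073.H155

open P073.H31 P073.H579

/-- the four parameters, increasing case -/
theorem exists_four_mono {u v : ℝ} {ψ : ℝ → ℝ} (hm : StrictMonoOn ψ (Icc u v)) {t₀ c : ℝ}
    (hc0 : 0 < c) (hsub : Icc (t₀ - 2 * c) (t₀ + 2 * c) ⊆ ψ '' Icc u v) :
    ∃ s1 s2 s3 s4 : ℝ, u ≤ s1 ∧ s1 < s2 ∧ s2 < s3 ∧ s3 < s4 ∧ s4 ≤ v ∧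
      |ψ s2 - ψ s1| = c ∧ |ψ s4 - ψ s3| = c ∧
      (∀ s ∈ Icc u v, (|ψ s - t₀| ≤ c ↔ s2 ≤ s ∧ s ≤ s3)) ∧
      ∀ s ∈ Icc u v, s1 < s → s < s4 → |ψ s - t₀| < 2 * c := by
  obtain ⟨s1, h1, e1⟩ := hsub ⟨le_refl (t₀ - 2 * c), by linarith⟩
  obtain ⟨s2, h2, e2⟩ := hsub (show t₀ - c ∈ Icc (t₀ - 2 * c) (t₀ + 2 * c) from
    ⟨by linarith, by linarith⟩)
  obtain ⟨s3, h3, e3⟩ := hsub (show t₀ + c ∈ Icc (t₀ - 2 * c) (t₀ + 2 * c) from
    ⟨by linarith, by linarith⟩)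
  obtain ⟨s4, h4, e4⟩ := hsub ⟨by linarith, le_refl (t₀ + 2 * c)⟩
  refine ⟨s1, s2, s3, s4, h1.1, (hm.lt_iff_lt h1 h2).1 (by rw [e1, e2]; linarith),
    (hm.lt_iff_lt h2 h3).1 (by rw [e2, e3]; linarith),
    (hm.lt_iff_lt h3 h4).1 (by rw [e3, e4]; linarith), h4.2, ?_, ?_, fun s hs => ?_,
    fun s hs a1 a2 => ?_⟩
  · rw [e1, e2]
    have : t₀ - c - (t₀ - 2 * c) = c := by ring
    rw [this, abs_of_pos hc0]
  · rw [e3, e4]
    have : t₀ + 2 * c - (t₀ + c) = c := by ring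
    rw [this, abs_of_pos hc0]
  · rw [← hm.le_iff_le h2 hs, ← hm.le_iff_le hs h3, e2, e3, abs_le]
    constructor
    · rintro ⟨b1, b2⟩; constructor <;> linarith
    · rintro ⟨b1, b2⟩; constructor <;> linarith
  · have b1 := (hm.lt_iff_lt h1 hs).2 a1
    have b2 := (hm.lt_iff_lt hs h4).2 a2
    rw [e1] at b1
    rw [e4] at b2
    rw [abs_lt]
    constructor <;> linarith

/-- the four parameters -/
theorem exists_four {u v : ℝ} (huv : u ≤ v) {ψ : ℝ → ℝ} (hc : ContinuousOn ψ (Icc u v))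
    (hi : InjOn ψ (Icc u v)) {t₀ c : ℝ}
    (hc0 : 0 < c) (hsub : Icc (t₀ - 2 * c) (t₀ + 2 * c) ⊆ ψ '' Icc u v) :
    ∃ s1 s2 s3 s4 : ℝ, u ≤ s1 ∧ s1 < s2 ∧ s2 < s3 ∧ s3 < s4 ∧ s4 ≤ v ∧
      |ψ s2 - ψ s1| = c ∧ |ψ s4 - ψ s3| = c ∧
      (∀ s ∈ Icc u v, (|ψ s - t₀| ≤ c ↔ s2 ≤ s ∧ s ≤ s3)) ∧
      ∀ s ∈ Icc u v, s1 < s → s < s4 → |ψ s - t₀| < 2 * c := by
  rcases hc.strictMonoOn_of_injOn_Icc' huv hi with hm | hm
  · exact exists_four_mono hm hc0 hsub
  · have hm' : StrictMonoOn (fun s => -ψ s) (Icc u v) := fun x hx y hy hxy =>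
      neg_lt_neg (hm hx hy hxy)
    obtain ⟨s1, s2, s3, s4, h1, h2, h3, h4, h5, h6, h7, h8, h9⟩ := exists_four_mono
      (t₀ := -t₀) hm' hc0 (fun r hr => by
        obtain ⟨s, hs, e⟩ := hsub (show -r ∈ Icc (t₀ - 2 * c) (t₀ + 2 * c) from
          ⟨by linarith [hr.2], by linarith [hr.1]⟩)
        exact ⟨s, hs, by show -ψ s = r; rw [e, neg_neg]⟩)
    have habs : ∀ x y : ℝ, |-x - -y| = |x - y| := fun x y => by
      rw [← abs_neg]; congr 1; ring
    refine ⟨s1, s2, s3, s4, h1, h2, h3, h4, h5, ?_, ?_, fun s hs => ?_, fun s hs a1 a2 => ?_⟩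
    · rw [← habs]; exact h6
    · rw [← habs]; exact h7
    · rw [← habs]; exact h8 s hs
    · rw [← habs]; exact h9 s hs a1 a2

variable {E : Type*} [NormedAddCommGroup E] [NormedSpace ℝ E] {m : ℕ} {a b : E}
  {h : E → Fin m → ℝ} {k : Fin m → ℝ → ℝ} {L : Fin m → Finset ℝ} {lo hi om : Fin m → ℝ → ℝ}
  {c : Fin m → ℝ}

/-- a vertical piece of the edge `[a, b]` through the crossing point `x`, in the direction `j` -/
def VPiece (a b : E) (h : E → Fin m → ℝ) (c Lt : ℝ) (x : E) (j : Fin m) : Prop :=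
  ∃ (u v : ℝ) (ψ : ℝ → ℝ), 0 < u ∧ u < v ∧ v < 1 ∧
    (∀ s ∈ Icc u v, h (AffineMap.lineMap a b s) = Function.update (h x) j (ψ s)) ∧
    ContinuousOn ψ (Icc u v) ∧ InjOn ψ (Icc u v) ∧
    Icc (h x j - 2 * c) (h x j + 2 * c) ⊆ ψ '' Icc u v ∧
    ∀ s ∈ Icc u v, ∀ s' ∈ Icc u v, |ψ s - ψ s'| ≤ Lt * ‖b - a‖ * |s - s'|

/-- **the numbers of an edge which is vertical over the flats** -/
theorem edgeNum_of_vert (hab : a ≠ b) (hinj : InjOn h (segment ℝ a b))
    (hI : ∀ j, Ins1 (k j) (L j : Set ℝ) (lo j) (hi j)) (hc0 : ∀ j, (L j).Nonempty → 0 < c j)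
    (hlo : ∀ j, ∀ t ∈ L j, lo j t = t - c j) (hhi : ∀ j, ∀ t ∈ L j, hi j t = t + c j)
    (hsp : ∀ j, ∀ t ∈ L j, ∀ t' ∈ L j, t ≠ t' → 4 * c j ≤ |t - t'|)
    (hoff : ∀ x ∈ segment ℝ a b, ∀ j, h x j ∈ L j → ∀ j', j' ≠ j →
      k j' (h x j') = h x j' ∧ ∀ t ∈ L j', 2 * c j' ≤ |h x j' - t|)
    {Lt La : ℝ} (hom : ∀ j, ∀ t ∈ L j, 0 ≤ om j t ∧ om j t * Lt ≤ c j * La)
    (hvert : ∀ x ∈ segment ℝ a b, ∀ j, h x j ∈ L j → VPiece a b h (c j) Lt x j) :
    ∃ s1 s2 s3 s4 : E → ℝ, EdgeNum a b h k L lo hi om La h s1 s2 s3 s4 := by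
  classical
  have hba : 0 < ‖b - a‖ := norm_pos_iff.2 (sub_ne_zero.2 hab.symm)
  -- the level of a crossing point is unique
  have huniq : ∀ x ∈ segment ℝ a b, ∀ j j', h x j ∈ L j → h x j' ∈ L j' → j = j' := by
    intro x hx j j' hj hj'
    by_contra hne
    have h1 := (hoff x hx j hj j' (Ne.symm hne)).2 _ hj'
    rw [sub_self, abs_zero] at h1
    linarith [hc0 j' ⟨_, hj'⟩]
  have key : ∀ x, ∃ s1 s2 s3 s4 : ℝ, CrsPt a b h L x → ∃ (j : Fin m) (u v : ℝ) (ψ : ℝ → ℝ),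
      h x j ∈ L j ∧ 0 < u ∧ v < 1 ∧
      (∀ s ∈ Icc u v, h (AffineMap.lineMap a b s) = Function.update (h x) j (ψ s)) ∧
      Icc (h x j - 2 * c j) (h x j + 2 * c j) ⊆ ψ '' Icc u v ∧
      (∀ s ∈ Icc u v, ∀ s' ∈ Icc u v, |ψ s - ψ s'| ≤ Lt * ‖b - a‖ * |s - s'|) ∧
      u ≤ s1 ∧ s1 < s2 ∧ s2 < s3 ∧ s3 < s4 ∧ s4 ≤ v ∧
      |ψ s2 - ψ s1| = c j ∧ |ψ s4 - ψ s3| = c j ∧
      (∀ s ∈ Icc u v, (|ψ s - h x j| ≤ c j ↔ s2 ≤ s ∧ s ≤ s3)) ∧
      ∀ s ∈ Icc u v, s1 < s → s < s4 → |ψ s - h x j| < 2 * c j := by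
    intro x
    by_cases hx : CrsPt a b h L x
    · obtain ⟨hxs, j, hj⟩ := hx
      obtain ⟨u, v, ψ, hu, huv, hv, h1, h2, h3, h4, h5⟩ := hvert x hxs j hj
      obtain ⟨s1, s2, s3, s4, hh⟩ := exists_four huv.le h2 h3 (hc0 j ⟨_, hj⟩) h4
      exact ⟨s1, s2, s3, s4, fun _ => ⟨j, u, v, ψ, hj, hu, hv, h1, h4, h5, hh⟩⟩
    · exact ⟨0, 0, 0, 0, fun h => absurd h hx⟩
  choose s1 s2 s3 s4 hs using key
  refine ⟨s1, s2, s3, s4, fun x hx => ?_, fun x hx => ?_, fun x hx => ?_, fun x hx => ?_,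
    fun x hx => ?_, fun x y hx hy hxy => ?_, fun x hx s hs01 => ?_, fun x hx j hj => ?_,
    fun x hx j hj => ?_, fun x hx j hj s hs' s' hs'' => ?_⟩
  · obtain ⟨j, u, v, ψ, -, q1, q2, -, -, -, r1, r2, r3, r4, r5, -⟩ := hs x hx
    linarith
  · obtain ⟨j, u, v, ψ, -, q1, q2, -, -, -, r1, r2, r3, r4, r5, -⟩ := hs x hx
    exact r2
  · obtain ⟨j, u, v, ψ, -, q1, q2, -, -, -, r1, r2, r3, r4, r5, -⟩ := hs x hx
    exact r3
  · obtain ⟨j, u, v, ψ, -, q1, q2, -, -, -, r1, r2, r3, r4, r5, -⟩ := hs x hx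
    exact r4
  · obtain ⟨j, u, v, ψ, -, q1, q2, -, -, -, r1, r2, r3, r4, r5, -⟩ := hs x hx
    linarith
  · -- disjointness
    by_contra hcon
    push Not at hcon
    obtain ⟨c1, c2⟩ := hcon
    obtain ⟨j, u, v, ψ, qj, q1, q2, q3, -, -, r1, r2, r3, r4, r5, -, -, -, r9⟩ := hs x hx
    obtain ⟨j', u', v', ψ', qj', q1', q2', q3', -, -, r1', r2', r3', r4', r5', -, -, -, r9'⟩ :=
      hs y hy
    obtain ⟨s, hs1, hs2⟩ := exists_between (max_lt (lt_min (show s1 x < s4 x by linarith) c2)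
      (lt_min c1 (show s1 y < s4 y by linarith)) : max (s1 x) (s1 y) < min (s4 x) (s4 y))
    rw [max_lt_iff] at hs1
    rw [lt_min_iff] at hs2
    have m1 : s ∈ Icc u v := ⟨by linarith, by linarith⟩
    have m2 : s ∈ Icc u' v' := ⟨by linarith, by linarith⟩
    have e1 := q3 s m1
    have e2 := q3' s m2
    have b1 := r9 s m1 hs1.1 hs2.1
    have b2 := r9' s m2 hs1.2 hs2.2
    rw [e1] at e2
    by_cases hjj : j = j'
    · subst hjj
      have e3 := congrFun e2 j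
      rw [Function.update_self, Function.update_self] at e3
      have hlev : h x j = h y j := by
        by_contra hne
        have h1 := hsp j _ qj _ qj' hne
        rw [e3, abs_lt] at b1
        rw [abs_lt] at b2
        rcases le_abs.1 h1 with h2 | h2
        · linarith
        · linarith
      apply hxy
      refine hinj hx.1 hy.1 (funext fun i => ?_)
      by_cases hi' : i = j
      · rw [hi']; exact hlev
      · have := congrFun e2 i
        rwa [Function.update_of_ne hi', Function.update_of_ne hi'] at this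
    · have e3 := congrFun e2 j'
      rw [Function.update_of_ne (Ne.symm hjj), Function.update_self] at e3
      have h1 := (hoff x hx.1 j qj j' (Ne.symm hjj)).2 _ qj'
      rw [e3] at h1
      linarith
  · -- the fibre
    obtain ⟨j, u, v, ψ, qj, q1, q2, q3, q4, -, r1, r2, r3, r4, r5, -, -, r8, -⟩ := hs x hx
    have hseg : ∀ s ∈ Icc (0:ℝ) 1, (AffineMap.lineMap a b s : E) ∈ segment ℝ a b :=
      fun s hs => lineMap_mem hs
    have huv01 : ∀ s ∈ Icc u v, s ∈ Icc (0:ℝ) 1 := fun s hs =>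
      ⟨by linarith [hs.1], by linarith [hs.2]⟩
    constructor
    · intro he
      have e1 : h (AffineMap.lineMap a b s) = Function.update (h x) j
          (h (AffineMap.lineMap a b s) j) := by
        funext i
        by_cases hi' : i = j
        · rw [hi', Function.update_self]
        · rw [Function.update_of_ne hi']
          obtain ⟨e2, e3⟩ := hoff x hx.1 j qj i hi'
          have e4 : k i (h (AffineMap.lineMap a b s) i) = h x i := congrFun he i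
          refine (hI i).inj _ _ (e4.trans e2.symm) ?_
          rw [e4]
          intro h5
          have h6 := e3 _ h5
          rw [sub_self, abs_zero] at h6
          linarith [hc0 i ⟨_, h5⟩]
      have e2 : k j (h (AffineMap.lineMap a b s) j) = h x j := congrFun he j
      have e3 := ((hI j).flat _ qj _).1 e2
      rw [hlo j _ qj, hhi j _ qj] at e3
      have hcj := hc0 j ⟨_, qj⟩
      obtain ⟨s', hs', e4⟩ := q4 (show h (AffineMap.lineMap a b s) j ∈ _ from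
        ⟨by linarith [e3.1], by linarith [e3.2]⟩)
      have e5 : h (AffineMap.lineMap a b s') = h (AffineMap.lineMap a b s) := by
        rw [q3 s' hs', e4]; exact e1.symm
      have e6 : s' = s := lineMap_injective hab
        (hinj (hseg s' (huv01 s' hs')) (hseg s hs01) e5)
      subst e6
      refine (r8 s' hs').1 ?_
      rw [e4, abs_le]
      constructor <;> linarith [e3.1, e3.2]
    · rintro ⟨h1, h2⟩
      have hm : s ∈ Icc u v := ⟨by linarith, by linarith⟩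
      have h3 := (r8 s hm).2 ⟨h1, h2⟩
      rw [abs_le] at h3
      rw [q3 s hm]
      funext i
      show k i (Function.update (h x) j (ψ s) i) = h x i
      by_cases hi' : i = j
      · rw [hi', Function.update_self]
        refine ((hI j).flat _ qj _).2 ?_
        rw [hlo j _ qj, hhi j _ qj]
        constructor <;> linarith
      · rw [Function.update_of_ne hi']
        exact (hoff x hx.1 j qj i hi').1
  · -- first free piece
    obtain ⟨j', u, v, ψ, qj, q1, q2, q3, q4, q5, r1, r2, r3, r4, r5, r6, -⟩ := hs x ⟨hx, j, hj⟩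
    have : j' = j := huniq x hx j' j qj hj
    subst this
    have h1 := q5 (s2 x) ⟨by linarith, by linarith⟩ (s1 x) ⟨by linarith, by linarith⟩
    rw [r6, abs_of_pos (sub_pos.2 r2)] at h1
    obtain ⟨h2, h3⟩ := hom j' _ qj
    have hcj := hc0 j' ⟨_, qj⟩
    have h4 := mul_le_mul_of_nonneg_left h1 h2
    have h5 := mul_le_mul_of_nonneg_right h3 (mul_nonneg hba.le (sub_pos.2 r2).le)
    have h6 : c j' * om j' (h x j') ≤ c j' * (La * ‖b - a‖ * (s2 x - s1 x)) := by linarith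
    exact le_of_mul_le_mul_left h6 hcj
  · -- second free piece
    obtain ⟨j', u, v, ψ, qj, q1, q2, q3, q4, q5, r1, r2, r3, r4, r5, -, r7, -⟩ :=
      hs x ⟨hx, j, hj⟩
    have : j' = j := huniq x hx j' j qj hj
    subst this
    have h1 := q5 (s4 x) ⟨by linarith, by linarith⟩ (s3 x) ⟨by linarith, by linarith⟩
    rw [r7, abs_of_pos (sub_pos.2 r4)] at h1
    obtain ⟨h2, h3⟩ := hom j' _ qj
    have hcj := hc0 j' ⟨_, qj⟩
    have h4 := mul_le_mul_of_nonneg_left h1 h2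
    have h5 := mul_le_mul_of_nonneg_right h3 (mul_nonneg hba.le (sub_pos.2 r4).le)
    have h6 : c j' * om j' (h x j') ≤ c j' * (La * ‖b - a‖ * (s4 x - s3 x)) := by linarith
    exact le_of_mul_le_mul_left h6 hcj
  · -- the Lipschitz bound
    obtain ⟨j', u, v, ψ, qj, q1, q2, q3, q4, q5, r1, r2, r3, r4, r5, -⟩ := hs x ⟨hx, j, hj⟩
    have : j' = j := huniq x hx j' j qj hj
    subst this
    have m1 : s ∈ Icc u v := ⟨by linarith [hs'.1], by linarith [hs'.2]⟩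
    have m2 : s' ∈ Icc u v := ⟨by linarith [hs''.1], by linarith [hs''.2]⟩
    rw [q3 s m1, q3 s' m2, Function.update_self, Function.update_self]
    have h1 := q5 s m1 s' m2
    obtain ⟨h2, h3⟩ := hom j' _ qj
    have hcj := hc0 j' ⟨_, qj⟩
    have h4 := mul_le_mul_of_nonneg_left h1 h2
    have hnn : 0 ≤ ‖b - a‖ * |s - s'| := mul_nonneg hba.le (abs_nonneg _)
    have h5 := mul_le_mul_of_nonneg_right h3 hnn
    have e : hi j' (h x j') - lo j' (h x j') = 2 * c j' := by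
      rw [hhi j' _ qj, hlo j' _ qj]; ring
    rw [e]
    have h6 : 0 ≤ om j' (h x j') * |ψ s - ψ s'| := mul_nonneg h2 (abs_nonneg _)
    have h7 : om j' (h x j') * |ψ s - ψ s'| ≤ c j' * La * (‖b - a‖ * |s - s'|) := by linarith
    have h8 : 0 ≤ c j' * La * (‖b - a‖ * |s - s'|) := h6.trans h7
    linarith

end P073.H155
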