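import Vale.Agent.P073.H880.RP0
import Vale.Agent.P073.H196.PEdgeP
import Vale.Agent.P073.H236.GOut3
import Vale.Agent.P073.H155.Shared

/-!
# P073, H155: **[GE-SH3]** the edges between a peeled face and a given face, Round P of `K3C`
-/

open Set Metric Topology Filter

set_option autoImplicit false

namespace P073.H155

open _root_.P073 _root_.P073.Net _root_.P073.PA691 _root_.P073.H236 _root_.P073.H579
open _root_.P073.H345 _root_.P073.H880 _root_.P073.H880.RP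
open Vale.Agent.P073.St (V)
open Vale.Agent.P073.H471 Vale.Agent.P073.H267
open Vale.Agent.P073.H73 (Mesh)
open Vale.Agent.P073.H193 (Edges)
open _root_.P073.H196 (th MvInv VertAt pos_th th_off ins1_qm_th th_flat vertAt_of_vpiece vertAt_mono
  exists_edgeNum_strip)

variable {Ω Λ : Set V} {v : V} {K : BoxCx Λ v} {S : Rad K} {W : Wid K S} {B : Boxes W}
  {G : Geo B} {L : PLev G} {M : Mesh Ω} {E : Edges M} {h h1 h2 : ConHomeo Ω Λ}

/-- the map of one variable of `Θ` in the direction `tg s β`: from the thick flats of `L` to the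
thin flats -/
noncomputable def thB (L : PLev G) (c : K.S → Bool → ℝ) (s : K.S) (β : Bool) : ℝ → ℝ :=
  th (L.lvs s β).L (L.c s β) (c s β / L.c s β)

/-- the maps of one variable of `Θ` -/
noncomputable def thP (L : PLev G) (c : K.S → Bool → ℝ) (s : K.S) (j : Fin 3) : ℝ → ℝ :=
  if j = K.nrm s then id else thB L c s (bt s j)

theorem thP_nrm (L : PLev G) (c : K.S → Bool → ℝ) (s : K.S) : thP L c s (K.nrm s) = id := if_pos rfl

theorem thP_tg (L : PLev G) (c : K.S → Bool → ℝ) (s : K.S) (β : Bool) :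
    thP L c s (tg s β) = th (L.lvs s β).L (L.c s β) (c s β / L.c s β) := by
  unfold thP
  rw [if_neg (tg_ne s β), bt_tg]
  rfl

section strip

variable {c : K.S → Bool → ℝ} {h0 : ∀ s β, 0 < c s β} {hc1 : ∀ s β, c s β ≤ L.c s β}

/-- **the numbers of an edge, thin flats**: `f = Θ ∘ h`, the edge is vertical in the thick cells -/
theorem edgeNum_thin {s : K.S} {a b : V} (hab : a ≠ b) {h f : V → V}
    (hinj : InjOn h (segment ℝ a b))
    (hf : ∀ y ∈ segment ℝ a b, ∀ j, f y j = thP L c s j (h y j)) {Lt La : ℝ}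
    (hV : ∀ x ∈ segment ℝ a b, ∀ j, h x j ∈ L.lv s j →
      ∃ t₁ t₄, VertAt a b h (L.lv s) (cP L s) Lt x j t₁ t₄)
    (hoff : ∀ x ∈ segment ℝ a b, ∀ j, h x j ∈ L.lv s j → ∀ j', j' ≠ j → ∀ t ∈ L.lv s j',
      2 * cP L s j' ≤ |h x j' - t|) (hLa0 : 0 ≤ La)
    (hLa : ∀ β t, L.omP s (tg s β) t * Lt ≤ La * ‖b - a‖ * L.c s β) :
    ∃ s1 s2 s3 s4 : V → ℝ, EdgeNum a b h ((thinL L c h0 hc1).kP s) ((thinL L c h0 hc1).lv s)
      ((thinL L c h0 hc1).loP s) ((thinL L c h0 hc1).hiP s) ((thinL L c h0 hc1).omP s) La f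
      s1 s2 s3 s4 := by
  have hlv : (thinL L c h0 hc1).lv s = L.lv s := funext fun j => thinL_lv s j
  have hlam : ∀ β, 0 < c s β / L.c s β ∧ c s β / L.c s β ≤ 1 ∧ c s β / L.c s β * L.c s β = c s β :=
    fun β => ⟨div_pos (h0 s β) (L.lvs s β).c0, (div_le_one (L.lvs s β).c0).2 (hc1 s β),
      div_mul_cancel₀ _ (L.lvs s β).c0.ne'⟩
  have hkt : ∀ β t, (thinL L c h0 hc1).kP s (tg s β) t = qm (L.lvs s β).L (c s β) t := by
    intro β t
    rw [PLev.kP_tg]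
    exact congrFun (kQ_self ((thinL L c h0 hc1).bx β s)) t
  have hI' : ∀ j, Ins1 (fun t => (thinL L c h0 hc1).kP s j (thP L c s j t)) (L.lv s j : Set ℝ)
      (fun β => β - cP L s j) (fun β => β + cP L s j) := by
    intro j
    by_cases hj : j = K.nrm s
    · subst hj
      rw [PLev.lv_nrm, thP_nrm, PLev.kP_nrm]
      exact ins1_id _ _
    · rw [← tg_bt s hj]
      set β := bt s j
      obtain ⟨a1, a2, a3⟩ := hlam β
      have h5 := ins1_qm_th (L.lvs s β).c0 (L.lvs s β).sepd a1 a2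
      rw [a3] at h5
      have e1 : (fun t => (thinL L c h0 hc1).kP s (tg s β) (thP L c s (tg s β) t)) =
          fun t => qm (L.lvs s β).L (c s β) (th (L.lvs s β).L (L.c s β) (c s β / L.c s β) t) := by
        funext t
        rw [hkt, thP_tg]
      rw [e1, PLev.lv_tg]
      have e2 : cP L s (tg s β) = L.c s β := by unfold cP; rw [bt_tg]
      rw [e2]
      exact h5
  rw [hlv]
  refine exists_edgeNum_strip (k' := fun j t => (thinL L c h0 hc1).kP s j (thP L c s j t))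
    (c := cP L s) (Λ := Lt) hab hinj ?_ hI' (fun j => cP_pos L s j) ?_ hV ?_ ?_ ?_ ?_ hLa0 ?_
  · intro j
    have := (thinL L c h0 hc1).ins1P s j
    rwa [thinL_lv] at this
  · -- separation
    intro j
    by_cases hj : j = K.nrm s
    · subst hj
      rw [PLev.lv_nrm]
      intro x hx
      exact absurd hx (Finset.notMem_empty x)
    · rw [← tg_bt s hj, PLev.lv_tg]
      show Sepd _ (L.c s (bt s (tg s _)))
      rw [bt_tg]
      exact (L.lvs s _).sepd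
  · -- fixed points
    rintro x ⟨hx, j, hj⟩
    ext j'
    show (thinL L c h0 hc1).kP s j' (thP L c s j' (h x j')) = h x j'
    by_cases hjj : j' = j
    · subst hjj
      refine ((hI' j').flat _ (Finset.mem_coe.2 hj) _).2 ?_
      have := cP_pos L s j'
      constructor <;> linarith
    · by_cases hjn : j' = K.nrm s
      · subst hjn
        rw [PLev.kP_nrm, thP_nrm]; rfl
      · have h5 := hoff x hx j hj j' hjj
        obtain ⟨β, rfl⟩ : ∃ β, j' = tg s β := ⟨_, (tg_bt s hjn).symm⟩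
        rw [PLev.lv_tg] at h5
        have e2 : cP L s (tg s β) = L.c s β := by unfold cP; rw [bt_tg]
        rw [e2] at h5
        rw [thP_tg, th_off (L.lvs s β).c0.le h5, hkt]
        refine qm_off (h0 s β).le fun t ht => ?_
        have := h5 t ht
        have := hc1 s β
        linarith
  · intro y hy j
    rw [hf y hy j]
  · -- positions
    intro y hy j t ht
    rw [hf y hy j]
    have hj : j ≠ K.nrm s := (PLev.mem_lv.1 ht).1
    obtain ⟨β, rfl⟩ : ∃ β, j = tg s β := ⟨_, (tg_bt s hj).symm⟩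
    rw [PLev.lv_tg] at ht
    obtain ⟨a1, a2, a3⟩ := hlam β
    have h5 := pos_th (L.lvs s β).c0 (L.lvs s β).sepd a1 a2 ht (h y (tg s β))
    rw [a3] at h5
    have e2 : cP L s (tg s β) = L.c s β := by unfold cP; rw [bt_tg]
    have e3 : (thinL L c h0 hc1).loP s (tg s β) = fun b => b - c s β := by
      unfold PLev.loP; rw [bt_tg]; rfl
    have e4 : (thinL L c h0 hc1).hiP s (tg s β) = fun b => b + c s β := by
      unfold PLev.hiP; rw [bt_tg]; rfl
    rw [e2, e3, e4, thP_tg]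
    exact h5
  · intro j t _
    exact ((thinL L c h0 hc1).omP_pos s j t).le
  · intro j t ht
    have hj : j ≠ K.nrm s := (PLev.mem_lv.1 ht).1
    obtain ⟨β, rfl⟩ : ∃ β, j = tg s β := ⟨_, (tg_bt s hj).symm⟩
    have e2 : cP L s (tg s β) = L.c s β := by unfold cP; rw [bt_tg]
    have e3 : (thinL L c h0 hc1).omP s (tg s β) t = L.omP s (tg s β) t := by
      rw [PLev.omP_tg, PLev.omP_tg]; rfl
    rw [e2, e3]
    exact hLa β t

end strip

/-! ### change of the map `h` -/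

theorem _root_.P073.H579.EdgeNum.congr_h {m : ℕ} {a b : V} {h h' : V → Fin m → ℝ}
    {k : Fin m → ℝ → ℝ} {Lv : Fin m → Finset ℝ} {lo hi om : Fin m → ℝ → ℝ} {La : ℝ}
    {f : V → Fin m → ℝ} {s1 s2 s3 s4 : V → ℝ} (H : EdgeNum a b h k Lv lo hi om La f s1 s2 s3 s4)
    (heq : ∀ x ∈ segment ℝ a b, h' x = h x) : EdgeNum a b h' k Lv lo hi om La f s1 s2 s3 s4 := by
  have hcr : ∀ x, CrsPt a b h' Lv x → CrsPt a b h Lv x := by
    rintro x ⟨hx, j, hj⟩
    exact ⟨hx, j, by rw [← heq x hx]; exact hj⟩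
  refine ⟨fun x hx => H.a1 x (hcr x hx), fun x hx => H.a2 x (hcr x hx),
    fun x hx => H.a3 x (hcr x hx), fun x hx => H.a4 x (hcr x hx), fun x hx => H.a5 x (hcr x hx),
    fun x y hx hy => H.dis x y (hcr x hx) (hcr y hy), fun x hx s hs => ?_,
    fun x hx j hj => ?_, fun x hx j hj => ?_, fun x hx j hj => ?_⟩
  · rw [heq x hx.1]; exact H.fib x (hcr x hx) s hs
  · rw [heq x hx] at hj ⊢; exact H.g1 x hx j hj
  · rw [heq x hx] at hj ⊢; exact H.g2 x hx j hj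
  · rw [heq x hx] at hj ⊢; exact H.lip x hx j hj

/-! ### vertices -/

/-- a point whose singleton is invariant is off the cells -/
theorem off_of_inv {S₀ : Set K.S} {s : K.S} (hs : s ∈ S₀) {y : V} (hy : y ∈ PK G s)
    (hA : Inv L S₀ {y}) {j : Fin 3} {t : ℝ} (ht : t ∈ L.lv s j) : 2 * cP L s j < |y j - t| := by
  obtain ⟨hj, n, hn, rfl⟩ := PLev.mem_lv.1 ht
  obtain ⟨β, rfl⟩ : ∃ β, j = tg s β := ⟨_, (tg_bt s hj).symm⟩
  rw [bt_tg] at hn
  have e2 : cP L s (tg s β) = L.c s β := by unfold cP; rw [bt_tg]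
  rw [e2, bt_tg]
  have hc := (L.lvs s β).c0
  by_contra hcon
  push Not at hcon
  obtain ⟨a1, a2⟩ := abs_le.1 hcon
  have hm : y (tg s β) ∈ Icc (L.a s β n - 2 * L.c s β) (L.a s β n + 2 * L.c s β) :=
    ⟨by linarith, by linarith⟩
  have key : ∀ r ∈ Icc (L.a s β n - 2 * L.c s β) (L.a s β n + 2 * L.c s β), r = y (tg s β) := by
    intro r hr
    have h5 := (hA s hs β n hn y hy hm r hr).2 rfl
    have h6 := congrFun (mem_singleton_iff.1 h5) (tg s β)
    rwa [Function.update_self] at h6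
  have k1 := key (L.a s β n - 2 * L.c s β) ⟨by linarith, by linarith⟩
  have k2 := key (L.a s β n + 2 * L.c s β) ⟨by linarith, by linarith⟩
  linarith

/-! ### the two cases -/

/-- **(BAND)** for the boxes in `G₀` and the squares in `S₀` -/
def Band3 (L : PLev G) (S₀ : Set K.S) {G₀ : Set (TBx K)} (sl : G₀ → Finset (ℝ × ℝ)) : Prop :=
  ∀ s ∈ S₀, ∀ β, ∀ n < L.N s β, ∀ b : G₀, RelT s (tg s β) b.1 → ∀ p ∈ sl b,
    p.2 < L.a s β n - 2 * L.c s β ∨ L.a s β n + 2 * L.c s β < p.1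

section cases

variable {c : K.S → Bool → ℝ} {h0 : ∀ s β, 0 < c s β} {hc1 : ∀ s β, c s β ≤ L.c s β}

/-- an edge off the plate `PB 1 s`, in `PB (3 / 4) s`, is vertical over the flats -/
theorem edgeNum_df {ω : TBx K → ℝ} {m : ℝ} {S₀ : Set K.S} {G₀ : Set (TBx K)} {Act₀ : Set M.κ}
    {O : M.κ → V} {LaT : E.ε → ℝ} {Lf : M.κ → E.ε → ℝ} {Lam1 : M.κ → ℝ}
    {sl : G₀ → Finset (ℝ × ℝ)} (HT : T3OutG G M E h h1 ω m G₀ Act₀ O LaT Lf Lam1 sl)
    (hband : Band3 L S₀ sl) {s : K.S} (hs : s ∈ S₀)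
    (hG₀ : ∀ l b, RelT s l b → b ∈ G₀) {e : E.ε} (he : ∃ k ∈ Act₀, E.seg e ⊆ M.F k)
    (hnear : ∀ x ∈ E.seg e, h1.toFun x ∈ G.PB (3 / 4) s ∧
      |h1.toFun x (K.nrm s) - K.slo s (K.nrm s)| ≤ 1 / 2 * B.τ s)
    (hno : ∀ x ∈ E.seg e, h1.toFun x ∉ G.PB 1 s) {f : V → V}
    (hf : ∀ y ∈ E.seg e, ∀ j, f y j = thP L c s j (h1.toFun y j)) {La : ℝ} (hLa0 : 0 ≤ La)
    (hLa : ∀ β t, L.omP s (tg s β) t * LaT e ≤ L.c s β * La) :
    ∃ s1 s2 s3 s4 : V → ℝ, EdgeNum (E.a e) (E.b e) h1.toFun ((thinL L c h0 hc1).kP s)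
      ((thinL L c h0 hc1).lv s) ((thinL L c h0 hc1).loP s) ((thinL L c h0 hc1).hiP s)
      ((thinL L c h0 hc1).omP s) La f s1 s2 s3 s4 := by
  obtain ⟨k₀, hk₀, hek₀⟩ := he
  have hMΩ : M.F k₀ ⊆ Ω := Vale.Agent.P073.H193.mesh_sub M k₀
  have hinj : InjOn h1.toFun (segment ℝ (E.a e) (E.b e)) := h1.injOn.mono (hek₀.trans hMΩ)
  have hba : 0 < ‖E.b e - E.a e‖ := norm_pos_iff.2 (sub_ne_zero.2 (E.ne e).symm)
  -- position of the crossing points
  have hpos : ∀ x ∈ segment ℝ (E.a e) (E.b e), ∀ j, h1.toFun x j ∈ L.lv s j →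
      ∃ β, j = tg s β ∧ (∃ n < L.N s β, L.a s β n = h1.toFun x j) ∧
        (∃ β', G.Wall s (tg s (!β)) (tg s β) β' (h1.toFun x)) ∧
        (h1.toFun x (tg s (!β)) ≤ K.slo s (tg s (!β)) + G.a s ∨
          K.shi s (tg s (!β)) - G.a s ≤ h1.toFun x (tg s (!β))) := by
    intro x hx j hj
    obtain ⟨hjn, n, hn, hna⟩ := PLev.mem_lv.1 hj
    have hj' : tg s (bt s j) = j := tg_bt s hjn
    have hw := L.win s (bt s j) hn
    have hc := (L.lvs s (bt s j)).c0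
    rw [hna, hj'] at hw
    have h5 := wall_of_level (β := bt s j) (hnear x hx).1 (hno x hx) (hnear x hx).2
      (by rw [hj']; linarith [hw.1]) (by rw [hj']; linarith [hw.2])
    exact ⟨bt s j, hj'.symm, ⟨n, hn, hna⟩, h5⟩
  -- the other coordinates
  have hoff : ∀ x ∈ segment ℝ (E.a e) (E.b e), ∀ j, h1.toFun x j ∈ L.lv s j → ∀ j', j' ≠ j →
      ∀ t ∈ L.lv s j', 2 * cP L s j' ≤ |h1.toFun x j' - t| := by
    intro x hx j hj j' hne t ht
    obtain ⟨β, rfl, -, -, h4⟩ := hpos x hx j hj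
    obtain ⟨hjn, n, hn, hna⟩ := PLev.mem_lv.1 ht
    have hj' : j' = tg s (!β) := by
      rcases tg_cases s β hjn with h5 | h5
      · exact absurd h5 hne
      · exact h5
    subst hj'
    rw [bt_tg] at hn hna
    have hw := L.win s (!β) hn
    rw [hna] at hw
    show 2 * L.c s (bt s (tg s (!β))) ≤ _
    rw [bt_tg]
    have hc := (L.lvs s (!β)).c0
    rcases h4 with h4 | h4
    · rw [abs_of_nonpos (by linarith [hw.1])]; linarith [hw.1]
    · rw [abs_of_nonneg (by linarith [hw.2])]; linarith [hw.2]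
  refine edgeNum_thin (Lt := LaT e * ‖E.b e - E.a e‖) (E.ne e) hinj hf ?_ hoff hLa0 ?_
  · -- vertical pieces
    intro x hx j hj
    refine vertAt_of_vpiece hinj hx (cP_pos L s j) (fun i hi t ht => ?_) ?_
    · have h5 := hoff x hx j hj i hi t ht
      have h6 := cP_pos L s i
      linarith
    obtain ⟨β, rfl, ⟨n, hn, hna⟩, ⟨β', hW⟩, -⟩ := hpos x hx j hj
    obtain ⟨b, hb, hbr⟩ : ∃ b : TBx K, h1.toFun x ∈ G.TB true b ∧ RelT s (tg s β) b := by
      rcases Geo.wall hW with ⟨e', h3, h4, -, h6⟩ | ⟨H, h3, -, h5, -, h6⟩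
      · exact ⟨.inl e', h6, h3, h4⟩
      · exact ⟨.inr H, h6, h3, h5⟩
    have hax : b.ax = tg s β := hbr.ax
    have hbG : b ∈ G₀ := hG₀ _ b hbr
    have hbd := hband s hs β n hn ⟨b, hbG⟩ hbr
    rw [hna] at hbd
    have hc := (L.lvs s β).c0
    obtain ⟨e1, e2⟩ := lineMap_pr (E.ne e) hx
    have hnos : NoSl (sl ⟨b, hbG⟩) (h1.toFun x b.ax) := by
      intro p hp hpm
      rw [hax] at hpm
      rcases hbd p hp with h3 | h3
      · linarith [hpm.2]
      · linarith [hpm.1]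
    obtain ⟨t1, t2, u, w, ψ, h12, ⟨p, hp, hp1⟩, ⟨p', hp', hp2⟩, -, hu, huw, hw1, hsm, hver, hcont,
      hinj', himg, hlip⟩ := HT.edge e ⟨k₀, hk₀, hek₀⟩ ⟨b, hbG⟩ (pr (E.a e) (E.b e) x) e2
        (by rw [e1]; exact hb) (by rw [e1]; exact hnos)
    rw [e1] at hver
    have hψx : ψ (pr (E.a e) (E.b e) x) = h1.toFun x (tg s β) := by
      have := congrFun (hver _ hsm) b.ax
      rw [e1, Function.update_self] at this
      rw [← this, hax]
    have hmem : h1.toFun x (tg s β) ∈ Icc t1 t2 := by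
      rw [← himg, ← hψx]; exact mem_image_of_mem ψ hsm
    have hle1 := HT.sl_le _ p hp
    have hle2 := HT.sl_le _ p' hp'
    have c1 : t1 ≤ h1.toFun x (tg s β) - 2 * L.c s β := by
      rcases hbd p hp with h3 | h3
      · linarith
      · linarith [hmem.1]
    have c2 : h1.toFun x (tg s β) + 2 * L.c s β ≤ t2 := by
      rcases hbd p' hp' with h3 | h3
      · linarith [hmem.2]
      · linarith
    refine ⟨u, w, ψ, hu, huw, hw1, fun r hr => ?_, hcont, hinj', ?_, hlip⟩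
    · rw [hver r hr, hax]
    · rw [himg]
      show Icc (_ - 2 * L.c s (bt s (tg s β))) (_ + 2 * L.c s (bt s (tg s β))) ⊆ _
      rw [bt_tg]
      exact Icc_subset_Icc c1 c2
  · intro β t
    have h5 := mul_le_mul_of_nonneg_right (hLa β t) hba.le
    linarith

/-- the edges of a protected cell: `h1` is constant in all directions but one -/
def AxOn (f : V → V) (X : Set V) (Lt : ℝ) : Prop :=
  ∃ j : Fin 3, (∀ i, i ≠ j → ∀ x ∈ X, ∀ y ∈ X, f x i = f y i) ∧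
    ∀ x ∈ X, ∀ y ∈ X, |f x j - f y j| ≤ Lt * ‖x - y‖

theorem edgeNum_pf {S₀ : Set K.S} {s : K.S} (hs : s ∈ S₀) {a b : V} (hab : a ≠ b) {h f : V → V}
    (hinj : InjOn h (segment ℝ a b)) {Lt : ℝ} (hax : AxOn h (segment ℝ a b) Lt)
    (ha : h a ∈ PK G s) (hb : h b ∈ PK G s) (hAa : Inv L S₀ {h a}) (hAb : Inv L S₀ {h b})
    (hf : ∀ y ∈ segment ℝ a b, ∀ j, f y j = thP L c s j (h y j)) {La : ℝ} (hLa0 : 0 ≤ La)
    (hLa : ∀ β t, L.omP s (tg s β) t * Lt ≤ L.c s β * La) :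
    ∃ s1 s2 s3 s4 : V → ℝ, EdgeNum a b h ((thinL L c h0 hc1).kP s)
      ((thinL L c h0 hc1).lv s) ((thinL L c h0 hc1).loP s) ((thinL L c h0 hc1).hiP s)
      ((thinL L c h0 hc1).omP s) La f s1 s2 s3 s4 := by
  obtain ⟨j₀, hcst, hlip⟩ := hax
  have hba : 0 < ‖b - a‖ := norm_pos_iff.2 (sub_ne_zero.2 hab.symm)
  have ma : a ∈ segment ℝ a b := left_mem_segment ℝ a b
  have hγ : ∀ r ∈ Icc (0:ℝ) 1, (AffineMap.lineMap a b r : V) ∈ segment ℝ a b := fun r hr => by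
    rw [segment_eq_image_lineMap]; exact ⟨r, hr, rfl⟩
  have hj₀ : ∀ x ∈ segment ℝ a b, ∀ j, h x j ∈ L.lv s j → j = j₀ := by
    intro x hx j hj
    by_contra hne
    have h5 := off_of_inv hs ha hAa hj
    rw [hcst j hne a ma x hx, sub_self, abs_zero] at h5
    linarith [cP_pos L s j]
  have hoff : ∀ x ∈ segment ℝ a b, ∀ i, i ≠ j₀ → ∀ t ∈ L.lv s i, 2 * cP L s i < |h x i - t| := by
    intro x hx i hi t ht
    rw [← hcst i hi a ma x hx]
    exact off_of_inv hs ha hAa ht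
  refine edgeNum_thin (Lt := Lt * ‖b - a‖) hab hinj hf ?_ ?_ hLa0 ?_
  · intro x hx j hj
    have hjj := hj₀ x hx j hj
    subst hjj
    refine vertAt_mono (fun i hi r hr r' hr' => hcst i hi _ (hγ r hr) _ (hγ r' hr'))
      (fun r hr r' hr' => ?_) hinj hab hx (cP_pos L s j) (fun i hi t ht => ?_)
      (off_of_inv hs ha hAa hj) (off_of_inv hs hb hAb hj)
    · refine (hlip _ (hγ r hr) _ (hγ r' hr')).trans ?_
      rw [← dist_eq_norm, dist_lineMap_lineMap, Real.dist_eq, dist_comm a b, dist_eq_norm b a]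
      exact le_of_eq (by ring)
    · have h5 := hoff x hx i hi t ht
      linarith [cP_pos L s i]
  · intro x hx j hj j' hne t ht
    have hjj := hj₀ x hx j hj
    subst hjj
    exact (hoff x hx j' hne t ht).le
  · intro β t
    have h5 := mul_le_mul_of_nonneg_right (hLa β t) hba.le
    linarith

end cases

theorem PB_anti {c c' : ℝ} (hc : c ≤ c') (s : K.S) : G.PB c' s ⊆ G.PB c s := by
  intro y hy
  obtain ⟨h1, h2⟩ := Geo.mem_PB.1 hy
  have hp := Geo.p_pos (G := G) s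
  have h3 : c * G.p s ≤ c' * G.p s := mul_le_mul_of_nonneg_right hc hp.le
  refine Geo.mem_PB.2 ⟨fun j hj => ?_, h2⟩
  have := h1 j hj
  constructor <;> linarith

/-- **[GE-SH3]** -/
theorem ge_shared3 {c : K.S → Bool → ℝ} {h0 : ∀ s β, 0 < c s β} {hc1 : ∀ s β, c s β ≤ L.c s β}
    {D : Dat K M} {ω : TBx K → ℝ} {m : ℝ} {Act₀ : Set M.κ}
    {O : M.κ → V} {LaT : E.ε → ℝ} {Lf : M.κ → E.ε → ℝ} {Lam1 : M.κ → ℝ}
    {sl : D.G₀ → Finset (ℝ × ℝ)} (HT : T3OutG G M E h h1 ω m D.G₀ Act₀ O LaT Lf Lam1 sl)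
    (hDF : D.DF ⊆ Act₀) (hG₀ : ∀ s ∈ D.S₀, ∀ l b, RelT s l b → b ∈ D.G₀)
    (hband : Band3 L D.S₀ sl)
    (hoff : ∀ l ∈ D.WF G h1, EqOn h2.toFun h1.toFun (M.F l))
    (hnear : ∀ s k, D.PkS G h1 s k → ∀ y ∈ M.F k, h1.toFun y ∈ G.PB (15 / 16) s ∧
      h2.toFun y ∈ G.PB (15 / 16) s ∧ |h2.toFun y (K.nrm s) - K.slo s (K.nrm s)| < B.τ s / 2)
    (hvert : ∀ k ∈ D.WF G h1, ∀ x ∈ E.verts, x ∈ M.F k → Inv L D.S₀ {h1.toFun x})
    {Θ : V → V} (hΘ : ∀ s ∈ D.S₀, ∀ y ∈ G.PB (7 / 8) s, ∀ j, Θ y j = thP L c s j (y j))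
    {Le : E.ε → ℝ} (hLe : ∀ e, LaT e ≤ Le e)
    (hPF : ∀ l ∈ D.PF, ∀ e, E.seg e ⊆ M.F l → AxOn h1.toFun (E.seg e) (Le e))
    {s : K.S} {k l : M.κ} (hk : D.PkS G h1 s k) (hl : l ∈ D.WF G h1) {e : E.ε}
    (hek : E.seg e ⊆ M.F k) (hel : E.seg e ⊆ M.F l) {La : ℝ} (hLa0 : 0 ≤ La)
    (hLa : ∀ β t, L.omP s (tg s β) t * Le e ≤ L.c s β * La) :
    ∃ s1 s2 s3 s4 : V → ℝ, EdgeNum (E.a e) (E.b e) h2.toFun ((thinL L c h0 hc1).kP s)
      ((thinL L c h0 hc1).lv s) ((thinL L c h0 hc1).loP s) ((thinL L c h0 hc1).hiP s)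
      ((thinL L c h0 hc1).omP s) La (fun x => Θ (h1.toFun x)) s1 s2 s3 s4 := by
  have hs : s ∈ D.S₀ := hk.1
  have hseg : E.seg e = segment ℝ (E.a e) (E.b e) := rfl
  have hpb : ∀ x ∈ E.seg e, h1.toFun x ∈ G.PB (15 / 16) s := fun x hx => (hnear s k hk x (hek hx)).1
  have heq : ∀ x ∈ E.seg e, h2.toFun x = h1.toFun x := fun x hx => hoff l hl (hel hx)
  have hf : ∀ y ∈ E.seg e, ∀ j, (fun x => Θ (h1.toFun x)) y j = thP L c s j (h1.toFun y j) :=
    fun y hy j => hΘ s hs _ (PB_anti (by norm_num) s (hpb y hy)) j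
  suffices H : ∃ s1 s2 s3 s4 : V → ℝ, EdgeNum (E.a e) (E.b e) h1.toFun ((thinL L c h0 hc1).kP s)
      ((thinL L c h0 hc1).lv s) ((thinL L c h0 hc1).loP s) ((thinL L c h0 hc1).hiP s)
      ((thinL L c h0 hc1).omP s) La (fun x => Θ (h1.toFun x)) s1 s2 s3 s4 by
    obtain ⟨s1, s2, s3, s4, H⟩ := H
    exact ⟨s1, s2, s3, s4, H.congr_h heq⟩
  rcases hl with hl' | hl'
  · have hno : ∀ x ∈ E.seg e, h1.toFun x ∉ G.PB 1 s := fun x hx hxs =>
      hl'.2 ⟨s, hs, hl'.1, x, hel hx, hxs⟩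
    refine edgeNum_df HT hband hs (hG₀ s hs) ⟨l, hDF hl'.1, hel⟩ (fun x hx => ⟨PB_anti
      (by norm_num) s (hpb x hx), ?_⟩) hno hf hLa0 fun β t => ?_
    · have h5 := (hnear s k hk x (hek hx)).2.2
      rw [heq x hx] at h5
      linarith
    · have h5 := mul_le_mul_of_nonneg_left (hLe e) (L.omP_pos s (tg s β) t).le
      exact h5.trans (hLa β t)
  · have hMΩ : M.F k ⊆ Ω := Vale.Agent.P073.H193.mesh_sub M k
    have ma : E.a e ∈ E.seg e := left_mem_segment ℝ _ _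
    have mb : E.b e ∈ E.seg e := right_mem_segment ℝ _ _
    exact edgeNum_pf hs (E.ne e) (h1.injOn.mono (hek.trans hMΩ)) (hPF l hl' e hel)
      (PB_sub_PK (by norm_num) s (hpb _ ma)) (PB_sub_PK (by norm_num) s (hpb _ mb))
      (hvert l (Or.inr hl') _ (Or.inl ⟨e, rfl⟩) (hel ma))
      (hvert l (Or.inr hl') _ (Or.inr ⟨e, rfl⟩) (hel mb)) hf hLa0 hLa

end P073.H155
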