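import Vale.Agent.P073.H155.NumT
import Vale.Agent.P073.H669.PLevA

/-!
# P073, block H155: the numbers of the T-part, before the levels of ROUND P

`exists_numT`: for every edge a number `η` and a bound `sT` of the slivers, for every square a bound
`m` of the numbers of ROUND P and a bound `es` of the slopes of its second staircases, such that the
structure `NumT` holds for all levels, slivers and windows which respect these bounds.
-/

open Set Metric Topology Filter MeasureTheory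

set_option linter.unusedSectionVars false
set_option autoImplicit false

namespace P073.H155

open _root_.P073 _root_.P073.H579 _root_.P073.Net _root_.P073.PA691 _root_.P073.H236
  _root_.P073.H345 _root_.P073.H142 _root_.P073.H919 _root_.P073.H936 _root_.P073.H936.K3
  _root_.P073.H429
open _root_.P073.H880.RP (Sg3 Dat)
open Vale.Agent.P073.St (V)
open Vale.Agent.P073.H73 (Mesh)
open Vale.Agent.P073.H669 (sqE mem_sqE)
open Vale.Agent.P073.H471 Vale.Agent.P073.H267

/-- a positive lower bound of finitely many positive numbers -/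
theorem exists_lb {α : Type*} (F : Finset α) (f : α → ℝ) (hf : ∀ a ∈ F, 0 < f a) :
    ∃ m : ℝ, 0 < m ∧ ∀ a ∈ F, m ≤ f a := by
  classical
  induction F using Finset.induction_on with
  | empty => exact ⟨1, one_pos, fun a ha => absurd ha (Finset.notMem_empty a)⟩
  | insert a F ha ih =>
    obtain ⟨m, hm, h⟩ := ih fun b hb => hf b (Finset.mem_insert_of_mem hb)
    have h1 := hf a (Finset.mem_insert_self a F)
    refine ⟨min m (f a), lt_min hm h1, fun b hb => ?_⟩
    rcases Finset.mem_insert.1 hb with rfl | hb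
    · exact min_le_right _ _
    · exact (min_le_left _ _).trans (h b hb)

variable {Ω Λ : Set V} {v : V} {K : BoxCx Λ v} {S : Rad K} {W : Wid K S} {B : Boxes W} {G : Geo B}

/-- finitely many edges at a square -/
theorem edges_fin (K : BoxCx Λ v) (s : K.S) : {e : K.G | K.edge e ⊆ K.sq s}.Finite := by
  refine (Vale.Agent.P073.H669.lf_fin K.lfG (isCompact_Icc : IsCompact (K.sq s))
    (Vale.Agent.P073.H669.sq_sub s)).subset ?_
  intro e he
  obtain ⟨x, hx, -⟩ := exists_mid K e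
  exact ⟨x, hx, he hx⟩

/-- a positive number for every square, from positive numbers for the edges -/
theorem exists_sq_lb (K : BoxCx Λ v) {G₁ : Set K.G} (f : G₁ → ℝ) (hf : ∀ b, 0 < f b) :
    ∃ m : K.S → ℝ, (∀ s, 0 < m s) ∧ ∀ s, ∀ b : G₁, K.edge b.1 ⊆ K.sq s → m s ≤ f b := by
  classical
  have key : ∀ s : K.S, ∃ m : ℝ, 0 < m ∧ ∀ b : G₁, K.edge b.1 ⊆ K.sq s → m ≤ f b := by
    intro s
    have h1 : {b : G₁ | K.edge b.1 ⊆ K.sq s}.Finite :=
      (edges_fin K s).preimage Subtype.val_injective.injOn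
    obtain ⟨m, hm, h⟩ := exists_lb h1.toFinset f fun b _ => hf b
    exact ⟨m, hm, fun b hb => h b (h1.mem_toFinset.2 hb)⟩
  choose m hm h using key
  exact ⟨m, hm, h⟩

theorem a_pos (G : Geo B) (s : K.S) : 0 < G.a s := by
  have h1 := Geo.p_pos (G := G) s
  have h2 := Geo.p_a (G := G) s
  linarith

/-- **the numbers of the T-part** -/
theorem exists_numT (G : Geo B) (G₁ : Set K.G) {μ : G₁ → ℝ} (μ0 : ∀ b, 0 < μ b)
    (μ1 : ∀ b, μ b ≤ 1) (nT : G₁ → ℕ) :
    ∃ (η sT : G₁ → ℝ) (m es : K.S → ℝ), (∀ b, 0 < η b) ∧ (∀ b, 0 < sT b) ∧ (∀ s, 0 < m s) ∧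
      (∀ s, 0 < es s) ∧ (∀ b : G₁, ∀ s, K.edge b.1 ⊆ K.sq s → m s ≤ η b) ∧
      (∀ b : G₁, sT b ≤ μ b / 160 * (ebe W b.1 - eal W b.1)) ∧
      (∀ b : G₁, sT b ≤ G.be (K.a b.1)) ∧ (∀ b : G₁, sT b ≤ G.be (K.b b.1)) ∧
    ∀ {Ω : Set V} {M : Mesh Ω} {D : Dat K M} {L : PLev G} {F Fσ : Bool → BFam 3 D.S₀ Λ}
      {ς : Bool → D.S₀ → ℝ} {Tσ : Bool → ConHomeo Λ Λ} {ω : TBx K → ℝ},
      Sg3 L D.S₀ Fσ ς Tσ →
      (∀ s : D.S₀, ∀ β, stp (L.N s.1 β) (K.slo s.1 (tg s.1 β) + G.a s.1)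
        (K.shi s.1 (tg s.1 β) - G.a s.1) ≤ m s.1) →
      (∀ s : D.S₀, ∀ β, L.c s.1 β ≤ m s.1) →
      (∀ s : D.S₀, ∀ β, ς β s ≤ es s.1) →
      ∀ (b : G₁) {sl₀ X : Finset (ℝ × ℝ)} {σ τ : ℝ}, SlB G b.1 (5 * σ) sl₀ →
        σ ≤ sT b → τ ≤ μ b / 32 * (ebe W b.1 - eal W b.1) → sl₀.card ≤ nT b →
        (∀ p ∈ X, p.1 ≤ p.2) → ∑ p ∈ X, (p.2 - p.1) ≤ τ → X.card ≤ 16 →
        (∀ β, ∀ s : D.S₀, K.edge b.1 ⊆ K.sq s.1 → tg s.1 β = K.dir b.1 →
          ∀ t, (∀ p ∈ X, t ∉ Icc p.1 p.2) → |(F β).σ s t - t| ≤ m s.1) →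
        NumT L F Fσ ς ω b.1 sl₀ X (μ b) σ τ (η b) (η b) (η b) (6 * η b) (12 * η b) := by
  have hl : ∀ b : G₁, 0 < ebe W b.1 - eal W b.1 := fun b => by
    have := eal_lt_ebe W b.1
    linarith
  have hT : ∀ b : G₁, 0 < μ b / 160 * (ebe W b.1 - eal W b.1) := fun b =>
    mul_pos (by linarith [μ0 b]) (hl b)
  -- the numbers at the edges
  have h1 : ∀ b : G₁, ∃ η : ℝ, 0 < η ∧ 12 * η ≤ G.be (K.a b.1) ∧ 12 * η ≤ G.be (K.b b.1) ∧
      2 * η ≤ B.T b.1 ∧ (∀ s, K.edge b.1 ⊆ K.sq s → η ≤ 31 * G.a s) ∧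
      24 * η * (nT b + 16) ≤ μ b / 16 * (ebe W b.1 - eal W b.1) := by
    intro b
    obtain ⟨a₀, ha₀, ha⟩ := exists_lb (sqE b.1) (fun s => 31 * G.a s) fun s _ => by
      have := a_pos G s
      linarith
    have k1 := G.be_pos (K.a b.1)
    have k2 := G.be_pos (K.b b.1)
    have k3 := B.T_pos b.1
    have k4 := hT b
    have k5 : (0:ℝ) < 24 * (nT b + 16) := by positivity
    have k6 : 0 < μ b / 16 * (ebe W b.1 - eal W b.1) := mul_pos (by linarith [μ0 b]) (hl b)
    refine ⟨min (G.be (K.a b.1) / 12) (min (G.be (K.b b.1) / 12) (min (B.T b.1 / 2) (min a₀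
      (μ b / 16 * (ebe W b.1 - eal W b.1) / (24 * (nT b + 16)))))), ?_, ?_, ?_, ?_, ?_, ?_⟩
    · exact lt_min (by linarith) (lt_min (by linarith) (lt_min (by linarith) (lt_min ha₀
        (div_pos k6 k5))))
    · have := min_le_left (G.be (K.a b.1) / 12) (min (G.be (K.b b.1) / 12) (min (B.T b.1 / 2)
        (min a₀ (μ b / 16 * (ebe W b.1 - eal W b.1) / (24 * (nT b + 16))))))
      linarith
    · have := (min_le_right (G.be (K.a b.1) / 12) (min (G.be (K.b b.1) / 12) (min (B.T b.1 / 2)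
        (min a₀ (μ b / 16 * (ebe W b.1 - eal W b.1) / (24 * (nT b + 16))))))).trans
        (min_le_left _ _)
      linarith
    · have := ((min_le_right (G.be (K.a b.1) / 12) (min (G.be (K.b b.1) / 12) (min (B.T b.1 / 2)
        (min a₀ (μ b / 16 * (ebe W b.1 - eal W b.1) / (24 * (nT b + 16))))))).trans
        (min_le_right _ _)).trans (min_le_left _ _)
      linarith
    · intro s hs
      refine le_trans ?_ (ha s (mem_sqE.2 hs))
      exact (((min_le_right _ _).trans (min_le_right _ _)).trans (min_le_right _ _)).trans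
        (min_le_left _ _)
    · have h6 : min (G.be (K.a b.1) / 12) (min (G.be (K.b b.1) / 12) (min (B.T b.1 / 2) (min a₀
          (μ b / 16 * (ebe W b.1 - eal W b.1) / (24 * (nT b + 16)))))) ≤
          μ b / 16 * (ebe W b.1 - eal W b.1) / (24 * (nT b + 16)) :=
        (((min_le_right _ _).trans (min_le_right _ _)).trans (min_le_right _ _)).trans
          (min_le_right _ _)
      rw [le_div_iff₀ k5] at h6
      linarith
  choose η η0 ha hb hTe h31 hbud using h1
  obtain ⟨m, m0, hm⟩ := exists_sq_lb K η η0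
  obtain ⟨n₁, n0, hn⟩ := exists_sq_lb K (fun b : G₁ => μ b * (ebe W b.1 - eal W b.1) / 40)
    fun b => div_pos (mul_pos (μ0 b) (hl b)) (by norm_num)
  -- the slopes
  have hlen : ∀ (s : K.S) (β : Bool), 0 < K.shi s (tg s β) - K.slo s (tg s β) := fun s β => by
    have := K.s_lt s (tg s β) (tg_ne s β)
    linarith
  have hd0 : ∀ s : K.S, 0 < (K.shi s (tg s false) - K.slo s (tg s false)) +
      (K.shi s (tg s true) - K.slo s (tg s true)) := fun s => add_pos (hlen s false) (hlen s true)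
  refine ⟨η, fun b => min (μ b / 160 * (ebe W b.1 - eal W b.1)) (min (G.be (K.a b.1))
    (G.be (K.b b.1))), m, fun s => n₁ s /
    ((K.shi s (tg s false) - K.slo s (tg s false)) + (K.shi s (tg s true) - K.slo s (tg s true))),
    η0, fun b => lt_min (hT b) (lt_min (G.be_pos _) (G.be_pos _)), m0,
    fun s => div_pos (n0 s) (hd0 s), fun b s hs => hm s b hs, fun b => min_le_left _ _,
    fun b => (min_le_right _ _).trans (min_le_left _ _),
    fun b => (min_le_right _ _).trans (min_le_right _ _), ?_⟩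
  intro Ω M D L F Fσ ς Tσ ω P hst hc hς b sl₀ X σ τ sIn hσ' hτ' hnT Xle Xs Xc hd
  have hστ : 5 * σ + τ ≤ 2 * (μ b / 32 * (ebe W b.1 - eal W b.1)) := by
    have := hσ'.trans (min_le_left _ _)
    linarith
  refine numT_of P (η0 b).le (fun β s hes => (hst s β).trans (hm s.1 b hes))
    (fun β s hes => (hc s β).trans (hm s.1 b hes))
    (fun β s hes htg t ht => (hd β s hes htg t ht).trans (hm s.1 b hes)) (ha b) (hb b) (hTe b)
    (fun s _ hes => h31 b s hes) sIn Xle Xs (μ0 b) (μ1 b) ?_ fun β s hes htg => ?_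
  · have h2 : (sl₀.card : ℝ) + X.card ≤ nT b + 16 := by
      have e1 : (sl₀.card : ℝ) ≤ nT b := by exact_mod_cast hnT
      have e2 : (X.card : ℝ) ≤ 16 := by exact_mod_cast Xc
      linarith
    have h3 := mul_le_mul_of_nonneg_left h2 (by linarith [η0 b] : 0 ≤ 24 * η b)
    have h4 := hbud b
    linarith
  · have h2 : ((sqE b.1).card : ℝ) ≤ 4 := by exact_mod_cast sqE_card_le b.1
    have h3 := hς s β
    rw [le_div_iff₀ (hd0 s.1)] at h3
    have h4 := (P.isS β).s0 s
    have h5 : ς β s * (K.shi s.1 (tg s.1 β) - K.slo s.1 (tg s.1 β)) ≤ n₁ s.1 := by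
      refine le_trans (mul_le_mul_of_nonneg_left ?_ h4.le) h3
      cases β
      · linarith [hlen s.1 true]
      · linarith [hlen s.1 false]
    have h6 := hn s.1 b hes
    have h7 : 0 ≤ ς β s * (K.shi s.1 (tg s.1 β) - K.slo s.1 (tg s.1 β)) :=
      mul_nonneg h4.le (hlen s.1 β).le
    calc ς β s * (K.shi s.1 (tg s.1 β) - K.slo s.1 (tg s.1 β)) * (8 * ((sqE b.1).card + 1))
        ≤ ς β s * (K.shi s.1 (tg s.1 β) - K.slo s.1 (tg s.1 β)) * 40 :=
          mul_le_mul_of_nonneg_left (by linarith) h7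
      _ ≤ μ b * (ebe W b.1 - eal W b.1) := by linarith

end P073.H155
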