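import Vale.Agent.P073.H155.K3S5
import Vale.Agent.P073.H155.NumT2

/-!
# P073, block H155: the numbers of the T-part over the stages `S1` .. `S4`, with windows

`exists_numX`: bounds `m` (steps, flats, displacement of ROUND P off the windows), `sT` (slivers of
ROUND T), `es` (tolerance of the second staircases of ROUND P) such that the stage `S5` exists.
`S1.slB`: the slivers of ROUND T at an edge.
-/

open Set Metric Topology Filter MeasureTheory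

set_option linter.unusedSectionVars false
set_option autoImplicit false

namespace Vale.Agent.P073.H267.K3

open _root_.P073 _root_.P073.Net _root_.P073.PA691 _root_.P073.H236 _root_.P073.H579
open _root_.P073.H936 _root_.P073.H936.K3
open _root_.P073.H142
open _root_.P073.H345 (PK tg PLev)
open _root_.P073.H880.RP
open _root_.P073.H155 (PreT PsvT NumT TBand exists_tpart cube_dat slT preT_of exists_numT a_pos SlB
  exists_sq_lb)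
open _root_.P073.H919 (HkG HkGF HkGO ZbP sfam HB PI)
open _root_.P073.H429
open Vale.Agent.P073.St (V)
open Vale.Agent.P073.H471 Vale.Agent.P073.H267
open Vale.Agent.P073.H73 (Mesh)
open Vale.Agent.P073.H193 (Edges Cyc edges)
open Vale.Agent.P073.H926
open Vale.Agent.P073.H238.K3
open Vale.Agent.P073.H341 (HtOk ROutZ vFam)
open Vale.Agent.P073.H687 (SlG slG_of)

variable {c₀ n δ : ℝ} {j : ℕ} {Ω Λ : Set V} {v w : V} {ρ : V → ℝ} {M : Mesh Ω} {h : ConHomeo Ω Λ}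
  {J₀ J : Set (ℕ × (Fin 3 → ℤ))} {P Z : Set M.ι} {K : BoxCx Λ w}

/-- `ω` is small against the distance of the boxes from the vertices -/
theorem ω3T_be (D : KIn3 c₀ n j δ v w ρ M h J₀ J P Z) (C : Cells ρ w K) (e : K.G) :
    65536 * ω3T δ C (.inl e) ≤ (D.G C).be (K.a e) ∧
      65536 * ω3T δ C (.inl e) ≤ (D.G C).be (K.b e) := by
  have h1 := D.ω3T_oT C (.inl e)
  have h2 := (D.G C).oG_uT e
  have h3 := (D.G C).uT_lam e
  have h4 := (D.G C).lam_a e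
  have h5 := (D.G C).lam_b e
  have h6 := D.ω3T_pos C (.inl e)
  change 16777216 * ω3T δ C (.inl e) ≤ (D.G C).oG e at h1
  constructor <;> linarith

/-- **the slivers of ROUND T at an edge** -/
theorem S1.slB {D : KIn3 c₀ n j δ v w ρ M h J₀ J P Z} {C : Cells ρ w K} {C₀ μT : ℝ}
    (X : S1 D C C₀ μT) (b : pG C J₀) : SlB (D.G C) b.1
      (5 * X.σ ⟨.inl b.1, inl_mem_pB.2 b.2⟩) (X.sl ⟨.inl b.1, inl_mem_pB.2 b.2⟩) := by
  obtain ⟨h1, h2⟩ := ω3T_be D C b.1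
  have h3 := D.ω3T_pos C (.inl b.1)
  have h4 : SlG (D.G C) (31 * ω3T δ C (.inl b.1)) (.inl b.1)
      (X.σ ⟨.inl b.1, inl_mem_pB.2 b.2⟩) (X.sl ⟨.inl b.1, inl_mem_pB.2 b.2⟩) :=
    slG_of (X.slIn ⟨.inl b.1, inl_mem_pB.2 b.2⟩) le_rfl
  have h5 : 0 ≤ X.σ ⟨.inl b.1, inl_mem_pB.2 b.2⟩ := by
    obtain ⟨inner, k1, k2, -⟩ := h4
    exact (Finset.sum_nonneg fun p hp => sub_nonneg.2 (k1 p hp)).trans k2
  exact ⟨31 * ω3T δ C (.inl b.1), by linarith, by linarith,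
    h4.mono le_rfl (by linarith) (Finset.Subset.refl _)⟩

/-- **[NUM-S]** the numbers of the T-part, and the stage `S5`; `Xw` are windows where the
displacement of ROUND P may be large -/
theorem exists_numX (D : KIn3 c₀ n j δ v w ρ M h J₀ J P Z) (C : Cells ρ w K)
    {μ : pG C J₀ → ℝ} (μ0 : ∀ b, 0 < μ b) (μ1 : ∀ b, μ b ≤ 1) (nT : pB C J₀ → ℕ) :
    ∃ (η : pG C J₀ → ℝ) (sT : pB C J₀ → ℝ) (m es : K.S → ℝ), (∀ b, 0 < η b) ∧ (∀ b, 0 < sT b) ∧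
      (∀ s, 0 < m s) ∧ (∀ s, 0 < es s) ∧ (∀ b : pG C J₀, ∀ s, K.edge b.1 ⊆ K.sq s → m s ≤ η b) ∧
      (∀ s, m s ≤ (D.G C).a s) ∧
      (∀ s, 2 * m s ≤ (D.G C).om (K.sm s)) ∧ (∀ s, 2 * m s ≤ (D.G C).om (K.sp s)) ∧
      (∀ b : pG C J₀, sT ⟨.inl b.1, inl_mem_pB.2 b.2⟩ ≤
        μ b / 160 * (ebe (D.W C) b.1 - eal (D.W C) b.1)) ∧
    ∀ {C₀ μT : ℝ} {X : S1 D C C₀ μT} {Y₂ : S2 X} {Ys : Set M.κ} {sc : Sharp} {Y₃ : S3 Y₂ Ys sc}
      (Y₄ : S4 Y₃), (∀ b, X.σ b ≤ sT b) → (∀ b, X.nT b ≤ nT b) →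
      (∀ s β, stp (Y₂.L.N s β) (K.slo s (tg s β) + (D.G C).a s)
        (K.shi s (tg s β) - (D.G C).a s) ≤ m s) → (∀ s β, Y₂.L.c s β ≤ m s) →
      (∀ (s : (D.dat C).S₀) β q, (q = K.sm s.1 ∨ q = K.sp s.1) →
        (Y₃.F β).D s ≤ (D.G C).om q) →
      (∀ s : (D.dat C).S₀, Y₄.ε s ≤ es s.1) →
      ∀ {Xw : pG C J₀ → Finset (ℝ × ℝ)}, (∀ b, ∀ p ∈ Xw b, p.1 ≤ p.2) →
      (∀ b, ∑ p ∈ Xw b, (p.2 - p.1) ≤ μ b / 32 * (ebe (D.W C) b.1 - eal (D.W C) b.1)) →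
      (∀ b, (Xw b).card ≤ 16) →
      (∀ b : pG C J₀, ∀ β, ∀ s : (D.dat C).S₀, K.edge b.1 ⊆ K.sq s.1 → tg s.1 β = K.dir b.1 →
        ∀ t, (∀ p ∈ Xw b, t ∉ Icc p.1 p.2) → |(Y₃.F β).σ s t - t| ≤ m s.1) →
      ∀ {δT : pG C J₀ → ℝ}, (∀ b, 0 < δT b) →
      (∀ b : pG C J₀, NumT Y₃.Lt Y₃.F Y₄.Fσ Y₄.ς (ω3T δ C) b.1
        (X.sl ⟨.inl b.1, inl_mem_pB.2 b.2⟩) (Xw b) (μ b) (X.σ ⟨.inl b.1, inl_mem_pB.2 b.2⟩)
        (μ b / 32 * (ebe (D.W C) b.1 - eal (D.W C) b.1)) (η b) (η b) (η b) (6 * η b) (12 * η b)) ∧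
      ∃ Mn : pG C J₀ → ℕ, (∀ b, 0 < Mn b) ∧
        (∀ b : pG C J₀, (ebe (D.W C) b.1 - eal (D.W C) b.1) / Mn b ≤ δT b) ∧
      ∃ e₀ : pG C J₀ → ℝ, (∀ b, 0 < e₀ b) ∧
      ∀ εT : pG C J₀ → ℝ, (∀ b, 0 < εT b) → (∀ b, εT b ≤ e₀ b) →
      ∀ tol : ConHomeo Ω Λ → (pG C J₀ → ℝ) → pG C J₀ → ℝ, (∀ f k b, 0 < tol f k b) →
      ∃ Y₅ : S5 Y₄, (∀ b, Y₅.μ b = μ b) ∧ (∀ b, (Y₅.Th b).M = Mn b) ∧
        (∀ b, (Y₅.Th b).e = εT b) ∧ Y₅.ε = tol Y₅.h6 Y₅.K₂ ∧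
        ∀ b : pG C J₀, TBand Y₃.Lt Y₄.Fσ Y₄.ς b.1 (X.sl ⟨.inl b.1, inl_mem_pB.2 b.2⟩) (Xw b)
          (6 * η b) (Y₅.Th b) := by
  classical
  obtain ⟨η, sT, m, es, η0, sT0, m0, es0, hmη, hsμ, -, -, key⟩ := exists_numT (D.G C) (pG C J₀) μ0 μ1
    fun b => nT ⟨.inl b.1, inl_mem_pB.2 b.2⟩
  let m' : K.S → ℝ := fun s =>
    min (m s) (min ((D.G C).a s) (min ((D.G C).om (K.sm s) / 2) ((D.G C).om (K.sp s) / 2)))
  have hm1 : ∀ s, m' s ≤ m s := fun s => min_le_left _ _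
  have hm2 : ∀ s, m' s ≤ (D.G C).a s := fun s => (min_le_right _ _).trans (min_le_left _ _)
  have hm3 : ∀ s, 2 * m' s ≤ (D.G C).om (K.sm s) := fun s => by
    have : m' s ≤ (D.G C).om (K.sm s) / 2 :=
      ((min_le_right _ _).trans (min_le_right _ _)).trans (min_le_left _ _)
    linarith
  have hm4 : ∀ s, 2 * m' s ≤ (D.G C).om (K.sp s) := fun s => by
    have : m' s ≤ (D.G C).om (K.sp s) / 2 :=
      ((min_le_right _ _).trans (min_le_right _ _)).trans (min_le_right _ _)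
    linarith
  have hm0 : ∀ s, 0 < m' s := fun s => by
    have h1 := (D.G C).om_pos (K.sm s)
    have h2 := (D.G C).om_pos (K.sp s)
    exact lt_min (m0 s) (lt_min (a_pos _ s) (lt_min (by linarith) (by linarith)))
  let sT' : pB C J₀ → ℝ := fun b => match b with
    | ⟨.inl e, he⟩ => sT ⟨e, inl_mem_pB.1 he⟩
    | ⟨.inr _, _⟩ => 1
  have hsT : ∀ b : pG C J₀, sT' ⟨.inl b.1, inl_mem_pB.2 b.2⟩ = sT b := fun b => rfl
  refine ⟨η, sT', m', es, η0, ?_, hm0, es0,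
    fun b s hs => (hm1 s).trans (hmη b s hs), hm2, hm3, hm4, fun b => by rw [hsT]; exact hsμ b, ?_⟩
  · rintro ⟨b | H, hb⟩
    · exact sT0 _
    · exact one_pos
  intro C₀ μT X Y₂ Ys sc Y₃ Y₄ hσ hn hst hc hD hε Xw Xle Xs Xc hd δT hδT
  have hN : ∀ b : pG C J₀, NumT Y₃.Lt Y₃.F Y₄.Fσ Y₄.ς (ω3T δ C) b.1
      (X.sl ⟨.inl b.1, inl_mem_pB.2 b.2⟩) (Xw b) (μ b) (X.σ ⟨.inl b.1, inl_mem_pB.2 b.2⟩)
      (μ b / 32 * (ebe (D.W C) b.1 - eal (D.W C) b.1)) (η b) (η b) (η b) (6 * η b)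
      (12 * η b) := by
    intro b
    refine key Y₄.sg (fun s β => ?_) (fun s β => ?_) (fun s β => (Y₄.ςε β s).trans (hε s)) b
      (X.slB b) ?_ le_rfl ((X.card _).trans (hn _)) (Xle b)
      (Xs b) (Xc b) fun β s hes htg t ht => (hd b β s hes htg t ht).trans (hm1 s.1)
    · exact (hst s.1 β).trans (hm1 s.1)
    · exact ((Y₃.c1 s.1 β).trans (hc s.1 β)).trans (hm1 s.1)
    · rw [← hsT b]
      exact hσ _
  refine ⟨hN, Y₄.exists_s5 (fun s β => (hst s.1 β).trans (hm2 s.1)) (fun s _ β q hq => ?_) hD hN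
    hδT⟩
  have h1 := hc s β
  have h2 := hm0 s
  rcases hq with rfl | rfl
  · linarith [hm3 s]
  · linarith [hm4 s]

end Vale.Agent.P073.H267.K3
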