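import Vale.Agent.P073.H155.SgN
import Vale.Agent.P073.H919.HookF2
import Vale.Agent.P073.H429.THBox
import Vale.Agent.P073.H669.TBd2

/-!
# P073, block H155: **[T-HIN]**, the mesh sets are band invariant in the boxes of the tubes

`f5 = S_σ ∘ h5` is the map after ROUND P with its hook.  `bandInv_thin_tube`: a mesh set `X` which
is passive for the hooks of the plates is invariant in the thin bands of the tube `e`, for `f5`:
in the arms (the boxes `HB G c d s` of the plates at `e`) by [KEEP], in the centre by the invariance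
for `h4`.
-/

open Set Metric Topology Filter MeasureTheory

set_option linter.unusedSectionVars false
set_option autoImplicit false

namespace P073.H155

open _root_.P073 _root_.P073.H579 _root_.P073.Net _root_.P073.PA691 _root_.P073.H236
  _root_.P073.H345 _root_.P073.H142 _root_.P073.H919 _root_.P073.H936 _root_.P073.H936.K3
  _root_.P073.H429
open _root_.P073.H880.RP (Sg3)
open Vale.Agent.P073.St (V)
open Vale.Agent.P073.H73 (Mesh)
open Vale.Agent.P073.H471 Vale.Agent.P073.H267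

variable {Ω Λ : Set V} {v : V} {K : BoxCx Λ v} {S : Rad K} {W : Wid K S} {B : Boxes W} {G : Geo B}
  {Y : Lat B} {e : K.G} {y : V} {c d : ℝ}

/-! ### positions -/

/-- the box of a plate meets the box of a tube only if the edge is in the square -/
theorem edge_of_HB (hc : 7 / 8 ≤ c) (hd : d ≤ 1) {s : K.S} (hy : y ∈ HB G c d s)
    (hY : y ∈ YB Y e) : K.edge e ⊆ K.sq s := by
  have hZe : y ∈ Ze W e := B.E_subset e (YB_sub_E Y e hY)
  have h1 : y ∈ PK G s := PB_sub_PK (by linarith) s (HB_PB le_rfl hd s hy)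
  exact edge_subset_sq (PK_sub_ss s h1) hZe.1 (Ze_nJ hZe)

/-- the boxes of the plates contain the moves along the edge -/
theorem HB_update (hc2 : c ≤ 2) {s : K.S} (he : K.edge e ⊆ K.sq s) (hy : y ∈ HB G c d s) {t : ℝ}
    (h1 : eal W e ≤ t) (h2 : t ≤ ebe W e) : Function.update y (K.dir e) t ∈ HB G c d s := by
  obtain ⟨h3, h4⟩ := mem_HB.1 hy
  obtain ⟨h5, h6⟩ := Vale.Agent.P073.H669.eLo_P (W := W) G he
  have h5 : K.slo s (K.dir e) + 32 * G.a s ≤ eal W e := h5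
  have h6 : ebe W e ≤ K.shi s (K.dir e) - 32 * G.a s := h6
  have hp := Geo.p_pos (G := G) s
  have hpa := Geo.p_a (G := G) s
  have hcp : c * G.p s ≤ 2 * G.p s := mul_le_mul_of_nonneg_right hc2 hp.le
  have hn : K.dir e ≠ K.nrm s := Vale.Agent.P073.H669.dir_ne_nrm he
  refine mem_HB.2 ⟨fun k hk => ?_, ?_⟩
  · by_cases hke : k = K.dir e
    · subst hke
      rw [Function.update_self]
      constructor <;> linarith
    · rw [Function.update_of_ne hke]
      exact h3 k hk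
  · rw [Function.update_of_ne hn.symm]
    exact h4

/-- the tangential direction -/
theorem tg_bt_dir {s : K.S} (he : K.edge e ⊆ K.sq s) : tg s (bt s (K.dir e)) = K.dir e :=
  tg_bt s (Vale.Agent.P073.H669.dir_ne_nrm he)

/-- the points of the box of the tube near the edge are in the box of ROUND T -/
theorem mem_TB_of_YB (hY : y ∈ YB Y e)
    (h : ∀ l, l ≠ K.dir e → |y l - K.w (K.a e) l| ≤ G.uT e) : y ∈ G.TB true (.inl e) := by
  obtain ⟨⟨h1, h2⟩, -⟩ := mem_YB.1 hY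
  have h3 := G.be_wv (K.a e)
  have h4 := G.be_wv (K.b e)
  have h5 := G.be_pos (K.a e)
  have h6 := G.be_pos (K.b e)
  unfold eal at h1
  unfold ebe at h2
  rw [Geo.mem_inl]
  refine ⟨⟨by linarith, by linarith⟩, fun k hk => ?_⟩
  rw [if_pos rfl]
  exact h k hk

theorem nearE_true (h : y ∈ G.TB true (.inl e)) : NearE G e y :=
  nearE_of_TB (Geo.TB_true_subset _ h)

/-! ### the theorem -/

variable {L : PLev G} {S₀ : Set K.S} {F Fσ : Bool → BFam 3 S₀ Λ} {ς : Bool → S₀ → ℝ}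
  {T Tσ : Bool → ConHomeo Λ Λ} {M : Mesh Ω} {κ₀ κ₁ : V → V} {Zb : S₀ → Set M.ι}
  {h2 h3 h4 h5 f5 : ConHomeo Ω Λ} {u : V} {hΩ : IsOpen Ω} {r q : S₀ → ℝ} {sl : Finset (ℝ × ℝ)}
  {μ δ : ℝ}

/-- **[T-HIN]** a mesh set which is passive for the hooks of the plates is invariant in the thin
bands of the tube `e`, for the map `f5` after ROUND P -/
theorem bandInv_thin_tube {H : HkG M L (Subtype.val : S₀ → K.S) F T κ₀ κ₁ c d Zb h2 h3 h4 u}
    (O : HkGF H hΩ r q h5) (P : Sg3 L S₀ Fσ ς Tσ)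
    (hf5 : ∀ x ∈ Ω, f5.toFun x = PS.map Tσ (h5.toFun x))
    (r0 : ∀ s, 0 ≤ r s) (r1 : ∀ s, r s < 1) (q1 : ∀ s, q s ≤ 1)
    (he : ∀ s : S₀, ∀ X k, pwid L (fun β => (Fσ β).e s) s.1 ⟨X, k⟩ ≤
      q s * r s * pwid L (fun β => (F β).e s) s.1 ⟨X, k⟩)
    (hδ0 : 0 ≤ δ) (hδ : ∀ β, ∀ s : S₀, K.edge e ⊆ K.sq s.1 → (Fσ β).e s ≤ δ)
    (Th : Thn (eal W e) (ebe W e) sl μ) {X : Set V} (hX : X ⊆ Ω)
    (hXV : ∀ s : S₀, ∀ i ∈ Zb s, Disjoint X (interior (M.Q i)))
    (hg : h3.toFun '' X = Pre (κ₁ ∘ κ₀) Λ h2 X)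
    -- the arms: the side walls
    (hP : ∀ s : S₀, K.edge e ⊆ K.sq s.1 → ∃ T' : Set V,
      ((H.hookIn s).boxK hΩ).Near (bt s.1 (K.dir e)) T' ∧
      ∀ x ∈ X, h4.toFun x ∈ HB G c d s.1 → f5.toFun x ∈ YB Y e → h4.toFun x ∈ T')
    (hbP : ∀ s : S₀, K.edge e ⊆ K.sq s.1 → ∀ i : Th.I, ∃ k : Fin (L.N s.1 (bt s.1 (K.dir e))),
      ∀ t, |t - Th.c i| ≤ Th.w i →
        |t - pcen L s.1 ⟨_, k⟩| ≤ pwσ L Fσ ς s ⟨bt s.1 (K.dir e), k⟩)
    -- the centre
    (hpos : ∀ x ∈ X, f5.toFun x ∈ YB Y e → (∀ s : S₀, h4.toFun x ∉ HB G c d s.1) →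
      h4.toFun x ∈ G.TB true (.inl e))
    (hcen : ∀ i : Th.I, ∀ x ∈ Ω, ∀ x' ∈ Ω,
      (∀ l, l ≠ K.dir e → |h4.toFun x l - K.w (K.a e) l| ≤ G.uT e) →
      (∀ l, l ≠ K.dir e → |h4.toFun x' l - K.w (K.a e) l| ≤ G.uT e) →
      (∀ s : S₀, h4.toFun x ∉ HB G c d s.1) → (∀ s : S₀, h4.toFun x' ∉ HB G c d s.1) →
      |h4.toFun x (K.dir e) - Th.c i| ≤ Th.w i + 2 * δ →
      |h4.toFun x' (K.dir e) - Th.c i| ≤ Th.w i + 2 * δ →
      (∀ l, l ≠ K.dir e → h4.toFun x l = h4.toFun x' l) → x ∈ X → x' ∈ X) :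
    BandInv (ι := Th.I) (fun _ => true) (dax e) Th.c Th.w (f5.invFun '' YB Y e) f5.toFun X := by
  have hmemσ : ∀ s : S₀, ∀ x ∈ Ω, f5.toFun x ∈ HB G c d s.1 ↔ h4.toFun x ∈ HB G c d s.1 := by
    intro s x hx
    rw [hf5 x hx, (Sg3_prodOn P s H.hc H.hc2 H.hd).mem _ (h5.mapsTo hx)]
    exact O.mem_box s hx
  have hoff : ∀ x ∈ Ω, (∀ s : S₀, f5.toFun x ∉ HB G c d s.1) →
      f5.toFun x = PS.map Tσ (h4.toFun x) := by
    intro x hx h
    rw [hf5 x hx, O.out.off hx fun s hs => h s ((hmemσ s x hx).2 (interior_subset hs))]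
  have key := bandInv_tube (γ := Unit) (φ := fun _ => e) (Y := Y) (sl := fun _ => sl)
    (μ := fun _ => μ) (T := fun _ => Th) (b := ()) (f := f5) (X := X) (κ := Option S₀)
    (Z := fun a => match a with
      | none => {y | (∀ l, l ≠ K.dir e → |y l - K.w (K.a e) l| ≤ G.uT e) ∧
          ∀ s : S₀, y ∉ HB G c d s.1}
      | some s => HB G c d s.1 ∩ {_y | K.edge e ⊆ K.sq s.1}) ?_ ?_ ?_
  · exact key
  · intro x hx hxX hxY
    by_cases h : ∃ s : S₀, f5.toFun x ∈ HB G c d s.1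
    · obtain ⟨s, hs⟩ := h
      exact ⟨some s, hs, edge_of_HB H.hc H.hd hs hxY⟩
    · push Not at h
      refine ⟨none, fun l hl => ?_, h⟩
      have h1 := hpos x hxX hxY fun s hs => h s ((hmemσ s x hx).2 hs)
      have h2 := sg3_fwd P (nearE_true h1) hδ0 hδ
      rw [hoff x hx h, h2.1 l hl]
      have h3 := (Geo.mem_inl.1 h1).2 l hl
      rwa [if_pos rfl] at h3
  · rintro (_ | s) y hy hyY t ht1 ht2
    · refine ⟨fun l hl => ?_, fun s hs => ?_⟩
      · rw [Function.update_of_ne hl]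
        exact hy.1 l hl
      · have h1 : Function.update y (K.dir e) t ∈ YB Y e := YB_update hyY ht1 ht2
        have h2 := edge_of_HB H.hc H.hd hs h1
        have h3 := HB_update (t := y (K.dir e)) H.hc2 h2 hs (mem_YB.1 hyY).1.1 (mem_YB.1 hyY).1.2
        rw [Function.update_idem, Function.update_eq_self] at h3
        exact hy.2 s h3
    · exact ⟨HB_update H.hc2 hy.2 hy.1 ht1 ht2, hy.2⟩
  · rintro (_ | s) i x hx x' hx' hZ hZ' hxY hxY' hb hb' hl hxX
    all_goals have hb : |f5.toFun x (K.dir e) - Th.c i| ≤ Th.w i := hb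
    all_goals have hb' : |f5.toFun x' (K.dir e) - Th.c i| ≤ Th.w i := hb'
    · have e1 := hoff x hx hZ.2
      have e2 := hoff x' hx' hZ'.2
      have n1 : NearE G e (PS.map Tσ (h4.toFun x)) := by
        rw [← e1]; exact nearE_true (mem_TB_of_YB hxY hZ.1)
      have n2 : NearE G e (PS.map Tσ (h4.toFun x')) := by
        rw [← e2]; exact nearE_true (mem_TB_of_YB hxY' hZ'.1)
      obtain ⟨a1, -, a3⟩ := sg3_back P n1 hδ0 hδ
      obtain ⟨b1, -, b3⟩ := sg3_back P n2 hδ0 hδ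
      rw [← e1] at a1 a3
      rw [← e2] at b1 b3
      refine hcen i x hx x' hx' (fun l hl' => ?_) (fun l hl' => ?_)
        (fun s hs => hZ.2 s ((hmemσ s x hx).2 hs)) (fun s hs => hZ'.2 s ((hmemσ s x' hx').2 hs))
        ?_ ?_ (fun l hl' => ?_) hxX
      · rw [← a1 l hl']; exact hZ.1 l hl'
      · rw [← b1 l hl']; exact hZ'.1 l hl'
      · have h1 := abs_sub_le (h4.toFun x (K.dir e)) (f5.toFun x (K.dir e)) (Th.c i)
        rw [abs_sub_comm] at a3
        linarith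
      · have h1 := abs_sub_le (h4.toFun x' (K.dir e)) (f5.toFun x' (K.dir e)) (Th.c i)
        rw [abs_sub_comm] at b3
        linarith
      · rw [← a1 l hl', ← b1 l hl']
        exact hl l hl'
    · obtain ⟨hs, hes⟩ := hZ
      obtain ⟨hs', -⟩ := hZ'
      have hes : K.edge e ⊆ K.sq s.1 := hes
      obtain ⟨T', hN, hT'⟩ := hP s hes
      obtain ⟨k, hk⟩ := hbP s hes i
      have e1 := tg_bt_dir hes
      have h6 := O.keepσ P hf5 s (r0 s) (r1 s) (q1 s) (X := bt s.1 (K.dir e)) (he s _) hN hX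
        (hXV s) hg
      have hU : ∀ z ∈ Ω, f5.toFun z ∈ HB G c d s.1 →
          z ∈ (phook M L (Subtype.val : S₀ → K.S) F c d Zb s).U h4 := fun z hz hz' =>
        (H.mem_U s hz).2 ((hmemσ s z hz).1 hz')
      refine (h6 ⟨⟨bt s.1 (K.dir e), k⟩, rfl⟩ x (hU x hx hs) x' (hU x' hx' hs') ?_ ?_ ?_
        ⟨hxX, hT' x hxX ((hmemσ s x hx).1 hs) hxY⟩).1
      · show |f5.toFun x (tg s.1 (bt s.1 (K.dir e))) - _| ≤ _
        rw [e1]
        exact hk _ hb
      · show |f5.toFun x' (tg s.1 (bt s.1 (K.dir e))) - _| ≤ _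
        rw [e1]
        exact hk _ hb'
      · show ∀ l, l ≠ tg s.1 (bt s.1 (K.dir e)) → f5.toFun x l = f5.toFun x' l
        rw [e1]
        exact hl

end P073.H155
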