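import Vale.Agent.P073.H155.THin2
import Vale.Agent.P073.H805.HPos
import Vale.Agent.P073.H190.TwoP
import Vale.Agent.P073.H696.ThinL

/-!
# P073, block H155: **[T-HIN]**, the hypotheses of the hook of the tubes

`inv_cell`: the faces of a cell which is passive for the hooks of the plates, and the cell itself,
are invariant in the thin bands of a tube.  `hkT_of`: the hypotheses `HkT` of the hook of the tubes.
The map before the staircases is `h3t`; the hooks of the plates use `h3`, which is `h3t` only in the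
boxes of these hooks (`MapT`).
-/

open Set Metric Topology Filter MeasureTheory

set_option linter.unusedSectionVars false
set_option autoImplicit false

namespace P073.H155

open _root_.P073 _root_.P073.H579 _root_.P073.Net _root_.P073.PA691 _root_.P073.H236
  _root_.P073.H345 _root_.P073.H142 _root_.P073.H919 _root_.P073.H936 _root_.P073.H936.K3
  _root_.P073.H429
open _root_.P073.H880.RP (Sg3 Dat ROut3)
open Vale.Agent.P073.H341 (ROutZ HtOk)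
open Vale.Agent.P073.St (V)
open Vale.Agent.P073.H73 (Mesh)
open Vale.Agent.P073.H193 (Edges)
open Vale.Agent.P073.H471 Vale.Agent.P073.H267

variable {Ω Λ : Set V} {v : V} {K : BoxCx Λ v} {S : Rad K} {W : Wid K S} {B : Boxes W} {G : Geo B}
  {M : Mesh Ω} {E : Edges M} {D : Dat K M} {c d : ℝ}
  {Y : Lat B} {L : PLev G} {F Fσ : Bool → BFam 3 D.S₀ Λ} {ς : Bool → D.S₀ → ℝ}
  {T Tσ : Bool → ConHomeo Λ Λ} {κ₀ κ₁ : V → V} {Zb : D.S₀ → Set M.ι}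
  {h h1 h2 h3 h4 h5 f5 : ConHomeo Ω Λ} {u : V} {hΩ : IsOpen Ω} {r q : D.S₀ → ℝ}
  {ι : Type} {Fm : ι → Set V} {ω : TBx K → ℝ} {m : ℝ} {G₀ : Set (TBx K)} {Act₀ : Set M.κ}
  {O₁ : M.κ → V} {La : E.ε → ℝ} {Lf : M.κ → E.ε → ℝ} {Lam1 : M.κ → ℝ}
  {sl : G₀ → Finset (ℝ × ℝ)}

/-- the numbers of ROUND P at the edge `e`: `δ` bounds the second staircases, `dT` the first ones
near the thin bands, `dK` the insertion maps -/
structure NumE (L : PLev G) (F Fσ : Bool → BFam 3 D.S₀ Λ) (e : K.G) {sl' : Finset (ℝ × ℝ)} {μ : ℝ}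
    (Th : Thn (eal W e) (ebe W e) sl' μ) (δ dT dK Dd : ℝ) : Prop where
  δ0 : 0 ≤ δ
  hδ : ∀ β, ∀ s : D.S₀, K.edge e ⊆ K.sq s.1 → (Fσ β).e s ≤ δ
  T0 : 0 ≤ dT
  hT : ∀ β, ∀ s : D.S₀, K.edge e ⊆ K.sq s.1 → tg s.1 β = K.dir e → ∀ i : Th.I,
    LocD ((F β).σ s) {t | |t - Th.c i| ≤ Th.w i + Dd} dT
  K0 : 0 ≤ dK
  hK : ∀ β, ∀ s : D.S₀, K.edge e ⊆ K.sq s.1 → L.c s.1 β ≤ dK
  sum : 2 * δ + (2 * dT + 2 * dK) ≤ Dd
  be_a : Dd ≤ G.be (K.a e)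
  be_b : Dd ≤ G.be (K.b e)
  Te : 2 * δ ≤ B.T e

/-- **the outputs of the rounds before the hook of the tubes** -/
structure PreT {H : HkG M L (Subtype.val : D.S₀ → K.S) F T κ₀ κ₁ c d Zb h2 h3 h4 u}
    (O : HkGF H hΩ r q h5) (h1 f5 : ConHomeo Ω Λ) (Fσ : Bool → BFam 3 D.S₀ Λ)
    (ς : Bool → D.S₀ → ℝ) (Tσ : Bool → ConHomeo Λ Λ) (E : Edges M) (Fm : ι → Set V) : Prop where
  P : Sg3 L D.S₀ Fσ ς Tσ
  hf5 : ∀ x ∈ Ω, f5.toFun x = PS.map Tσ (h5.toFun x)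
  r0 : ∀ s, 0 ≤ r s
  r1 : ∀ s, r s < 1
  q1 : ∀ s, q s ≤ 1
  he : ∀ s : D.S₀, ∀ X k, pwid L (fun β => (Fσ β).e s) s.1 ⟨X, k⟩ ≤
    q s * r s * pwid L (fun β => (F β).e s) s.1 ⟨X, k⟩
  R : ROut3 G E D h1 h2 L.lv Fm
  Z : ROutZ G E D h1 h2 L.lv Fm
  hht : HtOk G D
  c1 : c ≤ 1
  d2 : 1 / 2 ≤ d
  hst : ∀ s : D.S₀, ∀ β, stp (L.N s.1 β) (K.slo s.1 (tg s.1 β) + G.a s.1)
    (K.shi s.1 (tg s.1 β) - G.a s.1) ≤ G.a s.1
  hcell : ∀ s : D.S₀, ∀ i ∈ Zb s, h3.toFun '' M.Q i = Pre (κ₁ ∘ κ₀) Λ h2 (M.Q i)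
  hosc : ∀ s : D.S₀, ∀ i ∈ Zb s, ∀ x ∈ M.Q i, ∀ y ∈ M.Q i, ∀ l,
    |h1.toFun x l - h1.toFun y l| ≤ G.p s.1 / 4

/-- **the map before the two-stage staircases** -/
structure MapT (_H : HkG M L (Subtype.val : D.S₀ → K.S) F T κ₀ κ₁ c d Zb h2 h3 h4 u)
    (h3t : ConHomeo Ω Λ) (μ₂ : Bool → D.S₀ → ℝ) (T2 : Bool → ConHomeo Λ Λ) : Prop where
  P2 : P073.H190.PT2 L D.S₀ F μ₂ T2
  map2 : ∀ x ∈ Ω, h4.toFun x = PS.map T2 (h3t.toFun x)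
  heq : ∀ s : D.S₀, ∀ x ∈ Ω, h4.toFun x ∈ HB G c d s.1 → h3.toFun x = h3t.toFun x

/-- **a cell which is passive for the hooks of the plates**, and near the boundary of a square;
`h3t` is the map before the staircases -/
structure PsvT (H : HkG M L (Subtype.val : D.S₀ → K.S) F T κ₀ κ₁ c d Zb h2 h3 h4 u)
    (h1 h3t : ConHomeo Ω Λ) (i : M.ι) : Prop where
  psv : ∀ s : D.S₀, Psv H s h1 i
  cell : h3t.toFun '' M.Q i = Pre (κ₁ ∘ κ₀) Λ h2 (M.Q i)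
  face : ∀ k, M.F k ⊆ M.Q i → h3t.toFun '' M.F k = Pre (κ₁ ∘ κ₀) Λ h2 (M.F k)
  osc : ∀ s : D.S₀, ∀ x ∈ M.Q i, ∀ y ∈ M.Q i, ∀ l, h4.toFun x ∈ HB G c d s.1 →
    |h1.toFun x l - h1.toFun y l| ≤ G.p s.1 / 8
  near : ∃ (s : K.S) (e' : K.G), K.edge e' ⊆ K.sq s ∧ ∃ z ∈ K.edge e', ∀ x ∈ M.Q i,
      ∀ k, |h4.toFun x k - z k| ≤ 2 * G.p s

section

variable {H : HkG M L (Subtype.val : D.S₀ → K.S) F T κ₀ κ₁ c d Zb h2 h3 h4 u}
  {h3t : ConHomeo Ω Λ} {μ₂ : Bool → D.S₀ → ℝ} {T2 : Bool → ConHomeo Λ Λ}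
  {O : HkGF H hΩ r q h5} {e : K.G} {sl' : Finset (ℝ × ℝ)} {μ δ dT dK Dd : ℝ}
  {Th : Thn (eal W e) (ebe W e) sl' μ}

/-- **[T-HIN]** a face of a passive cell, or the cell -/
theorem inv_cell (A : PreT O h1 f5 Fσ ς Tσ E Fm) (Mt : MapT H h3t μ₂ T2)
    (N : NumE L F Fσ e Th δ dT dK Dd)
    (O1 : T3OutG G M E h h1 ω m G₀ Act₀ O₁ La Lf Lam1 sl) (heG : (.inl e : TBx K) ∈ G₀)
    (hbP : ∀ i : Th.I, ∀ s ∈ D.S₀, K.edge e ⊆ K.sq s →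
      ∃ k < L.N s (bt s (K.dir e)), Pσ L Fσ ς e s k ≤ Th.c i - Th.w i ∧
        Th.c i + Th.w i ≤ P'σ L Fσ ς e s k)
    (hno : ∀ i : Th.I, ∀ t, |t - Th.c i| ≤ Th.w i + Dd → NoSl (sl ⟨.inl e, heG⟩) t)
    {i : M.ι} (I : PsvT H h1 h3t i) {X : Set V} (hX : (∃ k, M.F k ⊆ M.Q i ∧ X = M.F k) ∨ X = M.Q i) :
    BandInv (ι := Th.I) (fun _ => true) (dax e) Th.c Th.w (f5.invFun '' YB Y e) f5.toFun X := by
  have hXi : X ⊆ M.Q i := by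
    rcases hX with ⟨k, hk, rfl⟩ | rfl
    · exact hk
    · exact Subset.rfl
  have hδ := N.sum
  have hT0 := N.T0
  have hK0 := N.K0
  have hδ0 := N.δ0
  have hba := G.be_pos (K.a e)
  have hbb := G.be_pos (K.b e)
  have ha := N.be_a
  have hb := N.be_b
  refine P073.H696.inv_thin2 (E := E) (sl := sl) (heG := heG) O A.P A.hf5 A.r0 A.r1 A.q1 A.he A.R
    A.Z A.hht A.c1 A.d2 A.hcell A.hosc O1 Th hbP hno N.δ0 N.hδ N.T0 N.hT N.K0 N.hK N.sum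
    (by linarith) (by linarith) (hXi.trans (M.sub i)) ?_ ?_ Mt.P2 Mt.map2 Mt.heq ?_ ?_ ?_
  · rcases hX with ⟨k, -, rfl⟩ | rfl
    · exact Or.inl ⟨k, rfl⟩
    · exact Or.inr (Or.inr ⟨i, rfl⟩)
  · intro s j hj
    rw [Set.disjoint_left]
    intro x hx hxj
    rcases hX with ⟨k, -, rfl⟩ | rfl
    · exact not_interior_of_face M _ hx hxj
    · exact not_interior_of_cell M (fun hij => (I.psv s).psv (by rw [hij]; exact hj)) hx hxj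
  · rcases hX with ⟨k, hk, rfl⟩ | rfl
    · exact I.face k hk
    · exact I.cell
  · intro s hes
    by_cases hne : ∃ x ∈ M.Q i, h4.toFun x ∈ HB G c d s.1
    · obtain ⟨x₀, hx₀, hb₀⟩ := hne
      refine O.hside_of A.P A.hf5 A.R A.Z A.hht A.c1 (A.r0 s) (A.r1 s)
        (fun β => ((A.P.isS β).s0 s).le) (A.hst s) (A.hcell s) (A.hosc s) (I.psv s)
        (fun x hx y hy l => ?_) hes hXi
      have h7 := I.osc s x₀ hx₀ x hx l hb₀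
      have h8 := I.osc s x₀ hx₀ y hy l hb₀
      rw [abs_sub_comm] at h7
      have h9 := abs_sub_le (h1.toFun x l) (h1.toFun x₀ l) (h1.toFun y l)
      linarith
    · push Not at hne
      exact Or.inl fun x hx hxb _ => absurd hxb (hne x (hXi hx))
  · intro x hx hxY hn
    obtain ⟨s, e', he', z, hz, hxz⟩ := I.near
    exact O.hpos_of A.P A.hf5 N.δ0 N.hδ (by linarith) (by linarith) N.Te (M.sub i (hXi hx)) hxY hn
      ⟨s, e', he', z, hz, hxz x (hXi hx)⟩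

end

/-! ### the hypotheses of the hook of the tubes -/

section

variable {H : HkG M L (Subtype.val : D.S₀ → K.S) F T κ₀ κ₁ c d Zb h2 h3 h4 u}
  {h3t : ConHomeo Ω Λ} {μ₂ : Bool → D.S₀ → ℝ} {T2 : Bool → ConHomeo Λ Λ}
  {O : HkGF H hΩ r q h5} {γ : Type*} {φ : γ → K.G} {sl' : γ → Finset (ℝ × ℝ)}
  {μ δ dT dK Dd : γ → ℝ} {Th : ∀ b, Thn (eal W (φ b)) (ebe W (φ b)) (sl' b) (μ b)}
  {Zt : γ → Set M.ι}

/-- **the hypotheses of the hook of the tubes**, from the outputs of ROUND T and of ROUND P -/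
theorem hkT_of (hΛ : IsOpen Λ) (A : PreT O h1 f5 Fσ ς Tσ E Fm) (Mt : MapT H h3t μ₂ T2)
    (O1 : T3OutG G M E h h1 ω m G₀ Act₀ O₁ La Lf Lam1 sl) (hφ : Function.Injective φ)
    (heG : ∀ b, (.inl (φ b) : TBx K) ∈ G₀)
    (N : ∀ b, NumE L F Fσ (φ b) (Th b) (δ b) (dT b) (dK b) (Dd b))
    (hbP : ∀ b, ∀ i : (Th b).I, ∀ s ∈ D.S₀, K.edge (φ b) ⊆ K.sq s →
      ∃ k < L.N s (bt s (K.dir (φ b))), Pσ L Fσ ς (φ b) s k ≤ (Th b).c i - (Th b).w i ∧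
        (Th b).c i + (Th b).w i ≤ P'σ L Fσ ς (φ b) s k)
    (hno : ∀ b, ∀ i : (Th b).I, ∀ t, |t - (Th b).c i| ≤ (Th b).w i + Dd b →
      NoSl (sl ⟨.inl (φ b), heG b⟩) t)
    (hcube : ∀ b, ∀ i ∈ Zt b, ∃ m z, M.Q i = dyc u m z)
    (hint : ∀ b, ∀ i ∈ Zt b, f5.toFun '' M.Q i ⊆ interior (YB Y (φ b)))
    (I : ∀ b, ∀ i ∈ Zt b, PsvT H h1 h3t i) : HkT M Y φ Th Zt f5 u where
  hΛ := hΛ
  inj := hφ
  cube := hcube
  int := hint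
  inv := fun b i hi k hk =>
    inv_cell A Mt (N b) O1 (heG b) (hbP b) (hno b) (I b i hi) (Or.inl ⟨k, hk, rfl⟩)

end

end P073.H155
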