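import Vale.Agent.P073.H155.SoftEst
import Vale.Agent.P073.H471.TailOut

/-!
# P073, [TAIL-SOFT]: the last step of `K2C`, with the soft collapse (H212)

The same as `H471/TailOut.lean`, for the maps with `IsSoft`; the cone estimates are those with the
boxes `B` (`ConeAtB` of H142) and the factor `1 + R / rho` on the faces.
-/

open Set Metric Topology Filter
open scoped ENNReal

namespace P073.H155

open _root_.P073 _root_.P073.Net _root_.P073.PA691 _root_.P073.TM _root_.P073.H142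
open Vale.Agent.P073.St (V)
open Vale.Agent.P073.SQ (ev)
open Vale.Agent.P073.H73 (Mesh sqr faceL onSeg Adapted Out OutS ELip offY)
open Vale.Agent.P073.H193 (Edges edges)
open Vale.Agent.P073.H267 Vale.Agent.P073.H471 Vale.Agent.P073.H212
open Vale.Agent.P073.H581 (NearAt ImgAt TileAt TileIff)

variable {Ω Λ : Set V} {M : Mesh Ω} {v : V} {K : BoxCx Λ v} {S : Rad K} {W : Wid K S}
  {B : Boxes W} {R : Fac K} {f : V → V} {N δ : M.κ → ℝ} {Φ : ConHomeo Λ Λ} {k : M.κ}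

/-- the factor of the face -/
noncomputable def fct {E : Edges M} (T : FStar E k) : ℝ := 1 + T.R / T.rho

theorem one_le_fct {E : Edges M} (T : FStar E k) : 1 ≤ fct T := by
  have h1 := T.rho_pos
  have h2 := T.R0
  have h3 : 0 ≤ T.R / T.rho := by positivity
  unfold fct
  linarith

theorem fct_le {E : Edges M} (T : FStar E k) : fct T ≤ 1 + M.c k ^ 2 := by
  have h1 := T.ratio
  unfold fct
  linarith

theorem fct_sq {E : Edges M} (T : FStar E k) {a : V} {l : Fin 3} {σ : ℝ} (hσ : 0 < σ)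
    (hF : M.F k = sqr a l σ) : fct T = 2 := by
  obtain ⟨-, h1, h2⟩ := T.sq a l σ hσ hF
  unfold fct
  rw [h1, h2, div_self hσ.ne']
  norm_num

/-- The estimates for the map `f` (before the collapse) on the face `k`. -/
def FaceOKB (B : Boxes W) (h f : V → V) (C₁ D₀ ε : ℝ) (k : M.κ) : Prop :=
  ∃ (T : FStar (edges M) k) (b : (edges M).ε → ℝ), Num k h D₀ ε b ∧
    (∀ e, (edges M).seg e ⊆ M.F k → 0 < b e) ∧ ConeFB B T (C₁ * (1 + T.R / T.rho)) b f ∧
    ∀ e, (edges M).seg e ⊆ M.F k → ∀ x ∈ (edges M).seg e,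
      ConeAtB B (C₁ * (b e / ‖(edges M).b e - (edges M).a e‖)) ((edges M).seg e) f x

/-- smallness for the collapse -/
def SmallForB (B : Boxes W) (h f : V → V) (C₁ D₀ ε : ℝ) (k : M.κ) (t : ℝ) : Prop :=
  FaceOKB B h f C₁ D₀ ε k → ∃ (T : FStar (edges M) k) (b : (edges M).ε → ℝ),
    Num k h D₀ ε b ∧ (∀ e, (edges M).seg e ⊆ M.F k → 0 < b e) ∧
    ConeFB B T (C₁ * (1 + T.R / T.rho)) b f ∧
    (∀ e, (edges M).seg e ⊆ M.F k → ∀ x ∈ (edges M).seg e,
      ConeAtB B (C₁ * (b e / ‖(edges M).b e - (edges M).a e‖)) ((edges M).seg e) f x) ∧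
    (∀ e, (edges M).seg e ⊆ M.F k → t ≤ T.con (C₁ * (1 + T.R / T.rho)) b e) ∧
    ∀ e, (edges M).seg e ⊆ M.F k → t ≤ C₁ * (b e / ‖(edges M).b e - (edges M).a e‖)

theorem exists_smallForB (B : Boxes W) (h f : V → V) {C₁ D₀ ε : ℝ} (hC₁ : 0 < C₁) (k : M.κ) :
    ∃ t₀ > 0, ∀ t ≤ t₀, SmallForB B h f C₁ D₀ ε k t := by
  by_cases H : FaceOKB B h f C₁ D₀ ε k
  · obtain ⟨T, b, h1, h2, h3, h4⟩ := H
    have hfc : 0 < C₁ * (1 + T.R / T.rho) := mul_pos hC₁ (by
      have := one_le_fct T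
      unfold fct at this
      linarith)
    obtain ⟨t1, ht1, h5⟩ := T.exists_eps hfc h2
    obtain ⟨t2, ht2, h6⟩ : ∃ t2 > 0, ∀ e, (edges M).seg e ⊆ M.F k →
        t2 ≤ C₁ * (b e / ‖(edges M).b e - (edges M).a e‖) := by
      obtain ⟨t, ht, hle⟩ := Boxes.exists_pos_le ((edges M).fin_face k)
        (fun e => if 0 < b e then C₁ * (b e / ‖(edges M).b e - (edges M).a e‖) else 1)
        (fun e => by
          have h7 := _root_.P073.H142.elen_pos (edges M) e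
          show 0 < if 0 < b e then _ else _
          split_ifs with h8
          · positivity
          · exact one_pos)
      refine ⟨t, ht, fun e he => ?_⟩
      have h8 := hle e he
      rwa [if_pos (h2 e he)] at h8
    refine ⟨min t1 t2, lt_min ht1 ht2, fun t ht _ => ⟨T, b, h1, h2, h3, h4, fun e he => ?_,
      fun e he => ?_⟩⟩
    · exact (ht.trans (min_le_left _ _)).trans (h5 e he)
    · exact (ht.trans (min_le_right _ _)).trans (h6 e he)
  · exact ⟨1, one_pos, fun t _ h => absurd h H⟩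

/-- the constant `D` -/
noncomputable def sD (p C₁ D₀ D₁ : ℝ) : ℝ :=
  4 * (2 * (D₁ * 16)) + 2 * (dp p * (8 * (C₁ * 2) * D₀) ^ p * 2 ^ (p - 1)) + 8 * C₁ * D₀

/-- the constant `C` -/
noncomputable def sC (C₁ D₀ c : ℝ) : ℝ := 8 * (C₁ * (1 + c ^ 2)) * (1 + 12 * c ^ 2) * (D₀ * 2)

/-- **The facts about the last map `f`** (before the collapse). `C₁`, `D₀` are the constants on the
faces off `Y`, and `C₁'`, `D₀'` those on all faces. -/
structure LastB (w : V) (ρ : V → ℝ) (B : Boxes W) (M : Mesh Ω) (h f : ConHomeo Ω Λ)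
    (P : Set M.ι) (Y : Set M.κ) (ε : M.κ → ℝ) (C₁ D₀ C₁' D₀' D₁ : ℝ) : Prop where
  near : NearAt D₁ ρ M h.toFun f.toFun
  img : ImgAt M P h.toFun f.toFun
  tile : TileAt ρ w M P h.toFun f.toFun
  good : ∀ k ∈ offY M Y, FaceOKB B h.toFun f.toFun C₁ D₀ (ε k) k
  all : ∀ k, FaceOKB B h.toFun f.toFun C₁' D₀' (ε k) k

section

variable {ρ : V → ℝ} {P : Set M.ι} {Y : Set M.κ} {h f : ConHomeo Ω Λ}
  {ε t : M.κ → ℝ} {C₁ D₀ C₁' D₀' D₁ p μ : ℝ}

/-- the clauses of `Out` and `ELip` for a set of faces -/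
theorem out_ofB (C : Cells ρ v K) (hρ : SizeFn Λ ρ) (hp : 1 ≤ p) (hC₁ : 0 < C₁) (hD₀ : 0 ≤ D₀)
    (hD₁ : 1 ≤ D₁) (hA : Vale.Agent.P073.H73.Aligned v ρ M h.toFun P) {G : Set M.κ}
    (near : NearAt D₁ ρ M h.toFun f.toFun) (img : ImgAt M P h.toFun f.toFun)
    (tile : TileAt ρ v M P h.toFun f.toFun) (hε : ∀ k, 0 < ε k)
    (good : ∀ k ∈ G, SmallForB B h.toFun f.toFun C₁ D₀ (ε k) k (t k))
    (good' : ∀ k ∈ G, FaceOKB B h.toFun f.toFun C₁ D₀ (ε k) k)
    (H : Small W R f.toFun M.F N t) (hμ : 0 ≤ μ) (hμ1 : μ ≤ 1) (HΦ : IsSoft B μ R Φ) :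
    Out p (sD p C₁ D₀ D₁) (sC C₁ D₀) v ρ M h.toFun P G ε (f.trans Φ) (LenC h.toFun) ∧
      ELip (sD p C₁ D₀ D₁) M G ε (f.trans Φ) (LenC h.toFun) := by
  have hval : ∀ x, (f.trans Φ).toFun x = Φ.toFun (f.toFun x) := fun x => rfl
  have hΦt : TileIff Λ ρ v Φ.toFun := tileIff_soft C hρ HΦ
  have hdp := dp_pos p
  have e1 : 0 ≤ 2 * (dp p * (8 * (C₁ * 2) * D₀) ^ p * 2 ^ (p - 1)) := by positivity
  have e2 : 0 ≤ 8 * C₁ * D₀ := by positivity
  have hD1 : 4 * (2 * (D₁ * 16)) ≤ sD p C₁ D₀ D₁ := by unfold sD; linarith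
  have hD2 : 2 * (dp p * (8 * (C₁ * 2) * D₀) ^ p * 2 ^ (p - 1)) ≤ sD p C₁ D₀ D₁ := by
    unfold sD; linarith
  have hD3 : 8 * C₁ * D₀ ≤ sD p C₁ D₀ D₁ := by unfold sD; linarith
  refine ⟨⟨?_, ?_, ?_, ?_, ?_⟩, ?_⟩
  · -- close
    intro k x hx m z ht hxt
    have hxΩ := mesh_sub' M k hx
    have hp' : ∀ y ∈ Λ, 0 ≤ ρ y := fun y hy => (hρ.pos y hy).le
    have n1 := near k x hx
    have n2 : Vale.Agent.P073.H581.Near 16 ρ (f.toFun x) (Φ.toFun (f.toFun x)) :=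
      Vale.Agent.P073.H581.Near.of_tileIff hρ hΦt (f.mapsTo hxΩ)
    have n3 := n1.trans n2 hD₁ (by norm_num) (hp' _ (h.mapsTo hxΩ))
      (hp' _ (Φ.mapsTo (f.mapsTo hxΩ)))
    have n4 := n3.close hρ (by positivity) ht hxt
    rw [hval]
    exact n4.trans (div_le_div_of_nonneg_right hD1 (by positivity))
  · -- lip
    intro k hk E ℓ Kc hE hℓ x hx y hy
    obtain ⟨T, b, h1, h2, h3, h4, h5, h6⟩ := good k hk (good' k hk)
    have hf1 := one_le_fct T
    have hf2 := fct_le T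
    unfold fct at hf1 hf2
    have hest : T.Est (8 * (C₁ * (1 + T.R / T.rho))) b (fun x => Φ.toFun (f.toFun x)) :=
      ConeFB.est (by positivity) (fun e he => (h2 e he).le) H HΦ hμ hμ1
        (f.cont.mono (mesh_sub' M k)) h5 h3
    have hest' : T.Est (8 * (C₁ * (1 + M.c k ^ 2))) b (fun x => Φ.toFun (f.toFun x)) := by
      intro e he x hx
      filter_upwards [hest e he x hx] with y hy
      refine hy.trans (mul_le_mul_of_nonneg_right ?_ (norm_nonneg _))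
      have h7 : 0 ≤ T.con 1 b e := T.con_nonneg zero_le_one (fun e he => (h2 e he).le) he
      have h8 : T.con (8 * (C₁ * (1 + T.R / T.rho))) b e =
          8 * (C₁ * (1 + T.R / T.rho)) * T.con 1 b e := by
        rw [← T.con_mul, mul_one]
      have h9 : T.con (8 * (C₁ * (1 + M.c k ^ 2))) b e =
          8 * (C₁ * (1 + M.c k ^ 2)) * T.con 1 b e := by
        rw [← T.con_mul, mul_one]
      rw [h8, h9]
      gcongr
    exact hest'.lip' (by positivity) hD₀ (hε k) h1 hE hℓ x hx y hy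
  · -- energy
    intro k hk E ℓ a l σ hσ hF hE hℓ
    obtain ⟨T, b, h1, h2, h3, h4, h5, h6⟩ := good k hk (good' k hk)
    have hfs := fct_sq T hσ hF
    unfold fct at hfs
    rw [hfs] at h3 h5
    have hest : T.Est (8 * (C₁ * 2)) b (fun x => Φ.toFun (f.toFun x)) :=
      ConeFB.est (by positivity) (fun e he => (h2 e he).le) H HΦ hμ hμ1
        (f.cont.mono (mesh_sub' M k)) h5 h3
    refine (hest.energy' (by positivity) hD₀ hp (hε k) h1 hσ hF hE hℓ).trans ?_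
    gcongr
  · -- image
    intro i hi
    have hB := Vale.Agent.P073.H581.tbox_of_aligned (h := h) hA hi
    show (fun x => Φ.toFun (f.toFun x)) '' M.Q i = _
    rw [← hΦt.image_homeo hρ Φ hB, ← img i hi, image_image]
  · -- tile
    intro i hi x hx m z ht hxt
    have hxQ : x ∈ M.Q i := (M.poly i).cpt.isClosed.frontier_subset hx
    exact (hΦt.iff m z ht _ (f.mapsTo (M.sub i hxQ))).2 (tile i hi x hx m z ht hxt)
  · -- elip
    intro k hk e he hek ℓ hℓ hlen x hx y hy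
    obtain ⟨T, b, h1, h2, h3, h4, h5, h6⟩ := good k hk (good' k hk)
    have hedge : ∀ e, (edges M).seg e ⊆ M.F k → ∀ x ∈ (edges M).seg e,
        ∀ y ∈ (edges M).seg e, ‖Φ.toFun (f.toFun x) - Φ.toFun (f.toFun y)‖ ≤
          8 * (C₁ * (b e / ‖(edges M).b e - (edges M).a e‖)) * ‖x - y‖ := by
      intro e he
      have h7 := h2 e he
      refine soft_edge_lip H HΦ hμ hμ1 he (convex_segment _ _)
        (f.cont.mono (he.trans (mesh_sub' M k))) (by positivity) (h6 e he) (h4 e he)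
    refine (elip_face (g := fun x => Φ.toFun (f.toFun x)) hC₁.le (hε k) hD₀ h1 hedge e he hek ℓ
      hℓ hlen x hx y hy).trans ?_
    have := hε k
    gcongr

/-- **[TAIL-SOFT]** the conclusion of `K2C` from the facts about the last map before the soft
collapse. `Q`: an additional property of the collapse; the sharp clauses are a hypothesis on all
sufficiently strong collapses. -/
theorem outS_of_lastB (hΩ : IsOpen Ω) (C : Cells ρ v K) (hρ : SizeFn Λ ρ)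
    (hp : 1 ≤ p) (hC₁ : 0 < C₁) (hD₀ : 0 ≤ D₀) (hC₁' : 0 < C₁') (hD₀' : 0 ≤ D₀') (hD₁ : 1 ≤ D₁)
    (hA : Vale.Agent.P073.H73.Aligned v ρ M h.toFun P) (hε : ∀ k, 0 < ε k)
    (L : LastB v ρ B M h f P Y ε C₁ D₀ C₁' D₀' D₁) (hμ : 0 ≤ μ) (hμ1 : μ ≤ 1)
    (Q : Fac K → ConHomeo Λ Λ → Prop)
    (hex : ∀ R : Fac K, ∃ Φ : ConHomeo Λ Λ, IsSoft B μ R Φ ∧ Q R Φ) {μ' r η₀ δ : ℝ}
    (hsharp : ∃ t₀ : M.κ → ℝ, (∀ k, 0 < t₀ k) ∧ ∀ (R : Fac K) (N t : M.κ → ℝ)
      (Φ : ConHomeo Λ Λ), (∀ k, 0 < t k) → (∀ k, t k ≤ t₀ k) → Small W R f.toFun M.F N t →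
      IsSoft B μ R Φ → Q R Φ →
        Vale.Agent.P073.H239.SharpOut p η₀ δ μ' r v ρ M h.toFun univ Y ε (f.trans Φ)) :
    ∃ g : ConHomeo Ω Λ, OutS p (sD p C₁ D₀ D₁) (sC C₁ D₀) μ' (sD p C₁' D₀' D₁) (sC C₁' D₀')
      r η₀ δ v ρ M h.toFun P Y ε g (LenC h.toFun) := by
  obtain ⟨t₀, ht₀, hsharp⟩ := hsharp
  choose t₁ ht₁ h₁ using fun k => exists_smallForB B h.toFun f.toFun (D₀ := D₀) (ε := ε k) hC₁ k
  choose t₂ ht₂ h₂ using
    fun k => exists_smallForB B h.toFun f.toFun (D₀ := D₀') (ε := ε k) hC₁' k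
  set t : M.κ → ℝ := fun k => min (t₀ k) (min (t₁ k) (t₂ k)) with ht
  have htpos : ∀ k, 0 < t k := fun k => lt_min (ht₀ k) (lt_min (ht₁ k) (ht₂ k))
  obtain ⟨R, N, H⟩ := exists_small hΩ f W M.F (isCompact_face M) (mesh_sub' M) M.ffin htpos
  obtain ⟨Φ, HΦ, HQ⟩ := hex R
  have o1 := out_ofB C hρ hp hC₁ hD₀ hD₁ hA (G := offY M Y) (t := t) L.near L.img L.tile hε
    (fun k _ => h₁ k (t k) ((min_le_right _ _).trans (min_le_left _ _))) L.good H hμ hμ1 HΦ
  have o2 := out_ofB C hρ hp hC₁' hD₀' hD₁ hA (G := univ) (t := t) L.near L.img L.tile hε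
    (fun k _ => h₂ k (t k) ((min_le_right _ _).trans (min_le_right _ _))) (fun k _ => L.all k) H
    hμ hμ1 HΦ
  exact ⟨f.trans Φ, o1.1, o2.1, o1.2, o2.2,
    hsharp R N t Φ htpos (fun k => min_le_left _ _) H HΦ HQ⟩

end

end P073.H155
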