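import Vale.Agent.P073.H155.Chart
import Vale.Agent.P073.H579.PatProd

/-!
# P073, H155 (EDGE-DATA): boundary data and the metric estimate of a face
-/

open Set Metric Topology Filter

set_option autoImplicit false

namespace P073.H155

open P073.H31 P073.H579

/-- the model functions vanish in the lower part of the rectangle -/
theorem md_low {ws : ℝ} {A : ℕ → ArcD} (h0 : 0 < ws) : ∀ {k : ℕ}, (∀ i < k, 0 < (A i).om) →
    ∀ (i : ℕ) (a t : ℝ), t ≤ ws / Wt ws A k → md ws A k i a t = 0 := by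
  intro k
  induction k with
  | zero => intro _ i a t _; rfl
  | succ k ih =>
    intro hA i a t ht
    have hA' : ∀ i < k, 0 < (A i).om := fun j hj => hA j (by omega)
    have hW := Wt_pos h0 hA
    have hW' := Wt_pos h0 hA'
    have h1 := one_sub_hh h0 hA
    have hpos := hh_pos h0 hA
    have hws : ws ≤ Wt ws A k := by
      have : 0 ≤ ∑ i ∈ Finset.range k, (A i).om :=
        Finset.sum_nonneg fun i hi => (hA' i (Finset.mem_range.1 hi)).le
      rw [Wt]; linarith
    by_cases hik : i = k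
    · subst hik
      rw [md_last]
      apply zl_of_le hpos
      have h2 : ws / Wt ws A (i + 1) ≤ Wt ws A i / Wt ws A (i + 1) := by gcongr
      have h3 := mul_le_mul_of_nonneg_left (ArcD.lam_le_two (A := A i) a) hpos.le
      linarith
    · rw [md_succ ws A hik]
      apply ih hA'
      refine (min_le_right _ _).trans ((min_le_right _ _).trans ?_)
      rw [h1, div_div_eq_mul_div]
      gcongr
      calc t * Wt ws A (k + 1) ≤ ws / Wt ws A (k + 1) * Wt ws A (k + 1) := by gcongr
        _ = ws := by field_simp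

/-- the weighted distance of the model functions -/
noncomputable def dmd (ws : ℝ) (A : ℕ → ArcD) (k : ℕ) (x y : ℝ × ℝ) : ℝ :=
  ∑ i ∈ Finset.range k, (A i).om * |md ws A k i x.1 x.2 - md ws A k i y.1 y.2|

/-- the arcs have their end points at given positions -/
structure Ends {E : Type*} (k : ℕ) (A : ℕ → ArcD) (X : Finset E) (l r om : E → ℝ) : Prop where
  ends : ∀ i < k, ∃ x ∈ X, ∃ y ∈ X, (A i).p = l x ∧ (A i).w = r x - l x ∧ (A i).q = r y ∧
    (A i).w' = r y - l y ∧ l x < l y ∧ (A i).om ≤ om x ∧ (A i).om ≤ om y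

/-- positions of the crossing points -/
structure PosOut {E : Type*} (X : Finset E) (l r om : E → ℝ) (ws : ℝ) : Prop where
  lo : ∀ x ∈ X, 1 / 8 ≤ l x
  lr : ∀ x ∈ X, l x < r x
  hi : ∀ x ∈ X, r x ≤ 7 / 8
  om : ∀ x ∈ X, om x ≤ 8 * ws * (r x - l x)
  gap : ∀ x ∈ X, ∀ y ∈ X, x ≠ y → r x + 2 * (r x - l x) + 2 * (r y - l y) ≤ l y ∨
    r y + 2 * (r x - l x) + 2 * (r y - l y) ≤ l x

section

variable {E : Type*} {k : ℕ} {A : ℕ → ArcD} {X : Finset E} {l r om : E → ℝ} {ws : ℝ}

theorem PosOut.near (hO : PosOut X l r om ws) {x y : E} (hx : x ∈ X) (hy : y ∈ X)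
    {a : ℝ} (h1 : l x - (r x - l x) ≤ a) (h2 : a ≤ r x + (r x - l x))
    (h3 : l y - (r y - l y) ≤ a) (h4 : a ≤ r y + (r y - l y)) : x = y := by
  by_contra hne
  have k1 := hO.lr x hx
  have k2 := hO.lr y hy
  rcases hO.gap x hx y hy hne with h | h <;> linarith

theorem PosOut.gap' (hO : PosOut X l r om ws) {x y : E} (hx : x ∈ X) (hy : y ∈ X)
    (hlt : l x < l y) : r x + 2 * (r x - l x) + 2 * (r y - l y) ≤ l y := by
  have k1 := hO.lr x hx
  have k2 := hO.lr y hy
  have hne : x ≠ y := by rintro rfl; exact lt_irrefl _ hlt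
  rcases hO.gap x hx y hy hne with h | h
  · exact h
  · linarith

/-- multiplicity one of the ramps -/
theorem ramp_card (hO : PosOut X l r om ws) (hP : Pos k A) (hE : Ends k A X l r om) (a : ℝ) :
    ((Finset.range k).filter (fun i => a ∈ Icc (A i).p ((A i).p + 2 * (A i).w))).card +
      ((Finset.range k).filter (fun i => a ∈ Icc ((A i).q - 2 * (A i).w') (A i).q)).card ≤ 1 := by
  classical
  -- all ramps containing `a` belong to the same point
  have kL : ∀ i < k, a ∈ Icc (A i).p ((A i).p + 2 * (A i).w) → ∃ x ∈ X, (A i).p = l x ∧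
      (A i).w = r x - l x ∧ l x - (r x - l x) ≤ a ∧ a ≤ r x + (r x - l x) := by
    intro i hi ha
    obtain ⟨x, hx, y, hy, e1, e2, e3, e4, -⟩ := hE.ends i hi
    have := hO.lr x hx
    rw [e1, e2] at ha
    exact ⟨x, hx, e1, e2, by linarith [ha.1], by linarith [ha.2]⟩
  have kR : ∀ i < k, a ∈ Icc ((A i).q - 2 * (A i).w') (A i).q → ∃ x ∈ X, (A i).q = r x ∧
      (A i).w' = r x - l x ∧ l x - (r x - l x) ≤ a ∧ a ≤ r x + (r x - l x) := by
    intro i hi ha
    obtain ⟨x, hx, y, hy, e1, e2, e3, e4, -⟩ := hE.ends i hi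
    have := hO.lr y hy
    rw [e3, e4] at ha
    exact ⟨y, hy, e3, e4, by linarith [ha.1], by linarith [ha.2]⟩
  -- distinct ramps belong to distinct points
  have dLL : ∀ i < k, ∀ j < k, a ∈ Icc (A i).p ((A i).p + 2 * (A i).w) →
      a ∈ Icc (A j).p ((A j).p + 2 * (A j).w) → i = j := by
    intro i hi j hj h1 h2
    by_contra hij
    obtain ⟨x, hx, e1, e2, a1, a2⟩ := kL i hi h1
    obtain ⟨y, hy, f1, f2, b1, b2⟩ := kL j hj h2
    have hxy := hO.near hx hy a1 a2 b1 b2
    have hd := (hP.disj i hi j hj hij).1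
    have hw := (hP.good i hi).w0
    have hw' := (hP.good j hj).w0
    refine Set.disjoint_left.1 hd (show ((A i).p, (1:ℝ)) ∈ IL (A i) from
      ⟨⟨le_refl _, by show (A i).p ≤ (A i).p + (A i).w; linarith⟩, rfl⟩) ?_
    have : (A i).p = (A j).p := by rw [e1, f1, hxy]
    exact ⟨⟨this.ge, by show (A i).p ≤ _; rw [this]; linarith⟩, rfl⟩
  have dRR : ∀ i < k, ∀ j < k, a ∈ Icc ((A i).q - 2 * (A i).w') (A i).q →
      a ∈ Icc ((A j).q - 2 * (A j).w') (A j).q → i = j := by
    intro i hi j hj h1 h2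
    by_contra hij
    obtain ⟨x, hx, e1, e2, a1, a2⟩ := kR i hi h1
    obtain ⟨y, hy, f1, f2, b1, b2⟩ := kR j hj h2
    have hxy := hO.near hx hy a1 a2 b1 b2
    have hd := (hP.disj i hi j hj hij).2.1
    have hw := (hP.good i hi).w0'
    have hw' := (hP.good j hj).w0'
    refine Set.disjoint_left.1 hd (show ((A i).q, (1:ℝ)) ∈ IR (A i) from
      ⟨⟨by show (A i).q - (A i).w' ≤ (A i).q; linarith, le_refl _⟩, rfl⟩) ?_
    have : (A i).q = (A j).q := by rw [e1, f1, hxy]
    exact ⟨⟨by show _ ≤ (A i).q; rw [this]; linarith, this.le⟩, rfl⟩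
  have dLR : ∀ i < k, ∀ j < k, a ∈ Icc (A i).p ((A i).p + 2 * (A i).w) →
      a ∈ Icc ((A j).q - 2 * (A j).w') (A j).q → False := by
    intro i hi j hj h1 h2
    obtain ⟨x, hx, e1, e2, a1, a2⟩ := kL i hi h1
    obtain ⟨y, hy, f1, f2, b1, b2⟩ := kR j hj h2
    have hxy := hO.near hx hy a1 a2 b1 b2
    subst hxy
    have g1 := hP.good i hi
    have g2 := hP.good j hj
    by_cases hij : i = j
    · subst hij
      have h3 := g1.pq
      have h4 := hO.lr x hx
      rw [e1, e2, f1, f2] at h3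
      linarith
    · have hd := (hP.disj i hi j hj hij).2.2
      refine Set.disjoint_left.1 hd (show ((A i).p, (1:ℝ)) ∈ IL (A i) from
        ⟨⟨le_refl _, by show (A i).p ≤ (A i).p + (A i).w; linarith [g1.w0]⟩, rfl⟩) ?_
      have h4 := hO.lr x hx
      refine ⟨⟨?_, ?_⟩, rfl⟩
      · show (A j).q - (A j).w' ≤ (A i).p
        rw [f1, f2, e1]; linarith
      · show (A i).p ≤ (A j).q
        rw [f1, e1]; linarith
  have cL : ((Finset.range k).filter
      (fun i => a ∈ Icc (A i).p ((A i).p + 2 * (A i).w))).card ≤ 1 := by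
    rw [Finset.card_le_one]
    intro i hi j hj
    rw [Finset.mem_filter, Finset.mem_range] at hi hj
    exact dLL i hi.1 j hj.1 hi.2 hj.2
  have cR : ((Finset.range k).filter
      (fun i => a ∈ Icc ((A i).q - 2 * (A i).w') (A i).q)).card ≤ 1 := by
    rw [Finset.card_le_one]
    intro i hi j hj
    rw [Finset.mem_filter, Finset.mem_range] at hi hj
    exact dRR i hi.1 j hj.1 hi.2 hj.2
  rcases Finset.eq_empty_or_nonempty ((Finset.range k).filter
      (fun i => a ∈ Icc (A i).p ((A i).p + 2 * (A i).w))) with h | ⟨i, hi⟩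
  · rw [h, Finset.card_empty, zero_add]; exact cR
  · have h2 : (Finset.range k).filter
        (fun i => a ∈ Icc ((A i).q - 2 * (A i).w') (A i).q) = ∅ := by
      rw [Finset.filter_eq_empty_iff]
      intro j hj h3
      rw [Finset.mem_filter, Finset.mem_range] at hi
      exact dLR i hi.1 j (Finset.mem_range.1 hj) hi.2 h3
    rw [h2, Finset.card_empty, add_zero]; exact cL

/-- **the weighted distance of the model functions is a Lipschitz pseudometric which vanishes on
the dead zone** -/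
theorem pmet_dmd (hO : PosOut X l r om ws) (hP : Pos k A) (hE : Ends k A X l r om)
    (h0 : 0 < ws) (hsum : ∑ i ∈ Finset.range k, (A i).om ≤ ws) :
    PMet (20 * ws) (dmd ws A k) := by
  have hA : ∀ i < k, 0 < (A i).om := fun i hi => (hP.good i hi).om0
  have hWt : Wt ws A k ≤ 2 * ws := by rw [Wt]; linarith
  have hWt0 := Wt_pos h0 hA
  refine ⟨by positivity, fun x y => ?_, fun x y => ?_, fun x y z => ?_, fun x hx y hy => ?_,
    fun x hx y hy hdx hdy => ?_⟩
  · exact Finset.sum_nonneg fun i hi => mul_nonneg (hA i (Finset.mem_range.1 hi)).le (abs_nonneg _)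
  · exact Finset.sum_congr rfl fun i _ => by rw [abs_sub_comm]
  · unfold dmd
    rw [← Finset.sum_add_distrib]
    refine Finset.sum_le_sum fun i hi => ?_
    rw [← mul_add]
    exact mul_le_mul_of_nonneg_left (abs_sub_le _ _ _) (hA i (Finset.mem_range.1 hi)).le
  · have h1 := horiz h0 hA x.1 y.1 x.2
    have h2 := vert h0 hA y.1 x.2 y.2
    have h3 := lam_sum (L := 8 * ws) (m := 1) hP.good (by positivity)
      (fun i hi => by
        obtain ⟨x, hx, y, hy, e1, e2, e3, e4, e5, e6, e7⟩ := hE.ends i hi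
        rw [e2]; exact e6.trans (hO.om x hx))
      (fun i hi => by
        obtain ⟨x, hx, y, hy, e1, e2, e3, e4, e5, e6, e7⟩ := hE.ends i hi
        rw [e4]; exact e7.trans (hO.om y hy))
      (fun a => ramp_card hO hP hE a) x.1 y.1
    have n1 : |x.1 - y.1| ≤ ‖x - y‖ := norm_fst_le (x - y)
    have n2 : |x.2 - y.2| ≤ ‖x - y‖ := norm_snd_le (x - y)
    have h4 : dmd ws A k x y ≤
        ∑ i ∈ Finset.range k, (A i).om * |md ws A k i x.1 x.2 - md ws A k i y.1 x.2| +
        ∑ i ∈ Finset.range k, (A i).om * |md ws A k i y.1 x.2 - md ws A k i y.1 y.2| := by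
      unfold dmd
      rw [← Finset.sum_add_distrib]
      refine Finset.sum_le_sum fun i hi => ?_
      rw [← mul_add]
      exact mul_le_mul_of_nonneg_left (abs_sub_le _ _ _) (hA i (Finset.mem_range.1 hi)).le
    have h5 : 2 * Wt ws A k * |x.2 - y.2| ≤ 4 * ws * ‖x - y‖ := by
      have : 2 * Wt ws A k ≤ 4 * ws := by linarith
      gcongr
    have h6 : (((1:ℕ):ℝ)) * (8 * ws) * |x.1 - y.1| ≤ 8 * ws * ‖x - y‖ := by
      rw [Nat.cast_one, one_mul]
      gcongr
    linarith
  · have key : ∀ z : ℝ × ℝ, z ∈ Rct → Dead z → ∀ i < k, md ws A k i z.1 z.2 = 0 := by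
      intro z hz hdz i hi
      obtain ⟨x, hx, y, hy, e1, e2, e3, e4, e5, e6, e7⟩ := hE.ends i hi
      have g := hP.good i hi
      rcases hdz with h | h | h
      · refine md_off h0 hA (g.lam_zero_left ?_) _ hz.2.2
        rw [e1]; linarith [hO.lo x hx]
      · refine md_off h0 hA (g.lam_zero_right ?_) _ hz.2.2
        rw [e3]; linarith [hO.hi y hy]
      · refine md_low h0 hA _ _ _ (h.trans ?_)
        rw [le_div_iff₀ hWt0]; linarith
    unfold dmd
    refine Finset.sum_eq_zero fun i hi => ?_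
    rw [Finset.mem_range] at hi
    rw [key x hx hdx i hi, key y hy hdy i hi, sub_zero, abs_zero, mul_zero]

end

open PosIn

/-- the collapse of the boundary of a face: `pi` is constant on the middle intervals and injective
elsewhere -/
structure Clp {E : Type*} [NormedAddCommGroup E] [NormedSpace ℝ E] (n : ℕ) (v : ℕ → E)
    (X : Finset E) (s2 s3 : E → ℝ) (pi : E → E) : Prop where
  cont : ContinuousOn pi (cv n v '' Icc (0:ℝ) n)
  con : ConicalOn pi (cv n v '' Icc (0:ℝ) n)
  im : pi '' (cv n v '' Icc (0:ℝ) n) = cv n v '' Icc (0:ℝ) n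
  const : ∀ x ∈ X, ∀ T ∈ Icc (s2 x) (s3 x), pi (cv n v T) = x
  inj : ∀ y ∈ cv n v '' Icc (0:ℝ) n, ∀ z ∈ cv n v '' Icc (0:ℝ) n, pi y = pi z → y = z ∨
    ∃ x ∈ X, (∃ T ∈ Icc (s2 x) (s3 x), cv n v T = y) ∧ ∃ T ∈ Icc (s2 x) (s3 x), cv n v T = z

variable {E : Type*} [NormedAddCommGroup E] [NormedSpace ℝ E]

/-- **EDGE-DATA for one face.** -/
theorem Star.exists_bd {n : ℕ} {v : ℕ → E} {O : E} {rho R : ℝ} {F : Set E}
    (hS : Star n v O rho R F) {X : Finset E} {s1 s2 s3 s4 om : E → ℝ} {ze : E → ℝ → ℝ}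
    (P : PosIn n X s1 s2 s3 s4 om ze) {pi : E → E} (hC : Clp n v X s2 s3 pi) {Al : Type*}
    {S : Al → Set E} (hSX : ∀ x, (∃ α, x ∈ S α ∩ cv n v '' Icc (0:ℝ) n) ↔ x ∈ X) {ws : ℝ}
    (hws : 0 < ws) (h1 : ∑ x ∈ X, om x ≤ ws) (h2 : X.Nonempty → ws ≤ 2 * ∑ x ∈ X, om x) :
    ∃ (χ : ConHomeo F Rct) (l r : E → ℝ), χ.toFun '' (cv n v '' Icc (0:ℝ) n) = bR ∧
      BdData (cv n v '' Icc (0:ℝ) n) S (fun z => pi (χ.invFun z)) l r ∧
      PosOut X l r om ws ∧
      (∀ x ∈ X, ∀ T ∈ Icc (s2 x) (s3 x),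
        χ.toFun (cv n v T) = (l x + (r x - l x) * ze x T, 1)) ∧
      ∀ (k : ℕ) (A : ℕ → ArcD), Pos k A → Ends k A X l r om →
        ∑ i ∈ Finset.range k, (A i).om ≤ ws → ∀ j < n, ∀ La : ℝ, 0 ≤ La →
        (∀ x ∈ X, ((j : ℝ) ≤ s1 x ∧ s4 x ≤ j + 1 ∧
          om x ≤ La * ‖v (j + 1) - v j‖ * (s2 x - s1 x) ∧
          om x ≤ La * ‖v (j + 1) - v j‖ * (s4 x - s3 x) ∧
          ∀ T ∈ Icc (s2 x) (s3 x), ∀ T' ∈ Icc (s2 x) (s3 x), T ≤ T' →
            om x * (ze x T' - ze x T) ≤ La * ‖v (j + 1) - v j‖ * (T' - T)) ∨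
          s4 x ≤ j ∨ (j : ℝ) + 1 ≤ s1 x) →
        ∀ x ∈ coneSetAt O (segment ℝ (v j) (v (j + 1))),
        ∀ y ∈ coneSetAt O (segment ℝ (v j) (v (j + 1))),
          dmd ws A k (χ.toFun x) (χ.toFun y) ≤
            156 * (1 + R / rho) * (La + ws / rho) * ‖x - y‖ := by
  classical
  have hn := hS.hn
  have hn0 : (0:ℝ) < n := by exact_mod_cast hn
  have hrho := hS.rho0
  -- the lengths of the edges
  have hne : ∀ j < n, 0 < ‖v (j + 1) - v j‖ := by
    intro j hj
    rw [norm_pos_iff, sub_ne_zero]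
    intro h
    have k1 : cv n v j = cv n v (j + 1 / 2) := by
      rw [cv_eq v hj (by linarith) (by linarith), cv_eq v hj (by linarith) (by linarith), h]
      simp
    have k2 : (j : ℝ) + 1 ≤ n := by exact_mod_cast hj
    have := hS.inj (⟨Nat.cast_nonneg j, by linarith⟩ : (j:ℝ) ∈ Ico (0:ℝ) n)
      (⟨by positivity, by linarith⟩ : (j:ℝ) + 1 / 2 ∈ Ico (0:ℝ) n) k1
    linarith
  -- the constants `ep`, `nu`
  obtain ⟨e0, he0, he0'⟩ : ∃ e0 > 0, ∀ j < n, e0 ≤ ‖v (j + 1) - v j‖ := by
    obtain ⟨j0, hj0, hmin⟩ := Finset.exists_min_image (Finset.range n)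
      (fun j => ‖v (j + 1) - v j‖) ⟨0, Finset.mem_range.2 hn⟩
    exact ⟨_, hne j0 (Finset.mem_range.1 hj0), fun j hj => hmin j (Finset.mem_range.2 hj)⟩
  obtain ⟨nu, hnu, hL, hn1, hn4⟩ : ∃ nu > 0, 2 * nu < (n:ℝ) ∧ (∀ x ∈ X, nu ≤ s1 x) ∧
      ∀ x ∈ X, s4 x ≤ n - nu := by
    have key : ∀ Y : Finset E, Y ⊆ X → ∃ nu > 0, 2 * nu < (n:ℝ) ∧ (∀ x ∈ Y, nu ≤ s1 x) ∧
        ∀ x ∈ Y, s4 x ≤ n - nu := by
      intro Y
      induction Y using Finset.induction_on with
      | empty => exact fun _ => ⟨n / 4, by positivity, by linarith, by simp, by simp⟩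
      | insert x Y hx ih =>
        intro hY
        obtain ⟨nu, g1, g2, g3, g4⟩ := ih fun y hy => hY (Finset.mem_insert_of_mem hy)
        have hxX := hY (Finset.mem_insert_self x Y)
        have b1 := P.a1 x hxX
        have b2 := P.a5 x hxX
        refine ⟨min nu (min (s1 x) (n - s4 x)), lt_min g1 (lt_min b1 (by linarith)), ?_, ?_, ?_⟩
        · have := min_le_left nu (min (s1 x) (n - s4 x))
          linarith
        · intro y hy
          rcases Finset.mem_insert.1 hy with rfl | hy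
          · exact (min_le_right _ _).trans (min_le_left _ _)
          · exact (min_le_left _ _).trans (g3 y hy)
        · intro y hy
          rcases Finset.mem_insert.1 hy with rfl | hy
          · have : min nu (min (s1 y) (n - s4 y)) ≤ n - s4 y :=
              (min_le_right _ _).trans (min_le_right _ _)
            linarith
          · have := min_le_left nu (min (s1 x) (n - s4 x))
            linarith [g4 y hy]
    exact key X subset_rfl
  set ep : ℝ := min (ws / n) (ws * e0 / rho) with hep_def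
  have hep : 0 < ep := lt_min (by positivity) (by positivity)
  have hep1 : ep * n ≤ ws := by
    have : ep ≤ ws / n := min_le_left _ _
    calc ep * n ≤ ws / n * n := by gcongr
      _ = ws := by field_simp
  have hep2 : ∀ j < n, ep / ‖v (j + 1) - v j‖ ≤ ws / rho := by
    intro j hj
    have h3 : ep ≤ ws * e0 / rho := min_le_right _ _
    rw [div_le_iff₀ (hne j hj)]
    calc ep ≤ ws * e0 / rho := h3
      _ = ws / rho * e0 := by ring
      _ ≤ ws / rho * ‖v (j + 1) - v j‖ := by gcongr; exact he0' j hj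
  obtain ⟨χ, hχ⟩ := hS.exists_chart P hep hnu hL
  have hχb : ∀ T ∈ Icc (0:ℝ) n, χ.toFun (cv n v T) =
      usq.toFun (pb (tau n X s1 s2 s3 s4 om ze ep nu T)) := fun T hT => chart_bd hχ hT
  have hTot := P.Tot_pos hep hL
  have hTle := P.Tot_le hep hnu hL hn1 hn4
  have hmono := P.tau_strictMono hep hnu hL
  set ta := tau (n:ℝ) X s1 s2 s3 s4 om ze ep nu with hta
  set To := Tot (n:ℝ) X s1 s2 s3 s4 om ze ep nu with hTo
  have hTo6 : To ≤ 6 * ws := by linarith
  have ht0 : ta 0 = 0 := tau_zero hnu hL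
  have htn : ta n = 4 := P.tau_last hep hnu hL
  -- positions
  set l : E → ℝ := fun x => ta (s2 x) - 3 / 2 with hl
  set r : E → ℝ := fun x => ta (s3 x) - 3 / 2 with hr
  have hmid : ∀ T : ℝ, nu ≤ T → T ≤ n - nu → 13 / 8 ≤ ta T ∧ ta T ≤ 19 / 8 := by
    intro T h3 h4
    have g0 := P.au_nonneg hep hL T
    have g1 := P.au_le_one hep hL T
    rw [hta, tau_mid hnu h3 h4]
    constructor <;> linarith
  have hT23 : ∀ x ∈ X, ∀ T ∈ Icc (s2 x) (s3 x), nu ≤ T ∧ T ≤ n - nu := by
    intro x hx T hT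
    have := hn1 x hx
    have := hn4 x hx
    have := P.a2 x hx
    have := P.a4 x hx
    exact ⟨by linarith [hT.1], by linarith [hT.2]⟩
  have hsub : ∀ x ∈ X, ∀ T ∈ Icc (s2 x) (s3 x), ta T = ta (s2 x) + 3 / 4 * om x / To * ze x T :=
    fun x hx T hT => P.tau_sub hep hnu hL hx (hn1 x hx) (hn4 x hx) hT
  have hw : ∀ x ∈ X, r x - l x = 3 / 4 * om x / To := by
    intro x hx
    have := hsub x hx (s3 x) ⟨(P.a3 x hx).le, le_refl _⟩
    rw [P.z1 x hx _ le_rfl, mul_one] at this
    simp only [hl, hr]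
    linarith
  have hwpos : ∀ x ∈ X, 0 < r x - l x := by
    intro x hx
    rw [hw x hx]
    have := P.om0 x hx
    positivity
  have hO : PosOut X l r om ws := by
    refine ⟨fun x hx => ?_, fun x hx => ?_, fun x hx => ?_, fun x hx => ?_,
      fun x hx y hy hxy => ?_⟩
    · have h3 := hT23 x hx (s2 x) ⟨le_refl _, (P.a3 x hx).le⟩
      have := (hmid _ h3.1 h3.2).1
      simp only [hl]; linarith
    · linarith [hwpos x hx]
    · have h3 := hT23 x hx (s3 x) ⟨(P.a3 x hx).le, le_refl _⟩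
      have := (hmid _ h3.1 h3.2).2
      simp only [hr]; linarith
    · rw [hw x hx]
      have hom := P.om0 x hx
      rw [← mul_div_assoc, le_div_iff₀ hTot]
      have := mul_le_mul_of_nonneg_left hTo6 hom.le
      linarith
    · rcases P.dis x hx y hy hxy with h3 | h3
      · left
        have := P.tau_gap hep hnu hL hx hy (hn1 x hx) (hn4 y hy) h3
        rw [hw x hx, hw y hy]
        simp only [hl, hr]
        linarith
      · right
        have := P.tau_gap hep hnu hL hy hx (hn1 y hy) (hn4 x hx) h3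
        rw [hw x hx, hw y hy]
        simp only [hl, hr]
        linarith
  have hform : ∀ x ∈ X, ∀ T ∈ Icc (s2 x) (s3 x),
      χ.toFun (cv n v T) = (l x + (r x - l x) * ze x T, 1) := by
    intro x hx T hT
    have h3 := hT23 x hx T hT
    have h4 := hmid T h3.1 h3.2
    rw [hχb T ⟨by linarith, by linarith⟩, pb_c (by linarith) (by linarith),
      usq_top ⟨by linarith, by linarith⟩, hw x hx, hsub x hx T hT]
    refine Prod.ext ?_ rfl
    simp only [hl]
    ring
  have hbR : χ.toFun '' (cv n v '' Icc (0:ℝ) n) = bR := by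
    have h3 : ∀ T ∈ Icc (0:ℝ) n, ta T ∈ Icc (0:ℝ) 4 := by
      intro T hT
      have g1 := hmono.monotoneOn ⟨le_refl _, hn0.le⟩ hT hT.1
      have g2 := hmono.monotoneOn hT ⟨hn0.le, le_refl _⟩ hT.2
      rw [ht0] at g1
      rw [htn] at g2
      exact ⟨g1, g2⟩
    refine Subset.antisymm ?_ ?_
    · rintro _ ⟨_, ⟨T, hT, rfl⟩, rfl⟩
      rw [hχb T hT]
      have h5 := pb_mem (h3 T hT).1 (h3 T hT).2
      exact (usq_bR h5.1).2 h5
    · intro z hz
      have hz' : sqm z ∈ bR := (sqm_bR hz.1).2 hz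
      rw [← pb_image] at hz'
      obtain ⟨t, ht, htz⟩ := hz'
      have h5 : Icc (ta 0) (ta n) ⊆ ta '' Icc (0:ℝ) n :=
        intermediate_value_Icc hn0.le (P.continuous_tau (ep := ep) (nu := nu)).continuousOn
      rw [ht0, htn] at h5
      obtain ⟨T, hT, hTt⟩ := h5 ht
      refine ⟨cv n v T, mem_image_of_mem _ hT, ?_⟩
      rw [hχb T hT, hTt, htz, usq_sqm hz.1]
  have hBF : cv n v '' Icc (0:ℝ) n ⊆ F := hS.bd_sub
  have hinv : ∀ z ∈ bR, χ.invFun z ∈ cv n v '' Icc (0:ℝ) n ∧ χ.toFun (χ.invFun z) = z := by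
    intro z hz
    have hz2 := hz
    rw [← hbR] at hz2
    obtain ⟨y, hy, rfl⟩ := hz2
    rw [χ.left_inv (hBF hy)]
    exact ⟨hy, rfl⟩
  refine ⟨χ, l, r, hbR, ?_, hO, hform, ?_⟩
  · -- boundary data
    have hsubR : bR ⊆ Rct := fun z hz => hz.1
    have hcbR : ConicalSet bR := by
      rw [← pb_image]
      have h3 : ConHomeo (cv n v '' Icc (0:ℝ) n) bR :=
        (χ.restr hC.con.conicalSet hBF).cast rfl hbR
      rw [pb_image]
      exact h3.conicalSet_right
    have hmaps : MapsTo χ.invFun bR (cv n v '' Icc (0:ℝ) n) := fun z hz => (hinv z hz).1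
    refine ⟨?_, ?_, ?_, ?_, ?_, ?_, ?_, ?_⟩
    · exact hC.cont.comp (χ.cont_inv.mono hsubR) hmaps
    · exact ConicalOn.comp hC.con (χ.conical_inv.mono hcbR hsubR) hmaps (χ.cont_inv.mono hsubR)
    · have h3 : χ.invFun '' bR = cv n v '' Icc (0:ℝ) n := by
        refine Subset.antisymm (image_subset_iff.2 hmaps) fun y hy => ?_
        exact ⟨χ.toFun y, hbR ▸ mem_image_of_mem _ hy, χ.left_inv (hBF hy)⟩
      rw [← image_image, h3, hC.im]
    · intro α x hx
      have hxX := (hSX x).1 ⟨α, hx⟩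
      exact ⟨by linarith [hO.lo x hxX], hO.lr x hxX, by linarith [hO.hi x hxX]⟩
    · intro α x hx a ha
      have hxX := (hSX x).1 ⟨α, hx⟩
      -- the parameter
      have h5 : Icc (ta (s2 x)) (ta (s3 x)) ⊆ ta '' Icc (s2 x) (s3 x) :=
        intermediate_value_Icc (P.a3 x hxX).le
          (P.continuous_tau (ep := ep) (nu := nu)).continuousOn
      obtain ⟨T, hT, hTa⟩ := h5 (show a + 3 / 2 ∈ Icc (ta (s2 x)) (ta (s3 x)) by
        simp only [hl, hr] at ha
        exact ⟨by linarith [ha.1], by linarith [ha.2]⟩)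
      have h6 := hT23 x hxX T hT
      have h7 := hmid T h6.1 h6.2
      have hTn : T ∈ Icc (0:ℝ) n := ⟨by linarith, by linarith⟩
      have h8 : χ.toFun (cv n v T) = (a, 1) := by
        rw [hχb T hTn, pb_c (by linarith) (by linarith), usq_top ⟨by linarith, by linarith⟩, hTa]
        norm_num
      show pi (χ.invFun (a, 1)) = x
      rw [← h8, χ.left_inv (hBF (mem_image_of_mem _ hTn))]
      exact hC.const x hxX T hT
    · intro y hy z hz hyz
      rcases hC.inj _ (hinv y hy).1 _ (hinv z hz).1 hyz with h3 | ⟨x, hxX, ⟨T, hT, hTy⟩, T', hT',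
        hTz⟩
      · left
        rw [← (hinv y hy).2, ← (hinv z hz).2, h3]
      · right
        obtain ⟨α, hα⟩ := (hSX x).2 hxX
        refine ⟨α, x, hα, ?_, ?_⟩
        · have h4 := hform x hxX T hT
          rw [hTy, (hinv y hy).2] at h4
          have z1 := (P.zm x hxX).monotoneOn ⟨le_refl _, (P.a3 x hxX).le⟩ hT hT.1
          have z2 := (P.zm x hxX).monotoneOn hT ⟨(P.a3 x hxX).le, le_refl _⟩ hT.2
          rw [P.z0 x hxX _ le_rfl] at z1
          rw [P.z1 x hxX _ le_rfl] at z2
          rw [h4]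
          have := hwpos x hxX
          have k1 := mul_nonneg this.le z1
          have k2 := mul_le_mul_of_nonneg_left z2 this.le
          exact ⟨⟨by show l x ≤ _; linarith, by show _ ≤ r x; linarith⟩, rfl⟩
        · have h4 := hform x hxX T' hT'
          rw [hTz, (hinv z hz).2] at h4
          have z1 := (P.zm x hxX).monotoneOn ⟨le_refl _, (P.a3 x hxX).le⟩ hT' hT'.1
          have z2 := (P.zm x hxX).monotoneOn hT' ⟨(P.a3 x hxX).le, le_refl _⟩ hT'.2
          rw [P.z0 x hxX _ le_rfl] at z1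
          rw [P.z1 x hxX _ le_rfl] at z2
          rw [h4]
          have := hwpos x hxX
          have k1 := mul_nonneg this.le z1
          have k2 := mul_le_mul_of_nonneg_left z2 this.le
          exact ⟨⟨by show l x ≤ _; linarith, by show _ ≤ r x; linarith⟩, rfl⟩
    · intro α x hx y hy hlt
      have hxX := (hSX x).1 ⟨α, hx⟩
      have hyX := (hSX y).1 ⟨α, hy⟩
      have h3 := hO.gap' hxX hyX hlt
      have := hwpos x hxX
      have := hwpos y hyX
      linarith
    · intro α β _ _ x hx y hy hlt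
      have hxX := (hSX x).1 ⟨α, hx⟩
      have hyX := (hSX y).1 ⟨β, hy⟩
      have h3 := hO.gap' hxX hyX hlt
      have := hwpos x hxX
      have := hwpos y hyX
      constructor <;> linarith
  · -- the metric estimate
    intro k A hP hE hsum j hj La hLa hX x hx y hy
    have hd := pmet_dmd hO hP hE hws hsum
    have he := hne j hj
    have hR0 : 0 ≤ R := (norm_nonneg _).trans (hS.norm_cv_le ⟨le_refl _, hn0.le⟩)
    rcases Finset.eq_empty_or_nonempty X with hXe | hXn
    · -- no crossing points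
      have hk : k = 0 := by
        rcases Nat.eq_zero_or_pos k with h | h
        · exact h
        · obtain ⟨x, hx, -⟩ := hE.ends 0 h
          rw [hXe] at hx
          exact absurd hx (Finset.notMem_empty x)
      subst hk
      have h0 : dmd ws A 0 (χ.toFun x) (χ.toFun y) = 0 := by
        unfold dmd; simp
      rw [h0]
      positivity
    · have h3 := h2 hXn
      have hT5 : 5 / 2 * ws ≤ To := by
        have := P.Tot_ge hep hL hn1 hn4
        linarith
      set M : ℝ := 2 * (La * ‖v (j + 1) - v j‖) with hM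
      have hM0 : 0 ≤ M := by positivity
      set K : ℝ := 3 / 4 * ((ep + M) / To) / ‖v (j + 1) - v j‖ with hK
      have hK0 : 0 ≤ K := by positivity
      have hau : ∀ T ∈ Icc (j:ℝ) (j + 1), ∀ T' ∈ Icc (j:ℝ) (j + 1),
          3 / 4 * |au n X s1 s2 s3 s4 om ze ep nu T - au n X s1 s2 s3 s4 om ze ep nu T'| ≤
            K * (‖v (j + 1) - v j‖ * |T - T'|) := by
        intro T hT T' hT'
        have h4 := P.abs_au_sub_le hep hL hM0 (fun x hx => by
          rcases hX x hx with ⟨g1, g2, g3, g4, g5⟩ | g | g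
          · left
            refine ⟨g1, g2, by rw [hM]; linarith, by rw [hM]; linarith, fun T hT T' hT' hTT => ?_⟩
            refine (g5 T hT T' hT' hTT).trans ?_
            rw [hM]
            have : 0 ≤ La * ‖v (j + 1) - v j‖ * (T' - T) :=
              mul_nonneg (by positivity) (sub_nonneg.2 hTT)
            linarith
          · exact Or.inr (Or.inl g)
          · exact Or.inr (Or.inr g)) hT hT'
        have e : K * (‖v (j + 1) - v j‖ * |T - T'|) = 3 / 4 * ((ep + M) / To * |T - T'|) := by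
          rw [hK]; field_simp
        rw [e]
        gcongr
      refine (hS.metric P hep hnu hL hχ hd hj hK0 hau hx hy).trans ?_
      -- the constants
      have hKb : K ≤ 3 / 10 * (ws / rho + 2 * La) / ws := by
        have e1 : K = 3 / 4 * (ep / ‖v (j + 1) - v j‖ + 2 * La) / To := by
          rw [hK, hM]; field_simp
        rw [e1, div_le_div_iff₀ hTot hws]
        have h4 := hep2 j hj
        have h5 : 0 ≤ ep / ‖v (j + 1) - v j‖ + 2 * La := by positivity
        calc 3 / 4 * (ep / ‖v (j + 1) - v j‖ + 2 * La) * ws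
            ≤ 3 / 4 * (ep / ‖v (j + 1) - v j‖ + 2 * La) * (2 / 5 * To) := by
              gcongr; linarith
          _ ≤ 3 / 4 * (ws / rho + 2 * La) * (2 / 5 * To) := by gcongr
          _ = 3 / 10 * (ws / rho + 2 * La) * To := by ring
      have hR1 : 0 ≤ R / rho := by positivity
      have h6 : 6 * (20 * ws) * (K * (1 + R / rho) + 1 / rho) ≤
          156 * (1 + R / rho) * (La + ws / rho) := by
        calc 6 * (20 * ws) * (K * (1 + R / rho) + 1 / rho)
            ≤ 6 * (20 * ws) * (3 / 10 * (ws / rho + 2 * La) / ws * (1 + R / rho) + 1 / rho) := by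
              gcongr
          _ = 36 * (ws / rho + 2 * La) * (1 + R / rho) + 120 * (ws / rho) := by
              field_simp; ring
          _ ≤ 156 * (1 + R / rho) * (La + ws / rho) := by
              have g1 : 0 ≤ ws / rho := by positivity
              have g2 : 0 ≤ R / rho * (ws / rho) := by positivity
              have g3 : 0 ≤ R / rho * La := by positivity
              nlinarith
      gcongr

end P073.H155
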