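import Vale.Agent.P073.H155.Tau

/-!
# P073, H155 (EDGE-DATA): the chart of a face
-/

open Set Metric Topology Filter

set_option autoImplicit false

namespace P073.H155

open P073.H31

variable {E : Type*} [NormedAddCommGroup E] [NormedSpace ℝ E]

/-- A closed polygon `v 0, ..., v n = v 0`, a centre `O`; the set `F` is the cone over the polygon
with apex `O`; `rho`: inner radius, `R`: outer radius. -/
structure Star (n : ℕ) (v : ℕ → E) (O : E) (rho R : ℝ) (F : Set E) : Prop where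
  hn : 0 < n
  clo : v n = v 0
  inj : InjOn (cv n v) (Ico (0:ℝ) n)
  rho0 : 0 < rho
  R : ∀ i ≤ n, ‖v i - O‖ ≤ R
  sup : ∀ i < n, ∃ l : E →L[ℝ] ℝ, l (v i - O) = 1 ∧ l (v (i + 1) - O) = 1 ∧
    (∀ j ≤ n, l (v j - O) ≤ 1) ∧ ∀ x ∈ F, ∀ y ∈ F, |l (x - y)| ≤ ‖x - y‖ / rho
  cone : coneSetAt O (cv n v '' Icc (0:ℝ) n) = F

namespace Star

variable {n : ℕ} {v : ℕ → E} {O : E} {rho R : ℝ} {F : Set E}

/-- every parameter lies on an edge -/
theorem exists_edge {n : ℕ} (hn : 0 < n) {T : ℝ} (hT : T ∈ Icc (0:ℝ) n) :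
    ∃ j < n, (j : ℝ) ≤ T ∧ T ≤ j + 1 := by
  rcases hT.2.eq_or_lt with h | h
  · refine ⟨n - 1, by omega, ?_, ?_⟩
    · rw [h]; exact_mod_cast Nat.sub_le n 1
    · rw [h, Nat.cast_sub (by omega)]; simp
  · refine ⟨⌊T⌋₊, (Nat.floor_lt hT.1).2 h, Nat.floor_le hT.1, (Nat.lt_floor_add_one T).le⟩

theorem edge_mem {j : ℕ} (hj : j < n) {T : ℝ} (h0 : (j : ℝ) ≤ T) (h1 : T ≤ j + 1) :
    T ∈ Icc (0:ℝ) n := by
  have : ((j : ℝ) + 1) ≤ n := by exact_mod_cast hj
  exact ⟨(Nat.cast_nonneg j).trans h0, h1.trans this⟩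

theorem l_cv {j : ℕ} (hj : j < n) {T : ℝ} (h0 : (j : ℝ) ≤ T) (h1 : T ≤ j + 1)
    (l : E →L[ℝ] ℝ) : l (cv n v T - O) =
      (1 - (T - j)) * l (v j - O) + (T - j) * l (v (j + 1) - O) := by
  rw [cv_eq v hj h0 h1]
  simp only [map_sub, map_add, map_smul, smul_eq_mul]
  ring

theorem exists_l (hS : Star n v O rho R F) {j : ℕ} (hj : j < n) :
    ∃ l : E →L[ℝ] ℝ, (∀ T : ℝ, (j : ℝ) ≤ T → T ≤ j + 1 → l (cv n v T - O) = 1) ∧
      (∀ T ∈ Icc (0:ℝ) n, l (cv n v T - O) ≤ 1) ∧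
      ∀ x ∈ F, ∀ y ∈ F, |l (x - y)| ≤ ‖x - y‖ / rho := by
  obtain ⟨l, h1, h2, h3, h4⟩ := hS.sup j hj
  refine ⟨l, fun T k0 k1 => ?_, fun T hT => ?_, h4⟩
  · rw [l_cv hj k0 k1, h1, h2]; ring
  · obtain ⟨i, hi, k0, k1⟩ := exists_edge hS.hn hT
    rw [l_cv hi k0 k1]
    have g1 := h3 i hi.le
    have g2 := h3 (i + 1) hi
    have := mul_le_mul_of_nonneg_left g1 (show 0 ≤ 1 - (T - i) by linarith)
    have := mul_le_mul_of_nonneg_left g2 (show 0 ≤ T - i by linarith)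
    linarith

theorem norm_cv_le (hS : Star n v O rho R F) {T : ℝ} (hT : T ∈ Icc (0:ℝ) n) :
    ‖cv n v T - O‖ ≤ R := by
  obtain ⟨i, hi, k0, k1⟩ := exists_edge hS.hn hT
  have e : cv n v T - O = (1 - (T - i)) • (v i - O) + (T - i) • (v (i + 1) - O) := by
    rw [cv_eq v hi k0 k1]; module
  rw [e]
  refine (norm_add_le _ _).trans ?_
  rw [norm_smul, norm_smul, Real.norm_of_nonneg (by linarith), Real.norm_of_nonneg (by linarith)]
  have g1 := mul_le_mul_of_nonneg_left (hS.R i hi.le) (show 0 ≤ 1 - (T - i) by linarith)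
  have g2 := mul_le_mul_of_nonneg_left (hS.R (i + 1) hi) (show 0 ≤ T - i by linarith)
  linarith

theorem isCompact_bd : IsCompact (cv n v '' Icc (0:ℝ) n) :=
  isCompact_Icc.image (continuous_cv n v)

theorem rayBase (hS : Star n v O rho R F) : RayBaseAt O (cv n v '' Icc (0:ℝ) n) := by
  rw [rayBaseAt_iff]
  have key : ∀ T ∈ Icc (0:ℝ) n, ∀ s : ℝ, 0 < s → ∀ T' ∈ Icc (0:ℝ) n,
      O + s • (cv n v T - O) = cv n v T' → s ≤ 1 := by
    intro T hT s hs T' hT' he
    obtain ⟨j, hj, k0, k1⟩ := exists_edge hS.hn hT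
    obtain ⟨l, h1, h2, -⟩ := hS.exists_l hj
    have h3 := h2 T' hT'
    rw [← he, add_sub_cancel_left, map_smul, smul_eq_mul, h1 T k0 k1, mul_one] at h3
    exact h3
  refine ⟨isCompact_bd, ?_, ?_⟩
  · rintro ⟨T, hT, hTO⟩
    obtain ⟨j, hj, k0, k1⟩ := exists_edge hS.hn hT
    obtain ⟨l, h1, -, -⟩ := hS.exists_l hj
    have h3 := h1 T k0 k1
    rw [hTO, sub_self, map_zero] at h3
    exact zero_ne_one h3
  · rintro _ ⟨T, hT, rfl⟩ s hs ⟨T', hT', he⟩
    have h1 := key T hT s hs T' hT' he.symm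
    have h2 := key T' hT' s⁻¹ (inv_pos.2 hs) T hT (by
      rw [he, add_sub_cancel_left, smul_smul, inv_mul_cancel₀ hs.ne', one_smul]; abel)
    have h3 : 1 ≤ s := by
      by_contra hlt
      push Not at hlt
      have := (one_lt_inv₀ hs).2 hlt
      linarith
    exact le_antisymm h1 h3

theorem bd_sub (hS : Star n v O rho R F) : cv n v '' Icc (0:ℝ) n ⊆ F := by
  intro y hy
  rw [← hS.cone]
  exact ⟨1, ⟨zero_le_one, le_refl _⟩, y, hy, by simp⟩

theorem cv_closed (hS : Star n v O rho R F) : cv n v 0 = cv n v n := by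
  rw [cv_zero v hS.hn, cv_last v hS.hn, hS.clo]

end Star

/-- a pseudometric on the rectangle which is Lipschitz and vanishes on the dead zone -/
structure PMet (Ld : ℝ) (d : ℝ × ℝ → ℝ × ℝ → ℝ) : Prop where
  L0 : 0 ≤ Ld
  nonneg : ∀ x y, 0 ≤ d x y
  symm : ∀ x y, d x y = d y x
  tri : ∀ x y z, d x z ≤ d x y + d y z
  lip : ∀ x ∈ Rct, ∀ y ∈ Rct, d x y ≤ Ld * ‖x - y‖
  dead : ∀ x ∈ Rct, ∀ y ∈ Rct, Dead x → Dead y → d x y = 0

theorem PMet.self {Ld : ℝ} {d : ℝ × ℝ → ℝ × ℝ → ℝ} (hd : PMet Ld d) {x : ℝ × ℝ}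
    (hx : x ∈ Rct) : d x x = 0 := by
  refine le_antisymm ?_ (hd.nonneg x x)
  have := hd.lip x hx x hx
  simpa using this

section

variable {ι : Type*} {X : Finset ι} {s1 s2 s3 s4 om : ι → ℝ} {ze : ι → ℝ → ℝ}
  {n : ℕ} {v : ℕ → E} {O : E} {rho R : ℝ} {F : Set E} {ep nu : ℝ}

open PosIn

/-- **the chart** -/
theorem Star.exists_chart (hS : Star n v O rho R F) (P : PosIn n X s1 s2 s3 s4 om ze)
    (hep : 0 < ep) (hnu : 0 < nu) (hL : 2 * nu < n) :
    ∃ χ : ConHomeo F Rct, ∀ T ∈ Icc (0:ℝ) n, ∀ s ∈ Icc (0:ℝ) 1,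
      χ.toFun (O + s • (cv n v T - O)) =
        usq.toFun (apx + s • (pb (tau n X s1 s2 s3 s4 om ze ep nu T) - apx)) := by
  have hn0 : (0:ℝ) < n := by exact_mod_cast hS.hn
  set g : ℝ → ℝ × ℝ := fun T => pb (tau n X s1 s2 s3 s4 om ze ep nu T) with hg
  have hI : ConicalSet (Icc (0:ℝ) n) := Convex.conicalSet (convex_Icc _ _)
  have hmono := P.tau_strictMono hep hnu hL
  have ht0 : tau n X s1 s2 s3 s4 om ze ep nu 0 = 0 := tau_zero hnu hL
  have htn := P.tau_last hep hnu hL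
  have hmaps : ∀ T ∈ Icc (0:ℝ) n, tau n X s1 s2 s3 s4 om ze ep nu T ∈ Icc (0:ℝ) 4 := by
    intro T hT
    have h1 := hmono.monotoneOn ⟨le_refl _, hn0.le⟩ hT hT.1
    have h2 := hmono.monotoneOn hT ⟨hn0.le, le_refl _⟩ hT.2
    rw [ht0] at h1
    rw [htn] at h2
    exact ⟨h1, h2⟩
  have gi : InjOn g (Ico (0:ℝ) n) := by
    intro T hT T' hT' h
    have e : ∀ T ∈ Ico (0:ℝ) n, tau n X s1 s2 s3 s4 om ze ep nu T ∈ Ico (0:ℝ) 4 := by
      intro T hT
      refine ⟨(hmaps T ⟨hT.1, hT.2.le⟩).1, ?_⟩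
      have := hmono ⟨hT.1, hT.2.le⟩ ⟨hn0.le, le_refl _⟩ hT.2
      rwa [htn] at this
    exact hmono.injOn ⟨hT.1, hT.2.le⟩ ⟨hT'.1, hT'.2.le⟩ (pb_injOn (e T hT) (e T' hT') h)
  have gk : ConicalOn g (Icc (0:ℝ) n) :=
    ConicalOn.comp (Y := Icc (0:ℝ) 4) (conicalOn_pb (Convex.conicalSet (convex_Icc _ _)))
      (P.conicalOn_tau hL hI) hmaps P.continuous_tau.continuousOn
  have g0 : g 0 = g n := by
    simp only [hg]
    rw [ht0, htn, pb_zero]
  have gc : Continuous g := continuous_pb.comp P.continuous_tau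
  have gim : g '' Icc (0:ℝ) n = bR := by
    have h1 : tau n X s1 s2 s3 s4 om ze ep nu '' Icc (0:ℝ) n = Icc (0:ℝ) 4 := by
      refine Subset.antisymm (image_subset_iff.2 hmaps) ?_
      have := intermediate_value_Icc hn0.le
        (P.continuous_tau (ep := ep) (nu := nu)).continuousOn
      rwa [ht0, htn] at this
    have h2 : g '' Icc (0:ℝ) n = pb '' (tau n X s1 s2 s3 s4 om ze ep nu '' Icc (0:ℝ) n) := by
      rw [image_image]
    rw [h2, h1, pb_image]
  obtain ⟨φ, hφ⟩ := exists_circle hn0 (continuous_cv n v).continuousOn (conicalOn_cv n v hI)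
    hS.inj hS.cv_closed gc.continuousOn gk gi g0
  let φ' : ConHomeo (cv n v '' Icc (0:ℝ) n) bR := φ.cast rfl gim
  let H := (ConHomeo.coneAt hS.rayBase rayBase_bR φ').cast hS.cone cone_bR
  refine ⟨H.trans usq, fun T hT s hs => ?_⟩
  rw [ConHomeo.trans_toFun, Function.comp_apply]
  congr 1
  show (ConHomeo.coneAt hS.rayBase rayBase_bR φ').toFun _ = _
  rw [ConHomeo.coneAt_apply _ _ _ hs (mem_image_of_mem _ hT)]
  show apx + s • (φ.toFun (cv n v T) - apx) = _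
  rw [hφ T hT]

/-- the chart on the boundary -/
theorem chart_bd {χ : ConHomeo F Rct} (hχ : ∀ T ∈ Icc (0:ℝ) n, ∀ s ∈ Icc (0:ℝ) 1,
      χ.toFun (O + s • (cv n v T - O)) =
        usq.toFun (apx + s • (pb (tau n X s1 s2 s3 s4 om ze ep nu T) - apx))) {T : ℝ}
    (hT : T ∈ Icc (0:ℝ) n) :
    χ.toFun (cv n v T) = usq.toFun (pb (tau n X s1 s2 s3 s4 om ze ep nu T)) := by
  have := hχ T hT 1 ⟨zero_le_one, le_refl _⟩
  rwa [one_smul, one_smul, add_sub_cancel, add_sub_cancel] at this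

/-- the local metric estimate on the cone over an edge -/
theorem Star.metric (hS : Star n v O rho R F) (P : PosIn n X s1 s2 s3 s4 om ze)
    (hep : 0 < ep) (hnu : 0 < nu) (hL : 2 * nu < n) {χ : ConHomeo F Rct}
    (hχ : ∀ T ∈ Icc (0:ℝ) n, ∀ s ∈ Icc (0:ℝ) 1, χ.toFun (O + s • (cv n v T - O)) =
        usq.toFun (apx + s • (pb (tau n X s1 s2 s3 s4 om ze ep nu T) - apx)))
    {Ld : ℝ} {d : ℝ × ℝ → ℝ × ℝ → ℝ} (hd : PMet Ld d) {j : ℕ} (hj : j < n) {K : ℝ} (hK : 0 ≤ K)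
    (hau : ∀ T ∈ Icc (j:ℝ) (j + 1), ∀ T' ∈ Icc (j:ℝ) (j + 1),
      3 / 4 * |au n X s1 s2 s3 s4 om ze ep nu T - au n X s1 s2 s3 s4 om ze ep nu T'| ≤
        K * (‖v (j + 1) - v j‖ * |T - T'|))
    {x y : E} (hx : x ∈ coneSetAt O (segment ℝ (v j) (v (j + 1))))
    (hy : y ∈ coneSetAt O (segment ℝ (v j) (v (j + 1)))) :
    d (χ.toFun x) (χ.toFun y) ≤ 6 * Ld * (K * (1 + R / rho) + 1 / rho) * ‖x - y‖ := by
  obtain ⟨l, hl1, -, hl3⟩ := hS.exists_l hj
  -- parameters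
  have par : ∀ z ∈ coneSetAt O (segment ℝ (v j) (v (j + 1))), ∃ s ∈ Icc (0:ℝ) 1,
      ∃ T ∈ Icc (j:ℝ) (j + 1), z = O + s • (cv n v T - O) := by
    rintro z ⟨s, hs, y, hy, rfl⟩
    rw [segment_eq_image'] at hy
    obtain ⟨t, ht, rfl⟩ := hy
    refine ⟨s, hs, j + t, ⟨by linarith [ht.1], by linarith [ht.2]⟩, ?_⟩
    rw [cv_eq v hj (by linarith [ht.1]) (by linarith [ht.2]), add_sub_cancel_left]
  -- the modified map
  set b' : ℝ → ℝ × ℝ := fun T => (1 / 8 + 3 / 4 * au n X s1 s2 s3 s4 om ze ep nu T, 1) with hb'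
  have b'mem : ∀ T, b' T ∈ bR := by
    intro T
    have h1 := P.au_nonneg hep hL T
    have h2 := P.au_le_one hep hL T
    refine ⟨⟨⟨?_, ?_⟩, zero_le_one, le_refl _⟩, Or.inr (Or.inr (Or.inr rfl))⟩
    · show (0:ℝ) ≤ 1 / 8 + 3 / 4 * au n X s1 s2 s3 s4 om ze ep nu T; linarith
    · show 1 / 8 + 3 / 4 * au n X s1 s2 s3 s4 om ze ep nu T ≤ (1:ℝ); linarith
  have cmem : ∀ b ∈ bR, ∀ s ∈ Icc (0:ℝ) 1, apx + s • (b - apx) ∈ Rct := by
    intro b hb s hs
    rw [← cone_bR]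
    exact ⟨s, hs, b, hb, rfl⟩
  have tmem : ∀ T ∈ Icc (0:ℝ) n, pb (tau n X s1 s2 s3 s4 om ze ep nu T) ∈ bR := by
    intro T hT
    have hmono := P.tau_strictMono hep hnu hL
    have hn0 : (0:ℝ) ≤ n := Nat.cast_nonneg n
    have h1 := hmono.monotoneOn ⟨le_refl _, hn0⟩ hT hT.1
    have h2 := hmono.monotoneOn hT ⟨hn0, le_refl _⟩ hT.2
    rw [tau_zero hnu hL] at h1
    rw [P.tau_last hep hnu hL] at h2
    exact pb_mem h1 h2
  have zero : ∀ T ∈ Icc (0:ℝ) n, ∀ s ∈ Icc (0:ℝ) 1,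
      d (χ.toFun (O + s • (cv n v T - O))) (usq.toFun (apx + s • (b' T - apx))) = 0 := by
    intro T hT s hs
    rw [hχ T hT s hs]
    have m1 := usq.mapsTo (cmem _ (tmem T hT) s hs)
    have m2 := usq.mapsTo (cmem _ (b'mem T) s hs)
    rcases lt_or_ge T nu with h1 | h1
    · refine hd.dead _ m1 _ m2 (usq_dead (tmem T hT) ?_ hs) (usq_dead (b'mem T) ?_ hs)
      · intro _
        have hu : tau n X s1 s2 s3 s4 om ze ep nu T ≤ 13 / 8 := by
          rw [tau_left hnu hL hT.1 h1.le]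
          have : T / nu ≤ 1 := by rw [div_le_one hnu]; exact h1.le
          linarith
        left
        rcases le_total (tau n X s1 s2 s3 s4 om ze ep nu T) (1 / 2) with k | k
        · exfalso
          rename_i h2
          rw [pb_a k] at h2
          norm_num at h2
        rcases le_total (tau n X s1 s2 s3 s4 om ze ep nu T) (3 / 2) with k' | k'
        · rw [pb_b k k']; norm_num
        · rw [pb_c k' (by linarith)]
          show tau n X s1 s2 s3 s4 om ze ep nu T - 3 / 2 ≤ 1 / 8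
          linarith
      · intro _
        left
        show 1 / 8 + 3 / 4 * au n X s1 s2 s3 s4 om ze ep nu T ≤ 1 / 8
        rw [au_left h1.le]; norm_num
    rcases lt_or_ge (n - nu) T with h2 | h2
    · refine hd.dead _ m1 _ m2 (usq_dead (tmem T hT) ?_ hs) (usq_dead (b'mem T) ?_ hs)
      · intro h3
        have hu : 19 / 8 ≤ tau n X s1 s2 s3 s4 om ze ep nu T := by
          rw [P.tau_right hep hnu hL h2.le hT.2]
          have : 0 ≤ (T - (n - nu)) / nu := div_nonneg (by linarith) hnu.le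
          linarith
        right
        rcases le_total (tau n X s1 s2 s3 s4 om ze ep nu T) (5 / 2) with k | k
        · rw [pb_c (by linarith) k]
          show 7 / 8 ≤ tau n X s1 s2 s3 s4 om ze ep nu T - 3 / 2
          linarith
        rcases le_total (tau n X s1 s2 s3 s4 om ze ep nu T) (7 / 2) with k' | k'
        · rw [pb_d k k']; norm_num
        · exfalso
          rw [pb_e k'] at h3
          norm_num at h3
      · intro _
        right
        show 7 / 8 ≤ 1 / 8 + 3 / 4 * au n X s1 s2 s3 s4 om ze ep nu T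
        rw [P.au_right hep hL h2.le]; norm_num
    · have e : pb (tau n X s1 s2 s3 s4 om ze ep nu T) = b' T := by
        have g0 := P.au_nonneg hep hL T
        have g1 := P.au_le_one hep hL T
        rw [tau_mid hnu h1 h2, pb_c (by linarith) (by linarith)]
        refine Prod.ext ?_ rfl
        show 13 / 8 + 3 / 4 * au n X s1 s2 s3 s4 om ze ep nu T - 3 / 2 =
          1 / 8 + 3 / 4 * au n X s1 s2 s3 s4 om ze ep nu T
        ring
      rw [e]
      exact hd.self m2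
  obtain ⟨s, hs, T, hT, rfl⟩ := par x hx
  obtain ⟨s', hs', T', hT', rfl⟩ := par y hy
  have hTn := Star.edge_mem hj hT.1 hT.2
  have hTn' := Star.edge_mem hj hT'.1 hT'.2
  set x := O + s • (cv n v T - O) with hxdef
  set y := O + s' • (cv n v T' - O) with hydef
  have hxF : x ∈ F := by rw [← hS.cone]; exact ⟨s, hs, _, mem_image_of_mem _ hTn, rfl⟩
  have hyF : y ∈ F := by rw [← hS.cone]; exact ⟨s', hs', _, mem_image_of_mem _ hTn', rfl⟩
  -- the radial coordinate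
  have hss : |s - s'| ≤ ‖x - y‖ / rho := by
    have h1 := hl3 x hxF y hyF
    have h2 : l (x - y) = s - s' := by
      have e1 : l (x - O) = s := by
        rw [hxdef, add_sub_cancel_left, map_smul, hl1 T hT.1 hT.2, smul_eq_mul, mul_one]
      have e2 : l (y - O) = s' := by
        rw [hydef, add_sub_cancel_left, map_smul, hl1 T' hT'.1 hT'.2, smul_eq_mul, mul_one]
      rw [← e1, ← e2, ← map_sub, sub_sub_sub_cancel_right]
    rwa [h2] at h1
  have hR := hS.norm_cv_le hTn'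
  have hR0 : 0 ≤ R := (norm_nonneg _).trans hR
  have hrho := hS.rho0
  -- the tangential coordinate
  have htan : s * ‖cv n v T - cv n v T'‖ ≤ (1 + R / rho) * ‖x - y‖ := by
    have e : s • (cv n v T - cv n v T') = (x - y) - (s - s') • (cv n v T' - O) := by
      rw [hxdef, hydef]; module
    calc s * ‖cv n v T - cv n v T'‖ = ‖s • (cv n v T - cv n v T')‖ := by
          rw [norm_smul, Real.norm_of_nonneg hs.1]
      _ ≤ ‖x - y‖ + ‖(s - s') • (cv n v T' - O)‖ := by rw [e]; exact norm_sub_le _ _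
      _ ≤ ‖x - y‖ + ‖x - y‖ / rho * R := by
          rw [norm_smul, Real.norm_eq_abs]
          gcongr
      _ = (1 + R / rho) * ‖x - y‖ := by ring
  have hcv : ‖cv n v T - cv n v T'‖ = ‖v (j + 1) - v j‖ * |T - T'| := by
    rw [cv_eq v hj hT.1 hT.2, cv_eq v hj hT'.1 hT'.2, add_sub_add_left_eq_sub, ← sub_smul,
      norm_smul, sub_sub_sub_cancel_right, Real.norm_eq_abs, mul_comm]
  have hb : ‖b' T - b' T'‖ ≤ K * (‖v (j + 1) - v j‖ * |T - T'|) := by
    have e : b' T - b' T' = (3 / 4 * (au n X s1 s2 s3 s4 om ze ep nu T -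
        au n X s1 s2 s3 s4 om ze ep nu T'), 0) := by
      refine Prod.ext ?_ ?_
      · show (1 / 8 + 3 / 4 * au n X s1 s2 s3 s4 om ze ep nu T) -
          (1 / 8 + 3 / 4 * au n X s1 s2 s3 s4 om ze ep nu T') = _
        ring
      · show (1:ℝ) - 1 = 0
        ring
    rw [e, Prod.norm_mk, norm_zero, max_eq_left (norm_nonneg _), norm_mul, Real.norm_eq_abs,
      Real.norm_eq_abs, abs_of_nonneg (by norm_num : (0:ℝ) ≤ 3 / 4)]
    exact hau T hT T' hT'
  have hbn : ‖b' T' - apx‖ ≤ 1 := by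
    have h1 := P.au_nonneg hep hL T'
    have h2 := P.au_le_one hep hL T'
    have e : b' T' - apx = (3 / 4 * au n X s1 s2 s3 s4 om ze ep nu T' - 3 / 8, 7 / 8) := by
      refine Prod.ext ?_ ?_
      · show (1 / 8 + 3 / 4 * au n X s1 s2 s3 s4 om ze ep nu T') - 1 / 2 = _
        ring
      · show (1:ℝ) - 1 / 8 = 7 / 8
        norm_num
    rw [e, Prod.norm_mk, Real.norm_eq_abs, Real.norm_eq_abs]
    refine max_le (abs_le.2 ⟨by linarith, by linarith⟩) ?_
    rw [abs_of_nonneg (by norm_num)]; norm_num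
  -- the modified map is Lipschitz
  have hmod : ‖(apx + s • (b' T - apx)) - (apx + s' • (b' T' - apx))‖ ≤
      (K * (1 + R / rho) + 1 / rho) * ‖x - y‖ := by
    have e : (apx + s • (b' T - apx)) - (apx + s' • (b' T' - apx)) =
        s • (b' T - b' T') + (s - s') • (b' T' - apx) := by module
    rw [e]
    refine (norm_add_le _ _).trans ?_
    rw [norm_smul, norm_smul, Real.norm_of_nonneg hs.1, Real.norm_eq_abs]
    have g1 : s * ‖b' T - b' T'‖ ≤ K * ((1 + R / rho) * ‖x - y‖) := by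
      calc s * ‖b' T - b' T'‖ ≤ s * (K * (‖v (j + 1) - v j‖ * |T - T'|)) := by
            gcongr; exact hs.1
        _ = K * (s * ‖cv n v T - cv n v T'‖) := by rw [hcv]; ring
        _ ≤ K * ((1 + R / rho) * ‖x - y‖) := by gcongr
    have g2 : |s - s'| * ‖b' T' - apx‖ ≤ ‖x - y‖ / rho * 1 := by gcongr
    calc s * ‖b' T - b' T'‖ + |s - s'| * ‖b' T' - apx‖
        ≤ K * ((1 + R / rho) * ‖x - y‖) + ‖x - y‖ / rho * 1 := add_le_add g1 g2
      _ = (K * (1 + R / rho) + 1 / rho) * ‖x - y‖ := by ring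
  have z1 := zero T hTn s hs
  have z2 := zero T' hTn' s' hs'
  have mb := cmem _ (b'mem T) s hs
  have mb' := cmem _ (b'mem T') s' hs'
  calc d (χ.toFun x) (χ.toFun y)
      ≤ d (χ.toFun x) (usq.toFun (apx + s • (b' T - apx))) +
        d (usq.toFun (apx + s • (b' T - apx))) (χ.toFun y) := hd.tri _ _ _
    _ ≤ d (χ.toFun x) (usq.toFun (apx + s • (b' T - apx))) +
        (d (usq.toFun (apx + s • (b' T - apx))) (usq.toFun (apx + s' • (b' T' - apx))) +
          d (usq.toFun (apx + s' • (b' T' - apx))) (χ.toFun y)) := by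
        gcongr; exact hd.tri _ _ _
    _ = d (usq.toFun (apx + s • (b' T - apx))) (usq.toFun (apx + s' • (b' T' - apx))) := by
        rw [z1, hd.symm _ (χ.toFun y), z2]; ring
    _ ≤ Ld * ‖usq.toFun (apx + s • (b' T - apx)) - usq.toFun (apx + s' • (b' T' - apx))‖ :=
        hd.lip _ (usq.mapsTo mb) _ (usq.mapsTo mb')
    _ ≤ Ld * (6 * ((K * (1 + R / rho) + 1 / rho) * ‖x - y‖)) := by
        have := hd.L0
        gcongr
        refine (usq_lip mb mb').trans ?_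
        gcongr
    _ = 6 * Ld * (K * (1 + R / rho) + 1 / rho) * ‖x - y‖ := by ring

end

end P073.H155
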