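import Vale.Agent.P073.ConHomeo
import Vale.Agent.P073.H31.PlPat

/-!
# P073, H155 (EDGE-DATA): closed polygons, homeomorphisms between closed conical curves
-/

open Set Metric Topology Filter

set_option autoImplicit false

namespace P073.H155

open P073.H31

variable {E F : Type*} [NormedAddCommGroup E] [NormedSpace ℝ E]
  [NormedAddCommGroup F] [NormedSpace ℝ F]

theorem continuous_cl1 : Continuous cl1 := by
  unfold cl1; fun_prop

theorem conicalOn_cl1 {X : Set E} {a : E → ℝ} (ha : ConicalOn a X) (hac : ContinuousOn a X) :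
    ConicalOn (fun y => cl1 (a y)) X := by
  have hX : ConicalSet X := ha.conicalSet
  unfold cl1
  refine (conicalOn_const (0 : ℝ) hX).rmax ((conicalOn_const (1 : ℝ) hX).rmin ha ?_ hac) ?_ ?_
  · exact continuousOn_const
  · exact continuousOn_const
  · exact ContinuousOn.inf continuousOn_const hac

theorem conicalOn_smul_const {X : Set E} {a : E → ℝ} (ha : ConicalOn a X) (w : F) :
    ConicalOn (fun y => a y • w) X :=
  ha.linear_comp (LinearMap.toSpanSingleton ℝ F w)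

theorem conicalOn_sum {X : Set E} (hX : ConicalSet X) {ι : Type*} (s : Finset ι)
    {f : ι → E → F} (hf : ∀ i ∈ s, ConicalOn (f i) X) : ConicalOn (fun y => ∑ i ∈ s, f i y) X := by
  classical
  induction s using Finset.induction_on with
  | empty => simpa using conicalOn_const (0 : F) hX
  | insert i s hi ih =>
    have h1 : ∀ y, ∑ j ∈ insert i s, f j y = f i y + ∑ j ∈ s, f j y := fun y =>
      Finset.sum_insert hi
    simp only [h1]
    exact (hf i (Finset.mem_insert_self _ _)).add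
      (ih fun j hj => hf j (Finset.mem_insert_of_mem hj))

/-- an affine function of a real variable is conical -/
theorem conicalOn_affR {X : Set ℝ} (hX : ConicalSet X) (a b : ℝ) :
    ConicalOn (fun T : ℝ => a * T + b) X := by
  have h1 : ConicalOn (fun T : ℝ => a • T) X := (conicalOn_id hX).const_smul a
  simpa only [smul_eq_mul] using h1.add (conicalOn_const b hX)

/-- the polygonal curve with vertices `v 0, ..., v n` -/
noncomputable def cv (n : ℕ) (v : ℕ → E) (T : ℝ) : E :=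
  v 0 + ∑ i ∈ Finset.range n, cl1 (T - i) • (v (i + 1) - v i)

theorem continuous_cv (n : ℕ) (v : ℕ → E) : Continuous (cv n v) := by
  unfold cv
  refine continuous_const.add (continuous_finsetSum _ fun i _ => ?_)
  exact (continuous_cl1.comp (by fun_prop)).smul continuous_const

theorem conicalOn_cv (n : ℕ) (v : ℕ → E) {X : Set ℝ} (hX : ConicalSet X) :
    ConicalOn (cv n v) X := by
  unfold cv
  refine (conicalOn_const _ hX).add (conicalOn_sum hX _ fun i _ => ?_)
  refine conicalOn_smul_const (conicalOn_cl1 ?_ (by fun_prop)) _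
  have := conicalOn_affR hX 1 (-(i : ℝ))
  refine this.congr fun T _ => ?_
  ring

theorem cv_eq {n : ℕ} (v : ℕ → E) {j : ℕ} (hj : j < n) {T : ℝ} (h0 : (j : ℝ) ≤ T)
    (h1 : T ≤ j + 1) : cv n v T = v j + (T - j) • (v (j + 1) - v j) := by
  have e1 : ∀ i ∈ Finset.range j, cl1 (T - i) • (v (i + 1) - v i) = v (i + 1) - v i := by
    intro i hi
    have hi' : (i : ℝ) + 1 ≤ j := by exact_mod_cast Finset.mem_range.1 hi
    rw [cl1_eq_one (by linarith), one_smul]
  have e2 : ∀ i ∈ Finset.Ico (j + 1) n, cl1 (T - i) • (v (i + 1) - v i) = 0 := by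
    intro i hi
    have hi' : (j : ℝ) + 1 ≤ i := by exact_mod_cast (Finset.mem_Ico.1 hi).1
    rw [cl1_eq_zero (by linarith), zero_smul]
  unfold cv
  rw [Finset.range_eq_Ico, ← Finset.sum_Ico_consecutive _ (Nat.zero_le (j + 1)) hj,
    Finset.sum_eq_zero e2, add_zero, ← Finset.range_eq_Ico, Finset.sum_range_succ,
    Finset.sum_congr rfl e1, Finset.sum_range_sub, cl1_eq_self (by linarith) (by linarith)]
  abel

theorem cv_zero {n : ℕ} (v : ℕ → E) (hn : 0 < n) : cv n v 0 = v 0 := by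
  rw [cv_eq v hn (by simp) (by simp)]; simp

theorem cv_nat {n : ℕ} (v : ℕ → E) {j : ℕ} (hj : j < n) : cv n v j = v j := by
  rw [cv_eq v hj (le_refl _) (by linarith)]; simp

theorem cv_last {n : ℕ} (v : ℕ → E) (hn : 0 < n) : cv n v n = v n := by
  obtain ⟨m, rfl⟩ : ∃ m, n = m + 1 := ⟨n - 1, by omega⟩
  rw [cv_eq v (Nat.lt_succ_self m) (by push_cast; linarith) (by push_cast; linarith)]
  push_cast
  rw [add_sub_cancel_left, one_smul]
  abel

theorem coinc {G : Type*} {k : ℝ → G} {L m : ℝ} (hm0 : 0 < m) (hmL : m < L)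
    (ki : InjOn k (Ico 0 L)) (k0 : k 0 = k L) {s t : ℝ} (hs : s ∈ Icc 0 m) (ht : t ∈ Icc m L)
    (hst : k s = k t) : (s = m ∧ t = m) ∨ (s = 0 ∧ t = L) := by
  rcases ht.2.eq_or_lt with h | h
  · right
    refine ⟨ki ⟨hs.1, hs.2.trans_lt hmL⟩ ⟨le_refl _, hm0.trans hmL⟩ ?_, h⟩
    rw [hst, h, k0]
  · left
    have h1 := ki ⟨hs.1, hs.2.trans_lt hmL⟩ ⟨hm0.le.trans ht.1, h⟩ hst
    have h2 : s = m := le_antisymm hs.2 (h1 ▸ ht.1)
    exact ⟨h2, h1 ▸ h2⟩

theorem inj_right {G : Type*} {k : ℝ → G} {L m : ℝ} (hm0 : 0 < m) (hmL : m < L)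
    (ki : InjOn k (Ico 0 L)) (k0 : k 0 = k L) : InjOn k (Icc m L) := by
  intro s hs t ht hst
  rcases hs.2.eq_or_lt with h | h <;> rcases ht.2.eq_or_lt with h' | h'
  · rw [h, h']
  · exfalso
    rw [h, ← k0] at hst
    have := ki ⟨le_refl _, hm0.trans hmL⟩ ⟨hm0.le.trans ht.1, h'⟩ hst
    linarith [ht.1]
  · exfalso
    rw [h', ← k0] at hst
    have := ki ⟨hm0.le.trans hs.1, h⟩ ⟨le_refl _, hm0.trans hmL⟩ hst
    linarith [hs.1]
  · exact ki ⟨hm0.le.trans hs.1, h⟩ ⟨hm0.le.trans ht.1, h'⟩ hst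

/-- **Two closed conical curves are homeomorphic** -/
theorem exists_circle {L : ℝ} (hL : 0 < L) {f : ℝ → E} {g : ℝ → F}
    (fc : ContinuousOn f (Icc 0 L)) (fk : ConicalOn f (Icc 0 L)) (fi : InjOn f (Ico 0 L))
    (f0 : f 0 = f L) (gc : ContinuousOn g (Icc 0 L)) (gk : ConicalOn g (Icc 0 L))
    (gi : InjOn g (Ico 0 L)) (g0 : g 0 = g L) :
    ∃ φ : ConHomeo (f '' Icc 0 L) (g '' Icc 0 L), ∀ t ∈ Icc 0 L, φ.toFun (f t) = g t := by
  set m := L / 2 with hm
  have hm0 : 0 < m := by positivity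
  have hmL : m < L := by linarith
  have c1 : Icc 0 m ⊆ Icc 0 L := Icc_subset_Icc le_rfl hmL.le
  have c2 : Icc m L ⊆ Icc 0 L := Icc_subset_Icc hm0.le le_rfl
  have sub1 : Icc 0 m ⊆ Ico 0 L := fun s hs => ⟨hs.1, hs.2.trans_lt hmL⟩
  have k1 : ConicalSet (Icc (0:ℝ) m) := Convex.conicalSet (convex_Icc _ _)
  have k2 : ConicalSet (Icc m L) := Convex.conicalSet (convex_Icc _ _)
  let f1 : ConHomeo (Icc 0 m) (f '' Icc 0 m) := ConHomeo.ofCompact isCompact_Icc f (fc.mono c1)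
    (fi.mono sub1) (fk.mono k1 c1) rfl
  let f2 : ConHomeo (Icc m L) (f '' Icc m L) := ConHomeo.ofCompact isCompact_Icc f (fc.mono c2)
    (inj_right hm0 hmL fi f0) (fk.mono k2 c2) rfl
  let g1 : ConHomeo (Icc 0 m) (g '' Icc 0 m) := ConHomeo.ofCompact isCompact_Icc g (gc.mono c1)
    (gi.mono sub1) (gk.mono k1 c1) rfl
  let g2 : ConHomeo (Icc m L) (g '' Icc m L) := ConHomeo.ofCompact isCompact_Icc g (gc.mono c2)
    (inj_right hm0 hmL gi g0) (gk.mono k2 c2) rfl
  have hf1 : f1.toFun = f := ConHomeo.ofCompact_toFun _ _ _ _ _ _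
  have hf2 : f2.toFun = f := ConHomeo.ofCompact_toFun _ _ _ _ _ _
  have hg1 : g1.toFun = g := ConHomeo.ofCompact_toFun _ _ _ _ _ _
  have hg2 : g2.toFun = g := ConHomeo.ofCompact_toFun _ _ _ _ _ _
  let p1 := f1.symm.trans g1
  let p2 := f2.symm.trans g2
  have hp1 : ∀ t ∈ Icc 0 m, p1.toFun (f t) = g t := by
    intro t ht
    show g1.toFun (f1.invFun (f t)) = g t
    have := f1.left_inv ht
    rw [hf1] at this
    rw [this, hg1]
  have hp2 : ∀ t ∈ Icc m L, p2.toFun (f t) = g t := by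
    intro t ht
    show g2.toFun (f2.invFun (f t)) = g t
    have := f2.left_inv ht
    rw [hf2] at this
    rw [this, hg2]
  have cf1 : IsClosed (f '' Icc 0 m) := (isCompact_Icc.image_of_continuousOn (fc.mono c1)).isClosed
  have cf2 : IsClosed (f '' Icc m L) := (isCompact_Icc.image_of_continuousOn (fc.mono c2)).isClosed
  have cg1 : IsClosed (g '' Icc 0 m) := (isCompact_Icc.image_of_continuousOn (gc.mono c1)).isClosed
  have cg2 : IsClosed (g '' Icc m L) := (isCompact_Icc.image_of_continuousOn (gc.mono c2)).isClosed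
  have hag : EqOn p1.toFun p2.toFun (f '' Icc 0 m ∩ f '' Icc m L) := by
    rintro _ ⟨⟨s, hs, rfl⟩, t, ht, hst⟩
    rw [hp1 s hs, ← hst, hp2 t ht]
    rcases coinc hm0 hmL fi f0 hs ht hst.symm with ⟨h1, h2⟩ | ⟨h1, h2⟩
    · rw [h1, h2]
    · rw [h1, h2, g0]
  have himg : g '' Icc 0 m ∩ g '' Icc m L ⊆ p1.toFun '' (f '' Icc 0 m ∩ f '' Icc m L) := by
    rintro _ ⟨⟨s, hs, rfl⟩, t, ht, hst⟩
    refine ⟨f s, ⟨mem_image_of_mem _ hs, ?_⟩, hp1 s hs⟩
    rcases coinc hm0 hmL gi g0 hs ht hst.symm with ⟨h1, h2⟩ | ⟨h1, h2⟩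
    · exact ⟨t, ht, by rw [h1, h2]⟩
    · exact ⟨t, ht, by rw [h1, h2, f0]⟩
  have hU : Icc 0 m ∪ Icc m L = Icc 0 L := Icc_union_Icc_eq_Icc hm0.le hmL.le
  refine ⟨(ConHomeo.glue p1 p2 cf1 cf2 cg1 cg2 hag himg).cast
    (by rw [← image_union, hU]) (by rw [← image_union, hU]), fun t ht => ?_⟩
  rw [ConHomeo.cast_toFun]
  rw [← hU] at ht
  rcases ht with ht | ht
  · rw [ConHomeo.glue_left _ _ _ _ _ _ _ _ (mem_image_of_mem f ht)]
    exact hp1 t ht
  · rw [ConHomeo.glue_right _ _ _ _ _ _ _ _ (mem_image_of_mem f ht)]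
    exact hp2 t ht

end P073.H155
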