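import Vale.Agent.P073.ConHomeo

/-!
# P073: conical maps descend along conical surjections of compact sets

`ContinuousOn.descend`, `ConicalOn.descend`: if `X` is compact, `π` and `f` are continuous and
conical on `X` and `b ∘ π = f` on `X`, then `b` is continuous and conical on `π '' X`.
`exists_conHomeo_of_ker`: if moreover `π` and `f` have the same fibres, then `π x ↦ f x` is a conical
homeomorphism of `π '' X` onto `f '' X`. Local versions for maps which are proper over a point.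
-/

open Set Metric Topology Filter

set_option autoImplicit false

namespace P073.H155

variable {E F G : Type*} [NormedAddCommGroup E] [NormedSpace ℝ E]
  [NormedAddCommGroup F] [NormedSpace ℝ F] [NormedAddCommGroup G] [NormedSpace ℝ G]

omit [NormedSpace ℝ E] [NormedSpace ℝ F] [NormedSpace ℝ G] in
/-- A map descends to a continuous map along a continuous surjection of a compact set. -/
theorem continuousOn_descend {X : Set E} {Y : Set F} (hX : IsCompact X) {π : E → F} {f : E → G}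
    {b : F → G} (hπ : ContinuousOn π X) (hY : π '' X = Y) (hf : ContinuousOn f X)
    (hb : ∀ x ∈ X, b (π x) = f x) : ContinuousOn b Y := by
  rw [continuousOn_iff_isClosed]
  intro t ht
  have hc : IsClosed (f ⁻¹' t ∩ X) := by
    obtain ⟨u, hu, hu'⟩ := continuousOn_iff_isClosed.1 hf t ht
    rw [hu']
    exact hu.inter hX.isClosed
  have hcomp : IsCompact (f ⁻¹' t ∩ X) := hX.of_isClosed_subset hc inter_subset_right
  refine ⟨π '' (f ⁻¹' t ∩ X), (hcomp.image_of_continuousOn (hπ.mono inter_subset_right)).isClosed,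
    ?_⟩
  ext y
  constructor
  · rintro ⟨hy, hyY⟩
    refine ⟨?_, hyY⟩
    rw [← hY] at hyY
    obtain ⟨x, hx, rfl⟩ := hyY
    refine ⟨x, ⟨?_, hx⟩, rfl⟩
    show f x ∈ t
    rw [← hb x hx]
    exact hy
  · rintro ⟨⟨x, ⟨hxt, hx⟩, rfl⟩, hyY⟩
    refine ⟨?_, hyY⟩
    show b (π x) ∈ t
    rw [hb x hx]
    exact hxt

/-- **Local form.** `π` and `f` are conical at the points of the fibre of `y`, and every point of
`X` with image close to `y` is close to the fibre; then `b` is conical at `y`. -/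
theorem conicalWithinAt_descend {X : Set E} {Y : Set F} {π : E → F} {f : E → G} {b : F → G}
    {y : F} (hY : π '' X = Y)
    (hπc : ∀ x ∈ X, π x = y → ConicalWithinAt π X x)
    (hfc : ∀ x ∈ X, π x = y → ConicalWithinAt f X x)
    (hprop : ∀ U : Set E, IsOpen U → (∀ x ∈ X, π x = y → x ∈ U) →
      ∃ ρ > 0, ∀ x ∈ X, ‖π x - y‖ ≤ ρ → x ∈ U)
    (hb : ∀ x ∈ X, b (π x) = f x) : ConicalWithinAt b Y y := by
  choose! r1 hr1 H1 using hπc
  choose! r2 hr2 H2 using hfc
  obtain ⟨ρ, hρ, hU⟩ := hprop (⋃ x ∈ {x | x ∈ X ∧ π x = y}, ball x (min (r1 x) (r2 x)))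
    (isOpen_biUnion fun x _ => isOpen_ball)
    (fun x hx hxy => mem_biUnion (show x ∈ {x | x ∈ X ∧ π x = y} from ⟨hx, hxy⟩)
      (mem_ball_self (lt_min (hr1 x hx hxy) (hr2 x hx hxy))))
  refine ⟨ρ, hρ, fun w hw hyw t ht => ?_⟩
  rw [← hY] at hyw
  obtain ⟨x', hx', hxw⟩ := hyw
  have h1 : x' ∈ ⋃ x ∈ {x | x ∈ X ∧ π x = y}, ball x (min (r1 x) (r2 x)) := by
    refine hU x' hx' ?_
    rw [hxw, add_sub_cancel_left]
    exact hw
  obtain ⟨x, hx, hxb⟩ := mem_iUnion₂.1 h1
  obtain ⟨hxX, hxy⟩ := hx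
  have hv : ‖x' - x‖ < min (r1 x) (r2 x) := by
    rw [← dist_eq_norm]; exact hxb
  have e : x + (x' - x) = x' := by abel
  obtain ⟨m1, e1⟩ := H1 x hxX hxy (x' - x) (hv.le.trans (min_le_left _ _)) (by rwa [e]) t ht
  obtain ⟨m2, e2⟩ := H2 x hxX hxy (x' - x) (hv.le.trans (min_le_right _ _)) (by rwa [e]) t ht
  rw [e, hxw, hxy, add_sub_cancel_left] at e1
  rw [e] at e2
  refine ⟨?_, ?_⟩
  · rw [← hY, ← e1]
    exact mem_image_of_mem π m1
  · rw [← e1, hb _ m1, e2, ← hb x hxX, ← hb x' hx', hxy, hxw]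

omit [NormedSpace ℝ E] [NormedSpace ℝ F] in
/-- Points with image close to `y` are close to the fibre of `y`. -/
theorem exists_near_fibre {X : Set E} (hX : IsCompact X) {π : E → F} (hπ : ContinuousOn π X)
    (y : F) (U : Set E) (hU : IsOpen U) (h : ∀ x ∈ X, π x = y → x ∈ U) :
    ∃ ρ > 0, ∀ x ∈ X, ‖π x - y‖ ≤ ρ → x ∈ U := by
  have hK : IsCompact (π '' (X \ U)) :=
    (hX.diff hU).image_of_continuousOn (hπ.mono sdiff_subset)
  have hy : y ∉ π '' (X \ U) := by
    rintro ⟨x, ⟨hx, hxU⟩, hxy⟩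
    exact hxU (h x hx hxy)
  obtain ⟨ρ, hρ, hb⟩ := Metric.nhds_basis_closedBall.mem_iff.1 (hK.isClosed.isOpen_compl.mem_nhds hy)
  refine ⟨ρ, hρ, fun x hx hxy => ?_⟩
  by_contra hxU
  refine hb (a := π x) ?_ ⟨x, ⟨hx, hxU⟩, rfl⟩
  rwa [mem_closedBall, dist_eq_norm]

/-- **A map descends to a conical map along a conical surjection of a compact set.** -/
theorem conicalOn_descend {X : Set E} {Y : Set F} (hX : IsCompact X) {π : E → F} {f : E → G}
    {b : F → G} (hπ : ContinuousOn π X) (hπc : ConicalOn π X) (hY : π '' X = Y)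
    (hfc : ConicalOn f X) (hb : ∀ x ∈ X, b (π x) = f x) : ConicalOn b Y := fun y _ =>
  conicalWithinAt_descend hY (fun x hx _ => hπc x hx) (fun x hx _ => hfc x hx)
    (fun U hU h => exists_near_fibre hX hπ y U hU h) hb

/-- **Maps with the same fibres.** `π x ↦ f x` is a conical homeomorphism. -/
theorem exists_conHomeo_of_ker {X : Set E} (hX : IsCompact X) {π : E → F} {f : E → G}
    (hπ : ContinuousOn π X) (hπc : ConicalOn π X) (hf : ContinuousOn f X) (hfc : ConicalOn f X)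
    (hk : ∀ x ∈ X, ∀ x' ∈ X, (π x = π x' ↔ f x = f x')) :
    ∃ h : ConHomeo (π '' X) (f '' X), (∀ x ∈ X, h.toFun (π x) = f x) ∧
      ∀ x ∈ X, h.invFun (f x) = π x := by
  classical
  rcases X.eq_empty_or_nonempty with hX0 | hX0
  · subst hX0
    refine ⟨(ConHomeo.ofCompact (X := (∅ : Set F)) isCompact_empty (fun _ => (0 : G))
      continuousOn_const (injOn_empty _) (fun x hx => absurd hx (notMem_empty x)) rfl).cast
        (image_empty _).symm (by simp), ?_, ?_⟩ <;> simp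
  obtain ⟨x0, hx0⟩ := hX0
  have : Nonempty E := ⟨x0⟩
  set g : F → E := Function.invFunOn π X with hg
  have hg1 : ∀ x ∈ X, g (π x) ∈ X ∧ π (g (π x)) = π x := fun x hx =>
    ⟨Function.invFunOn_mem ⟨x, hx, rfl⟩, Function.invFunOn_eq ⟨x, hx, rfl⟩⟩
  set g' : G → E := Function.invFunOn f X with hg'
  have hg1' : ∀ x ∈ X, g' (f x) ∈ X ∧ f (g' (f x)) = f x := fun x hx =>
    ⟨Function.invFunOn_mem ⟨x, hx, rfl⟩, Function.invFunOn_eq ⟨x, hx, rfl⟩⟩
  have hb : ∀ x ∈ X, (f ∘ g) (π x) = f x := fun x hx =>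
    (hk _ (hg1 x hx).1 x hx).1 (hg1 x hx).2
  have hb' : ∀ x ∈ X, (π ∘ g') (f x) = π x := fun x hx =>
    (hk _ (hg1' x hx).1 x hx).2 (hg1' x hx).2
  refine ⟨
    { toFun := f ∘ g
      invFun := π ∘ g'
      mapsTo := ?_
      mapsTo_inv := ?_
      left_inv := ?_
      right_inv := ?_
      cont := continuousOn_descend hX hπ rfl hf hb
      cont_inv := continuousOn_descend hX hf rfl hπ hb'
      conical := conicalOn_descend hX hπ hπc rfl hfc hb }, hb, hb'⟩
  · rintro _ ⟨x, hx, rfl⟩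
    rw [hb x hx]
    exact mem_image_of_mem f hx
  · rintro _ ⟨x, hx, rfl⟩
    rw [hb' x hx]
    exact mem_image_of_mem π hx
  · rintro _ ⟨x, hx, rfl⟩
    rw [hb x hx, hb' x hx]
  · rintro _ ⟨x, hx, rfl⟩
    rw [hb' x hx, hb x hx]

end P073.H155

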