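import Vale.Agent.P073.H471.K2AofC

/-!
# P073, [K2A-DIRECT]: `K2A` without the sharp clauses
-/

open Set Metric Topology Filter MeasureTheory
open scoped ENNReal

namespace Vale.Agent.P073.H155

open _root_.P073 _root_.P073.Net
open Vale.Agent.P073.St (V)
open Vale.Agent.P073.H73 Vale.Agent.P073.H471
open Vale.Agent.P073.SQ (ev)

/-- `K2C` without sharp faces and without the sharp clauses -/
def K2C0 (p : ℝ) : Prop :=
  ∃ (D : ℝ) (C : ℝ → ℝ), ∃ η > 0, η < 1 / 4 ∧ ∃ δ > 0,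
    ∀ (Ω Λ : Set V), St.IsBoundedDomain Ω → St.IsBoundedDomain Λ →
    ∀ (w : V) (ρ : V → ℝ), SizeFn Λ ρ →
    ∀ (M : Mesh Ω) (h : ConHomeo Ω Λ) (P : Set M.ι),
    -- the faces are mapped outside of the middle cubes
    (∀ k, ∀ x ∈ M.F k, ∀ m z, IsTile ρ w m z →
      h.toFun x ∉ closedBall (H73.ctr w m z) ((1 - η) / 2 / 2 ^ m)) →
    -- the images of the faces are small
    (∀ k, ∀ x ∈ M.F k, ∀ y ∈ M.F k, ∀ m z, IsTile ρ w m z → h.toFun x ∈ dyc w m z →
      ‖h.toFun x - h.toFun y‖ ≤ δ / 2 ^ m) →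
    Aligned w ρ M h.toFun P →
    ∀ ε : M.κ → ℝ, (∀ k, 0 < ε k) →
    ∃ g : ConHomeo Ω Λ, Out p D C w ρ M h.toFun P univ ε g
      fun e ℓ => len (onSeg h.toFun e) (Icc 0 1) ≤ ℓ

/-- **`K2C0` implies `K2A`** -/
theorem k2a_of_k2c0 {p₀ : ℝ} (hp₀ : 0 ≤ p₀) (H : K2C0 p₀) : K2A p₀ := by
  obtain ⟨D, C, η, hη, hη4, δ, hδ, H⟩ := H
  obtain ⟨η₀, hη₀, hη₀4⟩ : ∃ η₀ : ℝ, 0 < η₀ ∧ η₀ < 1 / 4 := ⟨1 / 8, by norm_num, by norm_num⟩
  have h112 : (1:ℝ) ≤ 112 ^ p₀ := Real.one_le_rpow (by norm_num) hp₀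
  refine ⟨DA p₀ D, fun c => 112 * max (C c) 0, (min (δ / 256) (min (1 / 64) (η₀ / 2)) : ℝ),
    by positivity, ?_⟩
  intro Ω Λ hΩ hΛ w ρ hρ M h P c hc hmiss hal ε hε
  set δ' := min (δ / 256) (min (1 / 64) (η₀ / 2)) with hδ'
  have hδ'0 : 0 < δ' := by positivity
  have hδ'1 : δ' ≤ δ / 256 := min_le_left _ _
  have hδ'2 : δ' ≤ 1 / 64 := (min_le_right _ _).trans (min_le_left _ _)
  have hδ'3 : δ' ≤ η₀ / 2 := (min_le_right _ _).trans (min_le_right _ _)
  have hΛo : IsOpen Λ := TM.isOpen_Λ hρ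
  have hΩo : IsOpen Ω := hΩ.1
  set W := cubes_tiles hρ w with hW
  set ci : TI ρ w → V := fun i => c i.1.1 i.1.2 with hci
  have hc2 : ∀ i, ‖ci i - zt ρ w i‖ ≤ st ρ w i / 2 := fun i => by
    refine (hc i.1.1 i.1.2 i.2).trans (le_of_eq ?_)
    rw [st]; ring
  have htau : ∀ i : TI ρ w, ∃ τ, 0 < τ ∧ ∀ k, ∀ x ∈ M.F k, h.toFun x ∈ dyc w i.1.1 i.1.2 →
      τ ≤ ‖h.toFun x - ci i‖ := fun i =>
    exists_tau M h (KW.isCompact_dyc _ _ _) (KW.tile_subset hρ i.2) (ci i)
      fun k x hx hxi => (hmiss k x hx _ _ i.2 hxi).1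
  choose τ hτ hτm using htau
  obtain ⟨T, hT, hsh⟩ := exists_exp hΛo W hc2 hτ
    (k := fun _ => η) (fun _ => hη) (fun _ => by linarith)
  set h1 : ConHomeo Ω Λ := h.trans T with hh1
  have hval : ∀ x, h1.toFun x = T.toFun (h.toFun x) := fun x => rfl
  have hfix : ∀ y, (∀ j : TI ρ w, y ∉ dyo w j.1.1 j.1.2) → T.toFun y = y := fun y hy =>
    (hT.off y fun j => by rw [B_eq]; exact hy j).1
  -- tiles
  have htile : ∀ x ∈ Ω, ∀ m z, IsTile ρ w m z →
      (h1.toFun x ∈ dyc w m z ↔ h.toFun x ∈ dyc w m z) := by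
    intro x hx m z hz
    exact hT.t_mem_iff W (i := ⟨(m, z), hz⟩) (h.mapsTo hx)
  -- (1) outside of the middle cubes
  have hA : ∀ k, ∀ x ∈ M.F k, ∀ m z, IsTile ρ w m z →
      h1.toFun x ∉ closedBall (H73.ctr w m z) ((1 - η) / 2 / 2 ^ m) := by
    intro k x hx m z hz hcon
    have hxΩ := face_subset M k hx
    set i : TI ρ w := ⟨(m, z), hz⟩ with hi
    have hst : (1 - η) / 2 / 2 ^ m = (1 - η) * st ρ w i := by rw [st]; ring
    rw [hst] at hcon
    have h2 : h1.toFun x ∈ closedBall (zt ρ w i) (st ρ w i) :=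
      closedBall_subset_closedBall (by nlinarith [st_pos i]) hcon
    have h3 : h.toFun x ∈ dyc w m z := by
      rw [← htile x hxΩ m z hz]
      rwa [cB_eq] at h2
    have h4 : h.toFun x ∈ closedBall (zt ρ w i) (st ρ w i) := by rw [cB_eq]; exact h3
    have h5 := hsh i (h.toFun x) h4 (hτm i k x hx h3)
    rw [mem_closedBall, dist_eq_norm] at hcon
    exact absurd hcon (not_le.2 h5)
  -- (2) the images of the faces are small
  have hB : ∀ k, ∀ x ∈ M.F k, ∀ y ∈ M.F k, ∀ m z, IsTile ρ w m z → h1.toFun x ∈ dyc w m z →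
      ‖h1.toFun x - h1.toFun y‖ ≤ δ / 2 ^ m := by
    intro k x hx y hy m z hz hxz
    have hxΩ := face_subset M k hx
    rw [htile x hxΩ m z hz] at hxz
    obtain ⟨hne, hosc⟩ := hmiss k x hx m z hz hxz
    have hosc := hosc y hy
    set i : TI ρ w := ⟨(m, z), hz⟩ with hi
    set p := h.toFun x
    set q := h.toFun y
    have hm : (0:ℝ) < 1 / 2 ^ m := by positivity
    set d := ‖p - c m z‖ with hd
    have hd0 : 0 < d := by rw [hd, norm_pos_iff, sub_ne_zero]; exact hne
    have hcm : c m z ∈ dyc w m z := by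
      rw [dyc_eq_closedBall, mem_closedBall, dist_eq_norm]
      refine (hc m z hz).trans ?_
      have : (1:ℝ) / 4 / 2 ^ m = 1 / 4 * (1 / 2 ^ m) := by ring
      have e2 : (1:ℝ) / 2 / 2 ^ m = 1 / 2 * (1 / 2 ^ m) := by ring
      rw [this, e2]; nlinarith
    have hd1 : d ≤ 1 / 2 ^ m := NC.dist_le hxz hcm
    have hpq : ‖p - q‖ ≤ δ' * (1 / 2 ^ m) := hosc.trans (mul_le_mul_of_nonneg_left hd1 hδ'0.le)
    have hseg : ∀ u ∈ segment ℝ p q, ‖p - u‖ ≤ ‖p - q‖ := by
      intro u hu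
      have := dist_add_dist_of_mem_segment hu
      rw [dist_eq_norm, dist_eq_norm, dist_eq_norm] at this
      linarith [norm_nonneg (u - q)]
    set L := 210 + 30 / (2 ^ m * d) with hL
    have h7 : 0 < 30 / (2 ^ m * d) := by positivity
    have key := hT.seg_lip (y := p) (y' := q) (L := L) ?_ (by linarith) ?_
    · rw [hval, hval]
      refine key.trans ?_
      have e1 : 30 / (2 ^ m * d) * ‖p - q‖ ≤ 30 * δ' * (1 / 2 ^ m) := by
        rw [div_mul_eq_mul_div, div_le_iff₀ (by positivity)]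
        have : 30 * δ' * (1 / 2 ^ m) * (2 ^ m * d) = 30 * (δ' * d) := by field_simp
        rw [this]
        linarith
      have e2 : δ / 2 ^ m = δ * (1 / 2 ^ m) := by ring
      rw [e2, hL, add_mul]
      nlinarith
    · -- the segment is in `Λ`
      intro u hu
      refine mem_of_near hρ (i := i) hxz ((hseg u hu).trans_lt ?_)
      refine hpq.trans_lt ?_
      show δ' * (1 / 2 ^ m) < 1 / 2 ^ m
      nlinarith
    · intro u hu j huj
      have hup := hseg u hu
      by_cases hji : j = i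
      · subst hji
        have h2 : (1 - δ') * d ≤ ‖u - ci i‖ := by
          have h3 : d ≤ ‖p - u‖ + ‖u - c m z‖ :=
            norm_sub_le_norm_sub_add_norm_sub p u (c m z)
          have h4 : ‖u - ci i‖ = ‖u - c m z‖ := rfl
          rw [h4]
          linarith
        have h5 : 56 * st ρ w i = 28 * (1 / 2 ^ m) := by rw [st]; ring
        rw [h5]
        have h6 : 30 / (2 ^ m * d) * ((1 - δ') * d) = 30 * (1 - δ') * (1 / 2 ^ m) := by
          field_simp
        have h8 : 30 / (2 ^ m * d) * ((1 - δ') * d) ≤ 30 / (2 ^ m * d) * ‖u - ci i‖ :=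
          mul_le_mul_of_nonneg_left h2 h7.le
        rw [h6] at h8
        have h9 : 0 ≤ 210 * ‖u - ci i‖ := by positivity
        rw [hL, add_mul]
        nlinarith
      · have h2 : st ρ w j ≤ ‖p - zt ρ w j‖ := by
          have hp : p ∉ ball (zt ρ w j) (st ρ w j) := by
            rw [B_eq]
            intro hcon
            exact (KW.disjoint_dyo_dyc j.2 i.2 fun h => hji (Subtype.ext h)).notMem_of_mem_left
              hcon hxz
          rw [mem_ball, dist_eq_norm] at hp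
          exact not_lt.1 hp
        have h3 : 1 / 2 ^ m ≤ 10 * st ρ w j :=
          size_of_near hρ (i := i) (j := j) hxz (by rw [← cB_eq]; exact huj) hδ'2
            (by
              have : δ' / 2 ^ i.1.1 = δ' * (1 / 2 ^ m) := by ring
              rw [this]; exact hup.trans hpq)
        have h4 : ‖p - u‖ ≤ 10 / 64 * st ρ w j := by
          have := hup.trans hpq
          nlinarith
        have h5 := norm_sub_le_norm_sub_add_norm_sub p u (zt ρ w j)
        have h6 := norm_sub_le_norm_sub_add_norm_sub u (ci j) (zt ρ w j)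
        have h8 := hc2 j
        have h9 : 22 / 64 * st ρ w j ≤ ‖u - ci j‖ := by linarith
        have h10 := st_pos j
        have h11 : 0 ≤ 30 / (2 ^ m * d) * ‖u - ci j‖ := by positivity
        rw [hL, add_mul]
        nlinarith
  -- (3) aligned cells
  have himg : ∀ i ∈ P, h1.toFun '' M.Q i = h.toFun '' M.Q i := by
    intro i hi
    have e : h1.toFun '' M.Q i = T.toFun '' (h.toFun '' M.Q i) := by
      rw [← image_comp]; rfl
    rw [e]
    refine hT.t_union W ?_ fun j => hal.tile i hi j.1.1 j.1.2 j.2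
    rintro _ ⟨x, hx, rfl⟩
    exact h.mapsTo (M.sub i hx)
  have hfr : ∀ i ∈ P, ∀ x ∈ frontier (M.Q i), h1.toFun x = h.toFun x := by
    intro i hi x hx
    rw [hval]
    exact hfix _ fun j => aligned_notMem hΩo hal hi hx j
  have hal1 : Aligned w ρ M h1.toFun P := by
    refine ⟨fun i hi => ?_, fun i hi m z hz => ?_, fun i hi => ?_, fun i hi => ?_,
      fun i hi k hk m z hz => ?_⟩
    · rw [himg i hi]; exact hal.box i hi
    · rw [himg i hi]; exact hal.tile i hi m z hz
    · rw [himg i hi]; exact hal.gen i hi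
    · obtain ⟨A, hA⟩ := hal.aff i hi
      exact ⟨A, fun x hx => by rw [hfr i hi x hx]; exact hA hx⟩
    · have hk1 : ∀ x ∈ M.F k, h1.toFun x = h.toFun x := fun x hx =>
        hfr i hi x (face_frontier M hk hx)
      have e1 : h1.toFun '' M.F k = h.toFun '' M.F k := image_congr hk1
      have e2 : h1.toFun '' intrinsicInterior ℝ (M.F k) =
          h.toFun '' intrinsicInterior ℝ (M.F k) :=
        image_congr fun x hx => hk1 x (intrinsicInterior_subset hx)
      rw [e1, e2]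
      exact hal.one i hi k hk m z hz
  obtain ⟨g, hg⟩ := H Ω Λ hΩ hΛ w ρ hρ M h1 P hA hB hal1 ε hε
  -- lengths
  have hlen : ∀ k, ∀ e : V × V, segment ℝ e.1 e.2 ⊆ M.F k → ∀ ℓ : ℝ≥0∞,
      (∃ W, WLe w ρ c h.toFun e W ∧ ENNReal.ofReal W * len (onSeg h.toFun e) (Icc 0 1) ≤ ℓ) →
      len (onSeg h1.toFun e) (Icc 0 1) ≤ 112 * ℓ := by
    rintro k e hek ℓ ⟨Wt, ⟨hW1, hW2⟩, hWℓ⟩
    have hseg : ∀ t ∈ Icc (0:ℝ) 1, e.1 + t • (e.2 - e.1) ∈ segment ℝ e.1 e.2 := by
      intro t ht
      rw [segment_eq_image']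
      exact ⟨t, ht, rfl⟩
    have hΩseg : ∀ t ∈ Icc (0:ℝ) 1, e.1 + t • (e.2 - e.1) ∈ Ω := fun t ht =>
      face_subset M k (hek (hseg t ht))
    have hγ : ContinuousOn (onSeg h.toFun e) (Icc 0 1) :=
      h.cont.comp (by fun_prop) hΩseg
    have key := hT.len_le (γ := onSeg h.toFun e) zero_le_one hγ
      (fun t ht => h.mapsTo (hΩseg t ht)) (L := 56 * Wt) (by linarith) ?_
    · have e1 : onSeg h1.toFun e = fun t => T.toFun (onSeg h.toFun e t) := rfl
      rw [e1]
      refine key.trans ?_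
      have : 2 * (56 * Wt) = 112 * Wt := by ring
      rw [this, ENNReal.ofReal_mul (by norm_num), ENNReal.ofReal_ofNat, mul_assoc]
      gcongr
    · intro t ht i hti
      rw [cB_eq] at hti
      have h2 := hW2 _ (hseg t ht) i.1.1 i.1.2 i.2 hti
      have h3 : (0:ℝ) < 1 / 2 ^ i.1.1 := by positivity
      have h4 : 56 * st ρ w i = 28 * (1 / 2 ^ i.1.1) := by rw [st]; ring
      have h5 : onSeg h.toFun e t = h.toFun (e.1 + t • (e.2 - e.1)) := rfl
      rw [h4, h5]
      have h6 : ci i = c i.1.1 i.1.2 := rfl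
      rw [h6]
      nlinarith
  -- transfer of the output
  have hout : ∀ (D : ℝ) (C : ℝ → ℝ) (S : Set M.κ),
      Out p₀ D C w ρ M h1.toFun P S ε g (fun e ℓ => len (onSeg h1.toFun e) (Icc 0 1) ≤ ℓ) →
      Out p₀ (DA p₀ D) (fun c => 112 * max (C c) 0) w ρ M h.toFun P S ε g
        (fun e ℓ => ∃ W, WLe w ρ c h.toFun e W ∧
          ENNReal.ofReal W * len (onSeg h.toFun e) (Icc 0 1) ≤ ℓ) := by
    intro D C S hg
    have hD0 : 0 ≤ max D 0 := le_max_right _ _
    have hDD : D ≤ max D 0 := le_max_left _ _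
    have hD1 : D + 1 ≤ DA p₀ D := by unfold DA; nlinarith
    have hD2 : 112 ^ p₀ * max D 0 ≤ DA p₀ D := by unfold DA; nlinarith
    refine ⟨?_, ?_, ?_, ?_, ?_⟩
    · -- close
      intro k x hx m z hz hxz
      have hxΩ := face_subset M k hx
      have h2 := hg.close k x hx m z hz ((htile x hxΩ m z hz).2 hxz)
      have h3 : ‖h1.toFun x - h.toFun x‖ ≤ 1 / 2 ^ m :=
        NC.dist_le ((htile x hxΩ m z hz).2 hxz) hxz
      have h4 := norm_sub_le_norm_sub_add_norm_sub (g.toFun x) (h1.toFun x) (h.toFun x)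
      have hm : (0:ℝ) < 2 ^ m := by positivity
      have h5 : (D + 1) / 2 ^ m ≤ DA p₀ D / 2 ^ m := by gcongr
      rw [add_div] at h5
      linarith
    · -- the Lipschitz constants
      intro k hkS E ℓ K hE hEℓ x hx y hy
      by_cases hK : 0 ≤ K
      · have h2 := hg.lip k hkS E (fun e => 112 * ℓ e) (112 * K) hE (fun e he => ?_) x hx y hy
        · refine h2.trans ?_
          have h4 : C (M.c k) * (112 * K) ≤ 112 * max (C (M.c k)) 0 * K := by
            calc C (M.c k) * (112 * K) ≤ max (C (M.c k)) 0 * (112 * K) := by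
                  gcongr
                  exact le_max_left _ _
              _ = 112 * max (C (M.c k)) 0 * K := by ring
          gcongr
        · obtain ⟨h3, h4⟩ := hEℓ e he
          refine ⟨hlen k e (hE.sub e he) _ h3, ?_⟩
          calc 112 * ℓ e + ENNReal.ofReal (ε k) ≤ 112 * ℓ e + 112 * ENNReal.ofReal (ε k) := by
                gcongr
                exact le_mul_of_one_le_left (zero_le) (by norm_num)
            _ = 112 * (ℓ e + ENNReal.ofReal (ε k)) := by rw [mul_add]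
            _ ≤ 112 * ENNReal.ofReal (K * ‖e.2 - e.1‖) := by gcongr
            _ = ENNReal.ofReal (112 * K * ‖e.2 - e.1‖) := by
                rw [mul_assoc, ENNReal.ofReal_mul (by norm_num : (0:ℝ) ≤ 112),
                  ENNReal.ofReal_ofNat]
      · -- no edges: the face is a point
        push Not at hK
        have hempty : E = ∅ := by
          rw [Finset.eq_empty_iff_forall_notMem]
          intro e he
          have h3 := (hEℓ e he).2
          have h4 : ENNReal.ofReal (K * ‖e.2 - e.1‖) = 0 :=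
            ENNReal.ofReal_of_nonpos (mul_nonpos_of_nonpos_of_nonneg hK.le (norm_nonneg _))
          rw [h4] at h3
          have h5 : ENNReal.ofReal (ε k) ≤ 0 := le_trans le_add_self h3
          exact absurd (ENNReal.ofReal_eq_zero.1 (le_antisymm h5 zero_le)) (not_le.2 (hε k))
        have h2 := hg.lip k hkS E ℓ 0 hE (fun e he => by rw [hempty] at he; simp at he) x hx y hy
        rw [mul_zero, zero_mul] at h2
        have h3 : g.toFun x = g.toFun y := sub_eq_zero.1 (norm_le_zero_iff.1 h2)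
        have h4 : x = y := g.left_inv.injOn (face_subset M k hx) (face_subset M k hy) h3
        rw [h4]
        simp
    · -- energies
      intro k hkS E ℓ a l σ hσ hF hE hEℓ
      have h2 := hg.energy k hkS E (fun e => 112 * ℓ e) a l σ hσ hF hE
        (fun e he => hlen k e (hE.sub e he) _ (hEℓ e he))
      refine h2.trans ?_
      have h3 : ∀ e ∈ E, ENNReal.ofReal (‖e.2 - e.1‖ ^ (1 - p₀)) *
          (112 * ℓ e + ENNReal.ofReal (ε k * ‖e.2 - e.1‖ / σ)) ^ p₀ ≤
          112 ^ p₀ * (ENNReal.ofReal (‖e.2 - e.1‖ ^ (1 - p₀)) *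
            (ℓ e + ENNReal.ofReal (ε k * ‖e.2 - e.1‖ / σ)) ^ p₀) := by
        intro e _
        have h4 : 112 * ℓ e + ENNReal.ofReal (ε k * ‖e.2 - e.1‖ / σ) ≤
            112 * (ℓ e + ENNReal.ofReal (ε k * ‖e.2 - e.1‖ / σ)) := by
          rw [mul_add]
          gcongr
          exact le_mul_of_one_le_left (zero_le) (by norm_num)
        calc ENNReal.ofReal (‖e.2 - e.1‖ ^ (1 - p₀)) *
            (112 * ℓ e + ENNReal.ofReal (ε k * ‖e.2 - e.1‖ / σ)) ^ p₀
            ≤ ENNReal.ofReal (‖e.2 - e.1‖ ^ (1 - p₀)) *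
            (112 * (ℓ e + ENNReal.ofReal (ε k * ‖e.2 - e.1‖ / σ))) ^ p₀ := by gcongr
          _ = _ := by
            rw [ENNReal.mul_rpow_of_nonneg _ _ hp₀, ← mul_assoc, ← mul_assoc,
              mul_comm (ENNReal.ofReal _) ((112:ℝ≥0∞) ^ p₀)]
      calc ENNReal.ofReal (D * σ ^ 2) * ∑ e ∈ E, ENNReal.ofReal (‖e.2 - e.1‖ ^ (1 - p₀)) *
            (112 * ℓ e + ENNReal.ofReal (ε k * ‖e.2 - e.1‖ / σ)) ^ p₀
          ≤ ENNReal.ofReal (max D 0 * σ ^ 2) * ∑ e ∈ E, 112 ^ p₀ *
            (ENNReal.ofReal (‖e.2 - e.1‖ ^ (1 - p₀)) *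
            (ℓ e + ENNReal.ofReal (ε k * ‖e.2 - e.1‖ / σ)) ^ p₀) := by
            refine mul_le_mul' (ENNReal.ofReal_le_ofReal ?_) (Finset.sum_le_sum h3)
            exact mul_le_mul_of_nonneg_right hDD (sq_nonneg σ)
        _ = ENNReal.ofReal (112 ^ p₀ * (max D 0 * σ ^ 2)) *
            ∑ e ∈ E, (ENNReal.ofReal (‖e.2 - e.1‖ ^ (1 - p₀)) *
            (ℓ e + ENNReal.ofReal (ε k * ‖e.2 - e.1‖ / σ)) ^ p₀) := by
            rw [← Finset.mul_sum, ENNReal.ofReal_mul (by positivity : (0:ℝ) ≤ 112 ^ p₀),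
              ← ENNReal.ofReal_rpow_of_pos (by norm_num : (0:ℝ) < 112), ENNReal.ofReal_ofNat,
              ← mul_assoc, mul_comm (ENNReal.ofReal (max D 0 * σ ^ 2))]
        _ ≤ _ := by
            refine mul_le_mul' (ENNReal.ofReal_le_ofReal ?_) le_rfl
            rw [← mul_assoc]
            exact mul_le_mul_of_nonneg_right hD2 (sq_nonneg σ)
    · intro i hi
      rw [hg.image i hi, himg i hi]
    · intro i hi x hx m z hz hxz
      refine hg.tile i hi x hx m z hz ?_
      rw [hfr i hi x hx]; exact hxz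
  exact ⟨g, hout D C _ hg⟩

end Vale.Agent.P073.H155
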