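import Vale.Agent.P073.H155.TailSoft
import Vale.Agent.P073.H155.K2A0

/-!
# P073, [K2A-DIRECT]: `K2A` from the facts about the last map before the collapse (no sharp clauses)
-/

open Set Metric Topology Filter
open scoped ENNReal

namespace P073.H155

open _root_.P073 _root_.P073.Net _root_.P073.PA691 _root_.P073.TM _root_.P073.H142
open Vale.Agent.P073.St (V)
open Vale.Agent.P073.H73 (Mesh Out ELip K2A)
open Vale.Agent.P073.H193 (Edges edges)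
open Vale.Agent.P073.H267 Vale.Agent.P073.H471 Vale.Agent.P073.H212
open Vale.Agent.P073.H581 (NearAt ImgAt TileAt TileIff)
open Vale.Agent.P073.H155 (K2C0 k2a_of_k2c0)

variable {η₀ : ℝ} {Ω Λ : Set V} {w : V} {ρ : V → ℝ} {M : Mesh Ω} {h : ConHomeo Ω Λ} {P : Set M.ι}
  {K : BoxCx Λ w}

/-- the numbers for the soft collapse -/
theorem softN (D : KIn η₀ w ρ M h P) (C : Cells ρ w K) : SoftN (D.B C) (1 / μN η₀) := by
  have hμ := μN_pos D.pos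
  have key : ∀ {a b : ℝ}, a ≤ μN η₀ * b → 1 / μN η₀ * a ≤ b := by
    intro a b hab
    rw [one_div, inv_mul_le_iff₀ hμ]
    exact hab
  refine ⟨?_, fun e => key (D.T_wv C e).1, fun e => key (D.T_wv C e).2, fun e => key (D.T_q C e),
    fun i => key (D.wv_r C i)⟩
  rw [le_div_iff₀ hμ]
  linarith [μN_lt D.lt]

/-- the slope error of the soft collapse -/
theorem soft_mu (h0 : 0 < η₀) : 20 / (1 / μN η₀) = 20 * μN η₀ := by
  have hμ := μN_pos h0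
  field_simp

theorem exists_softK (D : KIn η₀ w ρ M h P) (C : Cells ρ w K) (R : Fac K) :
    ∃ Φ : ConHomeo Λ Λ, IsSoft (D.B C) (20 * μN η₀) R Φ := by
  obtain ⟨Φ, hΦ⟩ := exists_soft (TM.isOpen_Λ D.hρ) (softN D C) R
  rw [soft_mu D.pos] at hΦ
  exact ⟨Φ, hΦ⟩

/-- the conclusion of `K2C0` from the facts about the last map -/
theorem exists_out_of_last (D : KIn η₀ w ρ M h P) (C : Cells ρ w K) {p : ℝ} (hp : 1 ≤ p)
    {f : ConHomeo Ω Λ} {ε : M.κ → ℝ} (hε : ∀ k, 0 < ε k) {C₁ D₀ D₁ : ℝ} (hC₁ : 0 < C₁)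
    (hD₀ : 0 ≤ D₀) (hD₁ : 1 ≤ D₁) (near : NearAt D₁ ρ M h.toFun f.toFun)
    (img : ImgAt M P h.toFun f.toFun) (tile : TileAt ρ w M P h.toFun f.toFun)
    (all : ∀ k, FaceOKB (D.B C) h.toFun f.toFun C₁ D₀ (ε k) k) :
    ∃ g : ConHomeo Ω Λ,
      Out p (sD p C₁ D₀ D₁) (sC C₁ D₀) w ρ M h.toFun P univ ε g (LenC h.toFun) ∧
      ELip (sD p C₁ D₀ D₁) M univ ε g (LenC h.toFun) := by
  choose t ht hs using
    fun k => exists_smallForB (D.B C) h.toFun f.toFun (D₀ := D₀) (ε := ε k) hC₁ k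
  obtain ⟨R, N, H⟩ := exists_small D.bΩ.1 f (D.W C) M.F (isCompact_face M) (mesh_sub' M) M.ffin ht
  obtain ⟨Φ, HΦ⟩ := exists_softK D C R
  have hμ := μN_pos D.pos
  have hμ1 := μN_lt D.lt
  exact ⟨f.trans Φ, out_ofB C D.hρ hp hC₁ hD₀ hD₁ D.al (G := univ) (t := t) near img tile hε
    (fun k _ => hs k (t k) le_rfl) (fun k _ => all k) H (by linarith) (by linarith) HΦ⟩

/-- `K2C0` from the statement with the numbers -/
theorem k2c0_of {p : ℝ} (H : ∃ (D : ℝ) (C : ℝ → ℝ) (η₀ : ℝ), 0 < η₀ ∧ η₀ < 1 / 4 ∧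
      ∀ (Ω Λ : Set V) (w : V) (ρ : V → ℝ) (M : Mesh Ω) (h : ConHomeo Ω Λ)
      (P : Set M.ι), KIn η₀ w ρ M h P → ∀ (K : BoxCx Λ w) (_ : Cells ρ w K)
      (ε : M.κ → ℝ), (∀ k, 0 < ε k) →
      ∃ g : ConHomeo Ω Λ, Out p D C w ρ M h.toFun P univ ε g (LenC h.toFun)) : K2C0 p := by
  obtain ⟨D, C, η₀, h0, h1, H⟩ := H
  refine ⟨D, C, 2 * κN η₀, by linarith [κN_pos h0], (κN_le h0 h1).trans_lt h1, δN η₀,
    δN_pos h0, fun Ω Λ hΩ hΛ w ρ hρ M h P hout hosc hal ε hε => ?_⟩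
  obtain ⟨K, ⟨C'⟩⟩ := exists_cells hρ w
  exact H Ω Λ w ρ M h P ⟨h0, h1, hΩ, hΛ, hρ, hout, hosc, hal⟩ K C' ε hε

/-- **[K2A-DIRECT]** `K2A` from the existence of the last map, for one value of `η₀` -/
theorem k2a_of_last {p : ℝ} (hp : 1 ≤ p) (H : ∃ (C₁ D₀ D₁ η₀ : ℝ), 0 < C₁ ∧ 0 ≤ D₀ ∧ 1 ≤ D₁ ∧
      0 < η₀ ∧ η₀ < 1 / 4 ∧
      ∀ (Ω Λ : Set V) (w : V) (ρ : V → ℝ) (M : Mesh Ω) (h : ConHomeo Ω Λ)
      (P : Set M.ι) (D : KIn η₀ w ρ M h P) (K : BoxCx Λ w) (C : Cells ρ w K)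
      (ε : M.κ → ℝ), (∀ k, 0 < ε k) →
      ∃ f : ConHomeo Ω Λ, NearAt D₁ ρ M h.toFun f.toFun ∧ ImgAt M P h.toFun f.toFun ∧
        TileAt ρ w M P h.toFun f.toFun ∧
        ∀ k, FaceOKB (D.B C) h.toFun f.toFun C₁ D₀ (ε k) k) : K2A p := by
  obtain ⟨C₁, D₀, D₁, η₀, hC₁, hD₀, hD₁, h0, h1, H⟩ := H
  refine k2a_of_k2c0 (by linarith) (k2c0_of ⟨sD p C₁ D₀ D₁, sC C₁ D₀, η₀, h0, h1,
    fun Ω Λ w ρ M h P D K C ε hε => ?_⟩)
  obtain ⟨f, f1, f2, f3, f4⟩ := H Ω Λ w ρ M h P D K C ε hε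
  obtain ⟨g, hg, -⟩ := exists_out_of_last D C hp hε hC₁ hD₀ hD₁ f1 f2 f3 f4
  exact ⟨g, hg⟩

end P073.H155
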