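import Vale.Agent.P073.H155.TPart
import Vale.Agent.P073.H267.K3T2
import Vale.Agent.P073.H805.PsvK2

/-!
# P073, block H155: **[T-PART]** of `K3C`, as the stage `S5` of H267

`S4.preT`: the outputs before the hook of the tubes.  `S4.psvT`: the passive cells.
`S4.exists_s5`: the hook of the tubes and its staircase, from the numbers `NumT` at the edges.
-/

open Set Metric Topology Filter MeasureTheory

set_option linter.unusedSectionVars false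
set_option autoImplicit false

namespace Vale.Agent.P073.H267.K3

open _root_.P073 _root_.P073.Net _root_.P073.PA691 _root_.P073.H236 _root_.P073.H579
open _root_.P073.H936 _root_.P073.H936.K3
open _root_.P073.H142
open _root_.P073.H345 (PK tg PLev)
open _root_.P073.H880.RP
open _root_.P073.H155 (PreT PsvT MapT NumT TBand exists_tpart cube_dat slT preT_of)
open _root_.P073.H919 (HkG HkGF HkGO ZbP sfam HB PI)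
open _root_.P073.H429
open Vale.Agent.P073.St (V)
open Vale.Agent.P073.H471 Vale.Agent.P073.H267
open Vale.Agent.P073.H73 (Mesh)
open Vale.Agent.P073.H193 (Edges Cyc edges)
open Vale.Agent.P073.H926
open Vale.Agent.P073.H238.K3
open Vale.Agent.P073.H341 (HtOk ROutZ vFam)

variable {c₀ n δ : ℝ} {j : ℕ} {Ω Λ : Set V} {v w : V} {ρ : V → ℝ} {M : Mesh Ω} {h : ConHomeo Ω Λ}
  {J₀ J : Set (ℕ × (Fin 3 → ℤ))} {P Z : Set M.ι} {K : BoxCx Λ w}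
  {D : KIn3 c₀ n j δ v w ρ M h J₀ J P Z} {C : Cells ρ w K} {C₀ μT : ℝ}
  {X : S1 D C C₀ μT} {Y₂ : S2 X} {Ys : Set M.κ} {sc : Sharp} {Y₃ : S3 Y₂ Ys sc}

namespace S4

/-- the families of the second staircases of ROUND P -/
noncomputable abbrev Fσ (Y₄ : S4 Y₃) : Bool → BFam 3 (D.dat C).S₀ Λ :=
  fun β => sfam (Y₃.F β) (fun s => Y₄.q s * Y₄.r s) Y₄.p0 Y₄.p1

/-- **the outputs of the rounds before the hook of the tubes** -/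
theorem preT (Y₄ : S4 Y₃) (hst : ∀ s : (D.dat C).S₀, ∀ β, stp (Y₂.L.N s.1 β)
      (K.slo s.1 (tg s.1 β) + (D.G C).a s.1) (K.shi s.1 (tg s.1 β) - (D.G C).a s.1) ≤
        (D.G C).a s.1) :
    PreT Y₄.hk X.h1 Y₄.f5 Y₄.Fσ Y₄.ς Y₄.Tσ (edges M) (vFam M (edges M)) :=
  preT_of Y₂.ex Y₃.ins (fun s => Y₃.eqHB s.1 s.2) Y₄.hk Y₄.sg Y₄.map5 Y₄.r0 Y₄.r1 Y₄.q1 hst
    (D.zd_osc C X.out.near)

/-- the two-stage staircases of ROUND P -/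
theorem mapT (Y₄ : S4 Y₃) : MapT Y₄.H Y₃.h3 (fun _ s => Y₂.muP s.1) Y₃.T2 where
  P2 := Y₃.pt2
  map2 := Y₃.map4
  heq := fun s => Y₃.eqHB s.1 s.2

/-- **the passive cells** -/
theorem psvT (Y₄ : S4 Y₃)
    (hc : ∀ s ∈ (D.dat C).S₀, ∀ β q, (q = K.sm s ∨ q = K.sp s) → Y₂.L.c s β ≤ (D.G C).om q)
    (hD : ∀ s : (D.dat C).S₀, ∀ β q, (q = K.sm s.1 ∨ q = K.sp s.1) →
      (Y₃.F β).D s ≤ (D.G C).om q)
    {i : M.ι} (hZ : i ∈ (D.dat C).Zd) (hP : i ∉ (D.dat C).Pr)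
    (hn : ∀ s, i ∉ ZbP (D.G C) (D.dat C) Y₃.h4 s) : PsvT Y₄.H X.h1 Y₃.h3 i :=
  KIn3.psvT D C X.out.near Y₂.ex Y₃.ins Y₃.ps Y₃.pt2 Y₃.map4 hc hD (fun s => Y₃.eqHB s.1 s.2)
    hZ hP hn

/-- **[T-PART]** the stage `S5`.  `δT` bounds the steps of the thin bands, `εT` are their half gaps,
`tol` is the tolerance of the second staircase (it may depend on `h6` and its constants) -/
theorem exists_s5 (Y₄ : S4 Y₃)
    (hst : ∀ s : (D.dat C).S₀, ∀ β, stp (Y₂.L.N s.1 β)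
      (K.slo s.1 (tg s.1 β) + (D.G C).a s.1) (K.shi s.1 (tg s.1 β) - (D.G C).a s.1) ≤
        (D.G C).a s.1)
    (hc : ∀ s ∈ (D.dat C).S₀, ∀ β q, (q = K.sm s ∨ q = K.sp s) → Y₂.L.c s β ≤ (D.G C).om q)
    (hD : ∀ s : (D.dat C).S₀, ∀ β q, (q = K.sm s.1 ∨ q = K.sp s.1) →
      (Y₃.F β).D s ≤ (D.G C).om q)
    {Xw : pG C J₀ → Finset (ℝ × ℝ)} {μ τ δ' dT dK Dd D₂ : pG C J₀ → ℝ}
    (N : ∀ b : pG C J₀, NumT Y₃.Lt Y₃.F Y₄.Fσ Y₄.ς (ω3T δ C) b.1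
      (X.sl ⟨.inl b.1, inl_mem_pB.2 b.2⟩) (Xw b) (μ b) (X.σ ⟨.inl b.1, inl_mem_pB.2 b.2⟩) (τ b)
      (δ' b) (dT b) (dK b) (Dd b) (D₂ b))
    {δT : pG C J₀ → ℝ} (hδT : ∀ b, 0 < δT b) :
    ∃ Mn : pG C J₀ → ℕ, (∀ b, 0 < Mn b) ∧
      (∀ b : pG C J₀, (ebe (D.W C) b.1 - eal (D.W C) b.1) / Mn b ≤ δT b) ∧
    ∃ e₀ : pG C J₀ → ℝ, (∀ b, 0 < e₀ b) ∧
    ∀ εT : pG C J₀ → ℝ, (∀ b, 0 < εT b) → (∀ b, εT b ≤ e₀ b) →
    ∀ tol : ConHomeo Ω Λ → (pG C J₀ → ℝ) → pG C J₀ → ℝ, (∀ f k b, 0 < tol f k b) →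
    ∃ Y₅ : S5 Y₄, (∀ b, Y₅.μ b = μ b) ∧ (∀ b, (Y₅.Th b).M = Mn b) ∧
      (∀ b, (Y₅.Th b).e = εT b) ∧ Y₅.ε = tol Y₅.h6 Y₅.K₂ ∧
      ∀ b : pG C J₀, TBand Y₃.Lt Y₄.Fσ Y₄.ς b.1 (X.sl ⟨.inl b.1, inl_mem_pB.2 b.2⟩) (Xw b) (Dd b)
        (Y₅.Th b) := by
  obtain ⟨Mn, k1, k2, e₀, k3, k4⟩ := exists_tpart (M := M) (u := v) Y₄.H.hΛ (Y₄.preT hst)
    Y₄.mapT X.out.toT3OutG (φ := (Subtype.val : pG C J₀ → K.G)) Subtype.val_injective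
    (fun b => inl_mem_pB.2 b.2) N hδT
  refine ⟨Mn, k1, k2, e₀, k3, fun εT hε hε' tol htol => ?_⟩
  obtain ⟨Th, k5, k6, k7, k8⟩ := k4 εT hε hε'
  have HT : HkT M (YT (D.G C) (pS C J₀)) (Subtype.val : pG C J₀ → K.G) Th (ZbT Y₄) Y₄.f5 v :=
    k8 (YT (D.G C) (pS C J₀)) _ (fun b i hi => cube_dat D C hi.1.1) (fun b i hi => hi.2.2)
      fun b i hi => Y₄.psvT hc hD hi.1.1 hi.1.2 hi.2.1
  obtain ⟨h6, k9, K₂, k10, k11, k12⟩ := exists_tlayer D.bΩ.1 HT (YT_YS_p (D.G C) (pS C J₀))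
    (YT_YS_q (D.G C) (pS C J₀)) (rT_pos (D.G C)) (YS_p_lt (D.G C)) (YS_q_lt (D.G C))
  obtain ⟨ς, h0, h1, k13, k14, Sm, k15, k16⟩ := k12 (tol h6 K₂) (htol h6 K₂)
  exact ⟨⟨_, μ, Th, HT, h6, k9, K₂, k10, k11, tol h6 K₂, ς, h0, h1, k13, k14, Sm, k15, k16⟩,
    fun _ => rfl, k5, k6, rfl, k7⟩

end S4

end Vale.Agent.P073.H267.K3
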