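import Vale.Agent.P073.H31.PlMod

/-!
# P073: the weighted sum of the increments of the trapezoid functions

`lam_sum`: if every point lies in at most `m` of the ramps of the arcs `i < k`, and the weights are
at most `L` times the widths, then `∑ om_i |lam_i a - lam_i a'| ≤ m L |a - a'|`.
-/

open Set MeasureTheory

set_option autoImplicit false

namespace P073.H155

open P073.H31

/-- clamp to `[c,d]` -/
noncomputable def cld (c d x : ℝ) : ℝ := max c (min d x)

theorem cld_of_le {c d x : ℝ} (h : x ≤ c) : cld c d x = c :=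
  max_eq_left ((min_le_right _ _).trans h)

theorem cld_of_ge {c d x : ℝ} (hcd : c ≤ d) (h : d ≤ x) : cld c d x = d := by
  rw [cld, min_eq_left h, max_eq_right hcd]

theorem cld_self {c d x : ℝ} (h1 : c ≤ x) (h2 : x ≤ d) : cld c d x = x := by
  rw [cld, min_eq_right h2, max_eq_right h1]

/-- the increment of the clamp is the length of the intersection -/
theorem cld_sub {c d a a' : ℝ} (hcd : c ≤ d) (ha : a ≤ a') :
    cld c d a' - cld c d a = volume.real (Icc c d ∩ Icc a a') := by
  rw [Icc_inter_Icc, measureReal_def, Real.volume_Icc]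
  rcases le_total a' c with h1 | h1
  · rw [cld_of_le h1, cld_of_le (ha.trans h1), sub_self, ENNReal.ofReal_of_nonpos]
    · rfl
    · rw [sub_nonpos]
      exact (min_le_right _ _).trans (h1.trans (le_max_left _ _))
  rcases le_total d a with h2 | h2
  · rw [cld_of_ge hcd h2, cld_of_ge hcd (h2.trans ha), sub_self, ENNReal.ofReal_of_nonpos]
    · rfl
    · rw [sub_nonpos]
      exact (min_le_left _ _).trans (h2.trans (le_max_right _ _))
  have e1 : cld c d a' = min d a' := max_eq_right (le_min hcd h1)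
  have e2 : cld c d a = max c a := by rw [cld, min_eq_right h2]
  rw [e1, e2, ENNReal.toReal_ofReal]
  rw [sub_nonneg]
  exact max_le (le_min hcd h1) (le_min h2 ha)

/-- **Multiplicity.** -/
theorem sum_cld_le {ι κ : Type*} (J : Finset ι) (K : Finset κ) (c d : ι → ℝ) (c' d' : κ → ℝ)
    (hcd : ∀ j ∈ J, c j ≤ d j) (hcd' : ∀ j ∈ K, c' j ≤ d' j) (m : ℝ)
    (hm : ∀ x, ∑ j ∈ J, (Icc (c j) (d j)).indicator (fun _ => (1 : ℝ)) x +
      ∑ j ∈ K, (Icc (c' j) (d' j)).indicator (fun _ => (1 : ℝ)) x ≤ m) {a a' : ℝ} (ha : a ≤ a') :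
    ∑ j ∈ J, (cld (c j) (d j) a' - cld (c j) (d j) a) +
      ∑ j ∈ K, (cld (c' j) (d' j) a' - cld (c' j) (d' j) a) ≤ m * (a' - a) := by
  have hi : ∀ u v : ℝ, Integrable ((Icc u v).indicator (fun _ => (1 : ℝ)))
      (volume.restrict (Icc a a')) := fun u v =>
    (integrable_const (1 : ℝ)).indicator measurableSet_Icc
  have he : ∀ u v : ℝ, u ≤ v → cld u v a' - cld u v a =
      ∫ x in Icc a a', (Icc u v).indicator (fun _ => (1 : ℝ)) x := by
    intro u v huv
    rw [cld_sub huv ha, integral_indicator measurableSet_Icc, Measure.restrict_restrict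
      measurableSet_Icc, setIntegral_const, smul_eq_mul, mul_one]
  have h1 : ∑ j ∈ J, (cld (c j) (d j) a' - cld (c j) (d j) a) +
      ∑ j ∈ K, (cld (c' j) (d' j) a' - cld (c' j) (d' j) a) =
      ∫ x in Icc a a', (∑ j ∈ J, (Icc (c j) (d j)).indicator (fun _ => (1 : ℝ)) x +
      ∑ j ∈ K, (Icc (c' j) (d' j)).indicator (fun _ => (1 : ℝ)) x) := by
    rw [integral_add (integrable_finsetSum _ fun j _ => hi _ _)
      (integrable_finsetSum _ fun j _ => hi _ _), integral_finsetSum _ fun j _ => hi _ _,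
      integral_finsetSum _ fun j _ => hi _ _]
    congr 1
    · exact Finset.sum_congr rfl fun j hj => he _ _ (hcd j hj)
    · exact Finset.sum_congr rfl fun j hj => he _ _ (hcd' j hj)
  rw [h1]
  calc ∫ x in Icc a a', (∑ j ∈ J, (Icc (c j) (d j)).indicator (fun _ => (1 : ℝ)) x +
      ∑ j ∈ K, (Icc (c' j) (d' j)).indicator (fun _ => (1 : ℝ)) x)
      ≤ ∫ _ in Icc a a', m := by
        refine integral_mono ?_ (integrable_const _) hm
        exact (integrable_finsetSum _ fun j _ => hi _ _).add
          (integrable_finsetSum _ fun j _ => hi _ _)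
    _ = m * (a' - a) := by
        rw [setIntegral_const, smul_eq_mul, measureReal_def, Real.volume_Icc,
          ENNReal.toReal_ofReal (sub_nonneg.2 ha), mul_comm]

/-- the trapezoid function as a sum of two ramps -/
theorem lam_eq {A : ArcD} (h : A.Good) (x : ℝ) :
    A.lam x = (cld A.p (A.p + 2 * A.w) x - A.p) / A.w +
      (A.q - cld (A.q - 2 * A.w') A.q x) / A.w' - 2 := by
  have hw := h.w0
  have hw' := h.w0'
  have hpq := h.pq
  have hR : (A.q - (A.q - 2 * A.w')) / A.w' = 2 := by field_simp; ring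
  have hL : (A.p + 2 * A.w - A.p) / A.w = 2 := by field_simp; ring
  rcases le_total x A.p with h1 | h1
  · rw [h.lam_zero_left h1, cld_of_le h1, cld_of_le (by linarith), hR]
    simp
  rcases le_total x (A.p + 2 * A.w) with h2 | h2
  · rw [h.lam_left h1 h2, cld_self h1 h2, cld_of_le (by linarith), hR]
    ring
  rcases le_total x (A.q - 2 * A.w') with h3 | h3
  · rw [h.lam_mid h2 h3, cld_of_ge (by linarith) h2, cld_of_le h3, hR, hL]
    norm_num
  rcases le_total x A.q with h4 | h4
  · rw [h.lam_right h4 h3, cld_of_ge (by linarith) h2, cld_self h3 h4, hL]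
    ring
  · rw [h.lam_zero_right h4, cld_of_ge (by linarith) h2, cld_of_ge (by linarith) h4, hL]
    simp

theorem cld_mono {c d a a' : ℝ} (ha : a ≤ a') : cld c d a ≤ cld c d a' := by
  unfold cld; gcongr

theorem om_lam_le {A : ArcD} (h : A.Good) {L a a' : ℝ} (hL : A.om ≤ L * A.w)
    (hL' : A.om ≤ L * A.w') (ha : a ≤ a') :
    A.om * |A.lam a - A.lam a'| ≤
      L * (cld A.p (A.p + 2 * A.w) a' - cld A.p (A.p + 2 * A.w) a) +
      L * (cld (A.q - 2 * A.w') A.q a' - cld (A.q - 2 * A.w') A.q a) := by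
  have hw := h.w0
  have hw' := h.w0'
  set u := cld A.p (A.p + 2 * A.w) a' - cld A.p (A.p + 2 * A.w) a with hu
  set v := cld (A.q - 2 * A.w') A.q a' - cld (A.q - 2 * A.w') A.q a with hv
  have hu0 : 0 ≤ u := sub_nonneg.2 (cld_mono ha)
  have hv0 : 0 ≤ v := sub_nonneg.2 (cld_mono ha)
  have e : A.lam a - A.lam a' = v / A.w' - u / A.w := by
    rw [lam_eq h a, lam_eq h a', hu, hv]
    field_simp
    ring
  rw [e]
  have h1 : |v / A.w' - u / A.w| ≤ v / A.w' + u / A.w := by
    rw [abs_le]
    have := div_nonneg hu0 hw.le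
    have := div_nonneg hv0 hw'.le
    constructor <;> linarith
  calc A.om * |v / A.w' - u / A.w| ≤ A.om * (v / A.w' + u / A.w) :=
        mul_le_mul_of_nonneg_left h1 h.om0.le
    _ = A.om / A.w * u + A.om / A.w' * v := by field_simp; ring
    _ ≤ L * u + L * v := by
        have h2 : A.om / A.w ≤ L := (div_le_iff₀ hw).2 hL
        have h3 : A.om / A.w' ≤ L := (div_le_iff₀ hw').2 hL'
        gcongr

/-- **The weighted sum of the increments of the trapezoid functions.** -/
theorem lam_sum {A : ℕ → ArcD} {k : ℕ} {L : ℝ} {m : ℕ} (hA : ∀ i < k, (A i).Good) (hL0 : 0 ≤ L)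
    (hL : ∀ i < k, (A i).om ≤ L * (A i).w) (hL' : ∀ i < k, (A i).om ≤ L * (A i).w')
    (hm : ∀ x : ℝ, ((Finset.range k).filter
        (fun i => x ∈ Icc (A i).p ((A i).p + 2 * (A i).w))).card +
      ((Finset.range k).filter
        (fun i => x ∈ Icc ((A i).q - 2 * (A i).w') (A i).q)).card ≤ m) (a a' : ℝ) :
    ∑ i ∈ Finset.range k, (A i).om * |(A i).lam a - (A i).lam a'| ≤ m * L * |a - a'| := by
  classical
  wlog ha : a ≤ a' generalizing a a' with H
  · have := H a' a (le_of_not_ge ha)
    rw [abs_sub_comm a' a] at this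
    refine le_trans (le_of_eq ?_) this
    exact Finset.sum_congr rfl fun i _ => by rw [abs_sub_comm]
  have h1 : ∑ i ∈ Finset.range k, (A i).om * |(A i).lam a - (A i).lam a'| ≤
      L * (∑ i ∈ Finset.range k, (cld (A i).p ((A i).p + 2 * (A i).w) a' -
        cld (A i).p ((A i).p + 2 * (A i).w) a) +
      ∑ i ∈ Finset.range k, (cld ((A i).q - 2 * (A i).w') (A i).q a' -
        cld ((A i).q - 2 * (A i).w') (A i).q a)) := by
    rw [mul_add, Finset.mul_sum, Finset.mul_sum, ← Finset.sum_add_distrib]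
    refine Finset.sum_le_sum fun i hi => ?_
    rw [Finset.mem_range] at hi
    exact om_lam_le (hA i hi) (hL i hi) (hL' i hi) ha
  refine h1.trans ?_
  have h2 := sum_cld_le (Finset.range k) (Finset.range k) (fun i => (A i).p)
    (fun i => (A i).p + 2 * (A i).w) (fun i => (A i).q - 2 * (A i).w') (fun i => (A i).q)
    (fun i hi => by have := (hA i (Finset.mem_range.1 hi)).w0; linarith)
    (fun i hi => by have := (hA i (Finset.mem_range.1 hi)).w0'; linarith) (m : ℝ)
    (fun x => by
      have e : ∀ s : ℕ → Set ℝ, ∑ i ∈ Finset.range k, (s i).indicator (fun _ => (1 : ℝ)) x =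
          (((Finset.range k).filter (fun i => x ∈ s i)).card : ℝ) := by
        intro s
        simp only [indicator_apply]
        rw [Finset.sum_boole]
      rw [e fun i => Icc (A i).p ((A i).p + 2 * (A i).w),
        e fun i => Icc ((A i).q - 2 * (A i).w') (A i).q]
      exact_mod_cast hm x) ha
  have h3 := mul_le_mul_of_nonneg_left h2 hL0
  refine h3.trans (le_of_eq ?_)
  rw [abs_sub_comm, abs_of_nonneg (sub_nonneg.2 ha)]
  ring

end P073.H155

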