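import Vale.Agent.P073.H155.NumX

/-!
# P073, block H155: the numbers of the T-part over the stages `S1` .. `S4`

`exists_numS`: bounds `m` (displacement of ROUND P off the windows), `sT` (slivers of ROUND T), `es`
(tolerance of the second staircases of ROUND P) such that the stage `S5` exists, for all outputs of
the rounds which respect these bounds; the windows of ROUND P must be short against the edges.
-/

open Set Metric Topology Filter MeasureTheory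

set_option linter.unusedSectionVars false
set_option autoImplicit false

namespace Vale.Agent.P073.H267.K3

open _root_.P073 _root_.P073.Net _root_.P073.PA691 _root_.P073.H236 _root_.P073.H579
open _root_.P073.H936 _root_.P073.H936.K3
open _root_.P073.H142
open _root_.P073.H345 (PK tg PLev)
open _root_.P073.H880.RP
open _root_.P073.H155 (PreT PsvT NumT TBand exists_tpart cube_dat slT preT_of exists_numT a_pos
  winE winE_le winE_card winE_sum notMem_wnd sqE_card_le)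
open _root_.P073.H919 (HkG HkGF HkGO ZbP sfam HB PI)
open _root_.P073.H429
open Vale.Agent.P073.St (V)
open Vale.Agent.P073.H471 Vale.Agent.P073.H267
open Vale.Agent.P073.H73 (Mesh)
open Vale.Agent.P073.H193 (Edges Cyc edges)
open Vale.Agent.P073.H926
open Vale.Agent.P073.H238.K3
open Vale.Agent.P073.H341 (HtOk ROutZ vFam)
open Vale.Agent.P073.H669 (sqE)
open Vale.Agent.P073.H687 (Marks wnd)

variable {c₀ n δ : ℝ} {j : ℕ} {Ω Λ : Set V} {v w : V} {ρ : V → ℝ} {M : Mesh Ω} {h : ConHomeo Ω Λ}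
  {J₀ J : Set (ℕ × (Fin 3 → ℤ))} {P Z : Set M.ι} {K : BoxCx Λ w}

/-- the flats of ROUND P, against the displacement -/
theorem S2.c_le {D : KIn3 c₀ n j δ v w ρ M h J₀ J P Z} {C : Cells ρ w K} {C₀ μT : ℝ}
    {X : S1 D C C₀ μT} (Y₂ : S2 X) (s : K.S) (β : Bool) : Y₂.L.c s β ≤ Y₂.muP s := by
  have h1 := Y₂.Lw.δμ s
  have h2 := Y₂.Lw.δ0 s
  change Y₂.dP s / 8 ≤ Y₂.muP s
  linarith

/-- the steps of ROUND P, against the displacement -/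
theorem S2.stp_le {D : KIn3 c₀ n j δ v w ρ M h J₀ J P Z} {C : Cells ρ w K} {C₀ μT : ℝ}
    {X : S1 D C C₀ μT} (Y₂ : S2 X) (s : K.S) (β : Bool) :
    stp (Y₂.L.N s β) (K.slo s (tg s β) + (D.G C).a s) (K.shi s (tg s β) - (D.G C).a s) ≤
      Y₂.muP s := by
  have h1 := Y₂.Lw.δμ s
  have h2 := Y₂.Lw.δ0 s
  have h3 := Y₂.Lw.om_le_two s β
  change Y₂.Lw.om s β ≤ Y₂.muP s
  linarith

/-- the windows of ROUND P at an edge -/
noncomputable abbrev S2.win {D : KIn3 c₀ n j δ v w ρ M h J₀ J P Z} {C : Cells ρ w K} {C₀ μT : ℝ}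
    {X : S1 D C C₀ μT} (Y₂ : S2 X) (e : K.G) : Finset (ℝ × ℝ) := winE Y₂.R Y₂.Q e

/-- **[NUM-S]** the numbers of the T-part, and the stage `S5` -/
theorem exists_numS (D : KIn3 c₀ n j δ v w ρ M h J₀ J P Z) (C : Cells ρ w K)
    {μ : pG C J₀ → ℝ} (μ0 : ∀ b, 0 < μ b) (μ1 : ∀ b, μ b ≤ 1) (nT : pB C J₀ → ℕ) :
    ∃ (η : pG C J₀ → ℝ) (sT : pB C J₀ → ℝ) (m es : K.S → ℝ), (∀ b, 0 < η b) ∧ (∀ b, 0 < sT b) ∧
      (∀ s, 0 < m s) ∧ (∀ s, 0 < es s) ∧ (∀ b : pG C J₀, ∀ s, K.edge b.1 ⊆ K.sq s → m s ≤ η b) ∧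
      (∀ s, m s ≤ (D.G C).a s) ∧
      (∀ s, 2 * m s ≤ (D.G C).om (K.sm s)) ∧ (∀ s, 2 * m s ≤ (D.G C).om (K.sp s)) ∧
      (∀ b : pG C J₀, sT ⟨.inl b.1, inl_mem_pB.2 b.2⟩ ≤
        μ b / 160 * (ebe (D.W C) b.1 - eal (D.W C) b.1)) ∧
    ∀ {C₀ μT : ℝ} {X : S1 D C C₀ μT} {Y₂ : S2 X} {Ys : Set M.κ} {sc : Sharp} {Y₃ : S3 Y₂ Ys sc}
      (Y₄ : S4 Y₃), (∀ b, X.σ b ≤ sT b) → (∀ b, X.nT b ≤ nT b) → (∀ s, Y₂.muP s ≤ m s) →
      (∀ (s : (D.dat C).S₀) β q, (q = K.sm s.1 ∨ q = K.sp s.1) →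
        (Y₃.F β).D s ≤ (D.G C).om q) →
      (∀ (b : pG C J₀) s, K.edge b.1 ⊆ K.sq s →
        32 * Y₂.R s ≤ μ b / 32 * (ebe (D.W C) b.1 - eal (D.W C) b.1)) →
      (∀ s : (D.dat C).S₀, Y₄.ε s ≤ es s.1) → ∀ {δT : pG C J₀ → ℝ}, (∀ b, 0 < δT b) →
      (∀ b : pG C J₀, NumT Y₃.Lt Y₃.F Y₄.Fσ Y₄.ς (ω3T δ C) b.1
        (X.sl ⟨.inl b.1, inl_mem_pB.2 b.2⟩) (Y₂.win b.1) (μ b)
        (X.σ ⟨.inl b.1, inl_mem_pB.2 b.2⟩)
        (μ b / 32 * (ebe (D.W C) b.1 - eal (D.W C) b.1)) (η b) (η b) (η b) (6 * η b) (12 * η b)) ∧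
      ∃ Mn : pG C J₀ → ℕ, (∀ b, 0 < Mn b) ∧
        (∀ b : pG C J₀, (ebe (D.W C) b.1 - eal (D.W C) b.1) / Mn b ≤ δT b) ∧
      ∃ e₀ : pG C J₀ → ℝ, (∀ b, 0 < e₀ b) ∧
      ∀ εT : pG C J₀ → ℝ, (∀ b, 0 < εT b) → (∀ b, εT b ≤ e₀ b) →
      ∀ tol : ConHomeo Ω Λ → (pG C J₀ → ℝ) → pG C J₀ → ℝ, (∀ f k b, 0 < tol f k b) →
      ∃ Y₅ : S5 Y₄, (∀ b, Y₅.μ b = μ b) ∧ (∀ b, (Y₅.Th b).M = Mn b) ∧
        (∀ b, (Y₅.Th b).e = εT b) ∧ Y₅.ε = tol Y₅.h6 Y₅.K₂ ∧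
        ∀ b : pG C J₀, TBand Y₃.Lt Y₄.Fσ Y₄.ς b.1 (X.sl ⟨.inl b.1, inl_mem_pB.2 b.2⟩)
          (Y₂.win b.1) (6 * η b) (Y₅.Th b) := by
  obtain ⟨η, sT, m, es, η0, sT0, m0, es0, hmη, hma, hm1, hm2, hsT, key⟩ :=
    exists_numX D C μ0 μ1 nT
  refine ⟨η, sT, m, es, η0, sT0, m0, es0, hmη, hma, hm1, hm2, hsT, ?_⟩
  intro C₀ μT X Y₂ Ys sc Y₃ Y₄ hσ hn hμ hD hR hε δT hδT
  have hR0 : ∀ s, 0 ≤ Y₂.R s := fun s => (Y₂.J0 s).trans (Y₂.JR s)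
  have hcard : ∀ e : K.G, ((sqE e).card : ℝ) ≤ 4 := fun e => by exact_mod_cast sqE_card_le e
  refine key Y₄ hσ hn (fun s β => (Y₂.stp_le s β).trans (hμ s))
    (fun s β => (Y₂.c_le s β).trans (hμ s)) hD hε (Xw := fun b => Y₂.win b.1)
    (fun b => winE_le hR0) (fun b => ?_) (fun b => ?_) (fun b β s hes htg t ht => ?_) hδT
  · have h1 := eal_lt_ebe (D.W C) b.1
    have h2 := μ0 b
    have h3 : (0:ℝ) < μ b / 32 * (ebe (D.W C) b.1 - eal (D.W C) b.1) :=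
      mul_pos (by linarith) (by linarith)
    refine (winE_sum Y₂.marks.card hR0
      (Rm := μ b / 32 * (ebe (D.W C) b.1 - eal (D.W C) b.1) / 32) fun s hs => ?_).trans ?_
    · have h4 := hR b s hs
      linarith
    · have h5 := hcard b.1
      have h6 : 8 * ((sqE b.1).card : ℝ) *
          (μ b / 32 * (ebe (D.W C) b.1 - eal (D.W C) b.1) / 32) ≤
          8 * 4 * (μ b / 32 * (ebe (D.W C) b.1 - eal (D.W C) b.1) / 32) :=
        mul_le_mul_of_nonneg_right (by linarith) (by linarith)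
      linarith
  · have h1 := winE_card (R := Y₂.R) (e := b.1) Y₂.marks.card
    have h2 := sqE_card_le b.1
    exact h1.trans (by omega)
  · exact (F3W_disp_out Y₂.Lw β s (notMem_wnd hes htg ht)).trans (hμ s.1)

end Vale.Agent.P073.H267.K3
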