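import Vale.Agent.P073.H155.Own2

/-!
# P073, H155: **(OWN-EDGE)** the map of an own edge, with its numbers
-/

open Set Metric Topology Filter

set_option autoImplicit false

namespace P073.H155

open P073.H31 P073.H579

variable {E : Type*} [NormedAddCommGroup E] [NormedSpace ℝ E]

/-- the point of the cell of `x` with the fraction `r` -/
noncomputable def slot (a b : E) (mu : ℝ) (X : Finset E) (w : E → ℝ) (r : ℝ) (x : E) : ℝ := by
  classical
  exact mu + (1 - 2 * mu) *
    ((∑ y ∈ X.filter fun y => pr a b y < pr a b x, w y) + r * w x) / ∑ y ∈ X, w y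

/-- the fibre of `x` is the middle quarter of its cell, with free pieces of the same size -/
structure Slots (a b : E) (mu : ℝ) (X : Finset E) (w : E → ℝ) (s1 s2 s3 s4 : E → ℝ) : Prop where
  e1 : ∀ x, s1 x = slot a b mu X w (1 / 8) x
  e2 : ∀ x, s2 x = slot a b mu X w (3 / 8) x
  e3 : ∀ x, s3 x = slot a b mu X w (5 / 8) x
  e4 : ∀ x, s4 x = slot a b mu X w (7 / 8) x

variable {m : ℕ} {a b : E} {h : E → Fin m → ℝ} {k : Fin m → ℝ → ℝ} {L : Fin m → Finset ℝ}
  {lo hi om : Fin m → ℝ → ℝ} {mu : ℝ}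

/-- **(OWN-EDGE)** -/
theorem exists_own (hab : a ≠ b) (hinj : InjOn h (segment ℝ a b))
    (hc : ContinuousOn h (segment ℝ a b)) (hk : ConicalOn h (segment ℝ a b))
    (hI : ∀ j, Ins1 (k j) (L j : Set ℝ) (lo j) (hi j)) (ha : ∀ j, h a j ∉ L j)
    (hb : ∀ j, h b j ∉ L j)
    (hcr : ∀ x ∈ segment ℝ a b, ∀ j, h x j ∈ L j →
      x ∈ closure {y | y ∈ segment ℝ a b ∧ h x j < h y j} ∧
      x ∈ closure {y | y ∈ segment ℝ a b ∧ h y j < h x j})
    (hun : ∀ x ∈ segment ℝ a b, ∀ j j', h x j ∈ L j → h x j' ∈ L j' → j = j')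
    (hom : ∀ j, ∀ c ∈ L j, 0 < om j c) (hmu : mu ∈ Ioc (0:ℝ) (1 / 4)) :
    ∃ (X : Finset E) (Φ : ConHomeo (segment ℝ a b) (preQ k h (segment ℝ a b)))
      (s1 s2 s3 s4 : E → ℝ), (∀ x, x ∈ X ↔ CrsPt a b h L x) ∧
      prodK k (Φ.toFun a) = h a ∧ prodK k (Φ.toFun b) = h b ∧
      EdgeNum a b h k L lo hi om (8 * (∑ x ∈ X, omX h L om x) / ‖b - a‖) Φ.toFun s1 s2 s3 s4 ∧
      Slots a b mu X (omX h L om) s1 s2 s3 s4 ∧
      (∃ τ : ℝ → ℝ, Continuous τ ∧ Monotone τ ∧ τ 0 = 0 ∧ τ 1 = 1 ∧
        ∀ s ∈ Icc (0:ℝ) 1, prodK k (Φ.toFun (AffineMap.lineMap a b s)) =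
          h (AffineMap.lineMap a b (τ s))) ∧
      ∀ x ∈ X, ∀ j, h x j ∈ L j →
        (∀ s ∈ Icc (s2 x) (s3 x), Φ.toFun (AffineMap.lineMap a b s) j =
          lo j (h x j) + (hi j (h x j) - lo j (h x j)) * ((s - s2 x) / (s3 x - s2 x))) ∨
        ∀ s ∈ Icc (s2 x) (s3 x), Φ.toFun (AffineMap.lineMap a b s) j =
          hi j (h x j) - (hi j (h x j) - lo j (h x j)) * ((s - s2 x) / (s3 x - s2 x)) := by
  classical
  obtain ⟨n, T, T0, T1, TT, hlev, hcov⟩ := exists_enum hab hc hk ha hb hcr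
  have hTm : ∀ i j, i < j → j ≤ n + 1 → T i < T j := by
    intro i j hij hj
    induction j with
    | zero => omega
    | succ j ih =>
      rcases Nat.lt_or_ge i j with h | h
      · exact (ih h (by omega)).trans (TT j (by omega))
      · have : i = j := by omega
        subst this
        exact TT i (by omega)
  have hTI : ∀ i < n, T (i + 1) ∈ Ioo (0:ℝ) 1 := fun i hi' =>
    ⟨by rw [← T0]; exact hTm 0 (i + 1) (by omega) (by omega),
      by rw [← T1]; exact hTm (i + 1) (n + 1) (by omega) le_rfl⟩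
  have hTc : ∀ i < n, T (i + 1) ∈ Icc (0:ℝ) 1 := fun i hi' => Ioo_subset_Icc_self (hTI i hi')
  have hTinj : ∀ i < n, ∀ i' < n, T (i + 1) = T (i' + 1) → i = i' := by
    intro i hi' i' hi'' he
    rcases lt_trichotomy i i' with h1 | h1 | h1
    · exact absurd he (hTm (i + 1) (i' + 1) (by omega) (by omega)).ne
    · exact h1
    · exact absurd he (hTm (i' + 1) (i + 1) (by omega) (by omega)).ne'
  -- the crossing points
  set x : ℕ → E := fun i => AffineMap.lineMap a b (T (i + 1)) with hx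
  have hxs : ∀ i < n, x i ∈ segment ℝ a b := fun i hi' => lineMap_mem (hTc i hi')
  have hxpr : ∀ i < n, pr a b (x i) = T (i + 1) := fun i hi' => pr_lineMap hab (hTI i hi').1.le
  have hxinj : ∀ i < n, ∀ i' < n, x i = x i' → i = i' := fun i hi' i' hi'' he =>
    hTinj i hi' i' hi'' (lineMap_injective hab he)
  have hdat : ∀ i, ∃ (j : Fin m) (ε : ℝ), i < n → h (x i) j ∈ L j ∧ (ε = 1 ∨ ε = -1) ∧
      ∃ δ > 0, ∀ s ∈ Icc (0:ℝ) 1, |s - T (i + 1)| ≤ δ →
      (T (i + 1) < s → 0 < ε * (h (AffineMap.lineMap a b s) j - h (x i) j)) ∧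
      (s < T (i + 1) → ε * (h (AffineMap.lineMap a b s) j - h (x i) j) < 0) := by
    intro i
    by_cases hi' : i < n
    · obtain ⟨j, hj⟩ := hlev i hi'
      obtain ⟨ε, h1, h2⟩ := exists_sign hab hk (hTI i hi') (hcr _ (hxs i hi') j hj)
      exact ⟨j, ε, fun _ => ⟨hj, h1, h2⟩⟩
    · by_cases hm : Nonempty (Fin m)
      · exact ⟨hm.some, 0, fun h => absurd h hi'⟩
      · exfalso
        have : h a = h b := funext fun j => absurd ⟨j⟩ hm
        exact hab (hinj (left_mem_segment ℝ a b) (right_mem_segment ℝ a b) this)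
  choose cd ε hdat using hdat
  have hsc := segC_apply hab
  have hinv : ∀ y ∈ segment ℝ a b, (AffineMap.lineMap a b ((segC hab).invFun y) : E) = y ∧
      (segC hab).invFun y ∈ Icc (0:ℝ) 1 := by
    intro y hy
    refine ⟨?_, (segC hab).mapsTo_inv hy⟩
    have := (segC hab).right_inv hy
    rwa [hsc] at this
  have hF : FaceIn n (segment ℝ a b) h (fun j => (L j : Set ℝ))
      (fun i y => (segC hab).invFun y - T (i + 1)) cd (fun i => h (x i) (cd i)) ε := by
    have hcp : IsCompact (segment ℝ a b) := by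
      rw [segment_eq_image_lineMap]; exact isCompact_Icc.image AffineMap.lineMap_continuous
    refine ⟨hcp, hinj, hc, hk, fun i _ =>
      (segC hab).cont_inv.sub continuousOn_const, fun i hi' => (hdat i hi').2.1,
      fun i hi' => (hdat i hi').1, fun y hy j hj => ?_, fun i hi' y hy h0 => ?_,
      fun i hi' i' hi'' _ y hy h0 h0' => ?_, fun i hi' y hy h0 => ?_⟩
    · obtain ⟨e1, e2⟩ := hinv y hy
      obtain ⟨i, hi', h1⟩ := hcov _ e2 ⟨j, by rw [e1]; exact hj⟩
      refine ⟨i, hi', ?_, by show _ - _ = (0:ℝ); rw [h1, sub_self]⟩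
      have h2 : x i = y := by rw [← e1, ← h1]
      have h3 := (hdat i hi').1
      rw [h2] at h3
      exact hun y hy _ _ h3 hj
    · obtain ⟨e1, -⟩ := hinv y hy
      have h0' : (segC hab).invFun y = T (i + 1) := sub_eq_zero.1 h0
      have h2 : x i = y := by rw [← e1, h0']
      rw [h2]
    · exact hTinj i hi' i' hi'' ((sub_eq_zero.1 h0).symm.trans (sub_eq_zero.1 h0'))
    · obtain ⟨-, -, δ, hδ, hsg⟩ := hdat i hi'
      have h0' : (segC hab).invFun y = T (i + 1) := sub_eq_zero.1 h0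
      have h1 : ∀ᶠ z in 𝓝[segment ℝ a b] y, |(segC hab).invFun z - T (i + 1)| < δ := by
        have h2 := (segC hab).cont_inv y hy
        rw [ContinuousWithinAt, h0'] at h2
        filter_upwards [h2 (Metric.ball_mem_nhds _ hδ)] with z hz
        rwa [mem_preimage, Metric.mem_ball, Real.dist_eq] at hz
      rw [eventually_nhdsWithin_iff] at h1
      filter_upwards [h1] with z hz hzs
      obtain ⟨e1, e2⟩ := hinv z hzs
      have h3 := hsg _ e2 (hz hzs).le
      rw [e1] at h3
      set u := (segC hab).invFun z with hu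
      constructor
      · intro h4
        have h4 : h (x i) (cd i) < h z (cd i) := h4
        show 0 < ε i * (u - T (i + 1))
        rcases lt_trichotomy u (T (i + 1)) with h5 | h5 | h5
        · have h6 := h3.2 h5
          have h7 : ε i < 0 := by
            by_contra hcon
            exact absurd h6 (not_lt.2 (mul_nonneg (not_lt.1 hcon) (sub_pos.2 h4).le))
          exact mul_pos_of_neg_of_neg h7 (sub_neg.2 h5)
        · exfalso
          have : z = x i := by rw [← e1, h5]
          rw [this] at h4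
          exact lt_irrefl _ h4
        · have h6 := h3.1 h5
          have h7 : 0 < ε i := by
            by_contra hcon
            exact absurd h6 (not_lt.2 (mul_nonpos_of_nonpos_of_nonneg (not_lt.1 hcon)
              (sub_pos.2 h4).le))
          exact mul_pos h7 (sub_pos.2 h5)
      · intro h4
        have h4 : h z (cd i) < h (x i) (cd i) := h4
        show ε i * (u - T (i + 1)) < 0
        rcases lt_trichotomy u (T (i + 1)) with h5 | h5 | h5
        · have h6 := h3.2 h5
          have h7 : 0 < ε i := by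
            by_contra hcon
            exact absurd h6 (not_lt.2 (mul_nonneg_of_nonpos_of_nonpos (not_lt.1 hcon)
              (sub_neg.2 h4).le))
          exact mul_neg_of_pos_of_neg h7 (sub_neg.2 h5)
        · exfalso
          have : z = x i := by rw [← e1, h5]
          rw [this] at h4
          exact lt_irrefl _ h4
        · have h6 := h3.1 h5
          have h7 : ε i < 0 := by
            by_contra hcon
            exact absurd h6 (not_lt.2 (mul_nonpos_of_nonneg_of_nonpos (not_lt.1 hcon)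
              (sub_neg.2 h4).le))
          exact mul_neg_of_neg_of_pos h7 (sub_pos.2 h5)
  -- weights
  set w : ℕ → ℝ := fun i => omX h L om (x i) with hw
  have hwj : ∀ i < n, ∀ j, h (x i) j ∈ L j → w i = om j (h (x i) j) := fun i hi' j hj =>
    omX_eq hj fun j' hne hj' => hne (hun _ (hxs i hi') _ _ hj' hj)
  have hw0 : ∀ i < n, 0 < w i := by
    intro i hi'
    obtain ⟨j, hj⟩ := hlev i hi'
    rw [hwj i hi' j hj]
    exact hom j _ hj
  have hm0 : 0 < mu := hmu.1
  have hm1 : mu < 1 / 2 := by linarith [hmu.2]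
  have HP := prt_pos hm0 hm1 hw0 T0 T1 TT
  have hpb : ∀ i < n, pb' mu n w i = cp mu n w (3 / 8) i := fun i hi' => if_pos hi'
  have hpa : ∀ i, pa mu n w (i + 1) = cp mu n w (5 / 8) i := fun i => by
    unfold pa
    rw [if_neg (Nat.succ_ne_zero i), Nat.add_sub_cancel]
  obtain ⟨Φ, hΦ1, hΦ2, -⟩ := exists_ownEdge (segC hab) hF hI HP.ownPar
  simp only [hsc] at hΦ1 hΦ2
  -- the set of the crossing points
  set X : Finset E := (Finset.range n).image x with hX
  have hXi : ∀ y, y ∈ X ↔ ∃ i < n, x i = y := fun y => by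
    rw [hX, Finset.mem_image]
    exact ⟨fun ⟨i, h1, h2⟩ => ⟨i, Finset.mem_range.1 h1, h2⟩,
      fun ⟨i, h1, h2⟩ => ⟨i, Finset.mem_range.2 h1, h2⟩⟩
  have hXc : ∀ y, y ∈ X ↔ CrsPt a b h L y := by
    intro y
    rw [hXi]
    constructor
    · rintro ⟨i, hi', rfl⟩
      exact ⟨hxs i hi', hlev i hi'⟩
    · rintro ⟨hy, j, hj⟩
      obtain ⟨e1, e2⟩ := hinv y hy
      obtain ⟨i, hi', h1⟩ := hcov _ e2 ⟨j, by rw [e1]; exact hj⟩
      exact ⟨i, hi', by rw [← e1, ← h1]⟩
  have hsum : ∑ y ∈ X, omX h L om y = ps w n := by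
    rw [hX, Finset.sum_image]
    · rfl
    · intro i hi' i' hi'' he
      exact hxinj i (Finset.mem_range.1 hi') i' (Finset.mem_range.1 hi'') he
  have hpar : ∀ i < n, ∑ y ∈ X.filter (fun y => pr a b y < pr a b (x i)), omX h L om y =
      ps w i := by
    intro i hi'
    have e : X.filter (fun y => pr a b y < pr a b (x i)) = (Finset.range i).image x := by
      ext y
      rw [Finset.mem_filter, hXi, Finset.mem_image]
      constructor
      · rintro ⟨⟨i', hi'', rfl⟩, h1⟩
        rw [hxpr i' hi'', hxpr i hi'] at h1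
        refine ⟨i', Finset.mem_range.2 ?_, rfl⟩
        by_contra hcon
        rcases (not_lt.1 hcon).lt_or_eq with h2 | h2
        · exact absurd h1 (not_lt.2 (hTm (i + 1) (i' + 1) (by omega) (by omega)).le)
        · rw [h2] at h1; exact lt_irrefl _ h1
      · rintro ⟨i', h1, rfl⟩
        have h1 := Finset.mem_range.1 h1
        refine ⟨⟨i', h1.trans hi', rfl⟩, ?_⟩
        rw [hxpr i' (h1.trans hi'), hxpr i hi']
        exact hTm (i' + 1) (i + 1) (by omega) (by omega)
    rw [e, Finset.sum_image]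
    · rfl
    · intro i1 h1 i2 h2 he
      exact hxinj i1 ((Finset.mem_range.1 h1).trans hi') i2 ((Finset.mem_range.1 h2).trans hi') he
  have hslot : ∀ r, ∀ i < n, slot a b mu X (omX h L om) r (x i) = cp mu n w r i := by
    intro r i hi'
    unfold slot cp
    rw [hsum]
    congr 4
    exact hpar i hi'
  have hba : 0 < ‖b - a‖ := norm_pos_iff.2 (sub_ne_zero.2 hab.symm)
  set W := ps w n with hWd
  -- the length of a quarter of a cell
  have hlen : ∀ i < n, ∀ r r', cp mu n w r' i - cp mu n w r i =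
      (1 - 2 * mu) * ((r' - r) * w i) / W := by
    intro i _ r r'
    unfold cp
    ring
  have hWpos : ∀ i < n, 0 < W := fun i hi' => ps_pos hw0 (by omega)
  -- the bound
  have hbd : ∀ i < n, w i ≤ 8 * W / ‖b - a‖ * ‖b - a‖ * ((1 - 2 * mu) * (1 / 4 * w i) / W) := by
    intro i hi'
    have h1 := hWpos i hi'
    have h2 := hw0 i hi'
    rw [div_mul_cancel₀ _ hba.ne']
    have e : 8 * W * ((1 - 2 * mu) * (1 / 4 * w i) / W) = 2 * (1 - 2 * mu) * w i := by
      field_simp; ring
    rw [e]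
    have h3 : 1 ≤ 2 * (1 - 2 * mu) := by linarith [hmu.2]
    calc w i = 1 * w i := (one_mul _).symm
      _ ≤ _ := mul_le_mul_of_nonneg_right h3 h2.le
  have hfib : ∀ i < n, ∀ s ∈ Icc (0:ℝ) 1,
      (prodK k (Φ.toFun (AffineMap.lineMap a b s)) = h (x i) ↔
        cp mu n w (3 / 8) i ≤ s ∧ s ≤ cp mu n w (5 / 8) i) := by
    intro i hi' s hs
    have hm := HP.ownPar.maps hs
    rw [hΦ1 s hs, ← hpb i hi', ← hpa i, ← HP.fib hi']
    constructor
    · intro he
      exact lineMap_injective hab (hinj (lineMap_mem hm) (hxs i hi') he)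
    · intro he
      rw [he]
  have hcp01 : ∀ i < n, ∀ r, 0 ≤ r → r ≤ 1 → cp mu n w r i ∈ Icc (0:ℝ) 1 := fun i hi' r h0 h1 =>
    ⟨hm0.le.trans (cp_ge hm1 hw0 hi' h0), (cp_le hm1 hw0 hi' h1).trans (by linarith)⟩
  -- the affine form
  have haff : ∀ i < n, ∀ j, h (x i) j ∈ L j →
      (∀ s ∈ Icc (cp mu n w (3 / 8) i) (cp mu n w (5 / 8) i),
        Φ.toFun (AffineMap.lineMap a b s) j = lo j (h (x i) j) +
          (hi j (h (x i) j) - lo j (h (x i) j)) * ((s - cp mu n w (3 / 8) i) /
            (cp mu n w (5 / 8) i - cp mu n w (3 / 8) i))) ∨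
      ∀ s ∈ Icc (cp mu n w (3 / 8) i) (cp mu n w (5 / 8) i),
        Φ.toFun (AffineMap.lineMap a b s) j = hi j (h (x i) j) -
          (hi j (h (x i) j) - lo j (h (x i) j)) * ((s - cp mu n w (3 / 8) i) /
            (cp mu n w (5 / 8) i - cp mu n w (3 / 8) i)) := by
    intro i hi' j hj
    have hcd : cd i = j := hun _ (hxs i hi') _ _ (hdat i hi').1 hj
    subst hcd
    have hlt := cp_lt hm1 hw0 hi' (show (3:ℝ) / 8 < 5 / 8 by norm_num)
    have key : ∀ s ∈ Icc (cp mu n w (3 / 8) i) (cp mu n w (5 / 8) i),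
        Φ.toFun (AffineMap.lineMap a b s) (cd i) = if ε i = 1 then
          lo (cd i) (h (x i) (cd i)) + (hi (cd i) (h (x i) (cd i)) - lo (cd i) (h (x i) (cd i))) *
            ((s - cp mu n w (3 / 8) i) / (cp mu n w (5 / 8) i - cp mu n w (3 / 8) i))
        else hi (cd i) (h (x i) (cd i)) - (hi (cd i) (h (x i) (cd i)) - lo (cd i) (h (x i) (cd i)))
          * ((s - cp mu n w (3 / 8) i) / (cp mu n w (5 / 8) i - cp mu n w (3 / 8) i)) := by
      intro s hs
      have hs01 : s ∈ Icc (0:ℝ) 1 :=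
        ⟨(hcp01 i hi' _ (by norm_num) (by norm_num)).1.trans hs.1,
          hs.2.trans (hcp01 i hi' _ (by norm_num) (by norm_num)).2⟩
      have h1 := hΦ2 i hi' s hs01 ((HP.fib hi').2 (by rw [hpb i hi', hpa i]; exact hs))
      rw [hpb i hi', hpa i, rp_mid hlt hs.1 hs.2] at h1
      exact h1
    rcases (hdat i hi').2.1 with h1 | h1
    · left
      intro s hs
      rw [key s hs, if_pos h1]
    · right
      intro s hs
      rw [key s hs, if_neg (by rw [h1]; norm_num)]
  refine ⟨X, Φ, slot a b mu X (omX h L om) (1 / 8), slot a b mu X (omX h L om) (3 / 8),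
    slot a b mu X (omX h L om) (5 / 8), slot a b mu X (omX h L om) (7 / 8), hXc, ?_, ?_, ?_,
    ⟨fun _ => rfl, fun _ => rfl, fun _ => rfl, fun _ => rfl⟩,
    ⟨ta n (pa mu n w) (pb' mu n w) T, ?_, HP.mono, HP.ta_zero, HP.ta_one, hΦ1⟩, ?_⟩
  · have := hΦ1 0 ⟨le_refl _, zero_le_one⟩
    rwa [HP.ta_zero, AffineMap.lineMap_apply_zero] at this
  · have := hΦ1 1 ⟨zero_le_one, le_refl _⟩
    rwa [HP.ta_one, AffineMap.lineMap_apply_one] at this
  · -- the numbers
    have hcrs : ∀ y, CrsPt a b h L y → ∃ i < n, x i = y := fun y hy => (hXi y).1 ((hXc y).2 hy)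
    rw [hsum]
    refine ⟨fun y hy => ?_, fun y hy => ?_, fun y hy => ?_, fun y hy => ?_, fun y hy => ?_,
      fun y z hy hz hyz => ?_, fun y hy s hs => ?_, fun y hy j hj => ?_, fun y hy j hj => ?_,
      fun y hy j hj s hs s' hs' => ?_⟩
    · obtain ⟨i, hi', rfl⟩ := hcrs y hy
      rw [hslot _ i hi']
      exact hm0.trans_le (cp_ge hm1 hw0 hi' (by norm_num))
    · obtain ⟨i, hi', rfl⟩ := hcrs y hy
      rw [hslot _ i hi', hslot _ i hi']
      exact cp_lt hm1 hw0 hi' (by norm_num)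
    · obtain ⟨i, hi', rfl⟩ := hcrs y hy
      rw [hslot _ i hi', hslot _ i hi']
      exact cp_lt hm1 hw0 hi' (by norm_num)
    · obtain ⟨i, hi', rfl⟩ := hcrs y hy
      rw [hslot _ i hi', hslot _ i hi']
      exact cp_lt hm1 hw0 hi' (by norm_num)
    · obtain ⟨i, hi', rfl⟩ := hcrs y hy
      rw [hslot _ i hi']
      exact (cp_le hm1 hw0 hi' (by norm_num)).trans_lt (by linarith)
    · obtain ⟨i, hi', rfl⟩ := hcrs y hy
      obtain ⟨i', hi'', rfl⟩ := hcrs z hz
      rw [hslot _ i hi', hslot _ i' hi'', hslot _ i hi', hslot _ i' hi'']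
      rcases lt_trichotomy i i' with h1 | h1 | h1
      · exact Or.inl (cp_le_next hm1 hw0 h1 hi'' (by norm_num) (by norm_num))
      · exact absurd (by rw [h1]) hyz
      · exact Or.inr (cp_le_next hm1 hw0 h1 hi' (by norm_num) (by norm_num))
    · obtain ⟨i, hi', rfl⟩ := hcrs y hy
      rw [hslot _ i hi', hslot _ i hi']
      exact hfib i hi' s hs
    · obtain ⟨i, hi', rfl⟩ := hcrs y ⟨hy, j, hj⟩
      rw [hslot _ i hi', hslot _ i hi', hlen i hi', ← hwj i hi' j hj]
      have := hbd i hi'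
      have e : ((3:ℝ) / 8 - 1 / 8) = 1 / 4 := by norm_num
      rw [e]
      exact this
    · obtain ⟨i, hi', rfl⟩ := hcrs y ⟨hy, j, hj⟩
      rw [hslot _ i hi', hslot _ i hi', hlen i hi', ← hwj i hi' j hj]
      have := hbd i hi'
      have e : ((7:ℝ) / 8 - 5 / 8) = 1 / 4 := by norm_num
      rw [e]
      exact this
    · obtain ⟨i, hi', rfl⟩ := hcrs y ⟨hy, j, hj⟩
      rw [hslot _ i hi', hslot _ i hi'] at hs hs'
      have hlo := (hI j).lt _ (Finset.mem_coe.2 hj)
      have hg : 0 < hi j (h (x i) j) - lo j (h (x i) j) := sub_pos.2 hlo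
      set c2 := cp mu n w (3 / 8) i with hc2
      set c3 := cp mu n w (5 / 8) i with hc3
      have hlt : c2 < c3 := cp_lt hm1 hw0 hi' (by norm_num)
      have hd : 0 < c3 - c2 := sub_pos.2 hlt
      have e1 : |Φ.toFun (AffineMap.lineMap a b s) j - Φ.toFun (AffineMap.lineMap a b s') j| =
          (hi j (h (x i) j) - lo j (h (x i) j)) * (|s - s'| / (c3 - c2)) := by
        have e2 : ∀ u v : ℝ, (u - c2) / (c3 - c2) - (v - c2) / (c3 - c2) = (u - v) / (c3 - c2) :=
          fun u v => by rw [← sub_div]; congr 1; ring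
        rcases haff i hi' j hj with h1 | h1
        · rw [h1 s hs, h1 s' hs']
          have : ∀ A B C D : ℝ, A + B * C - (A + B * D) = B * (C - D) := fun A B C D => by ring
          rw [this, e2, abs_mul, abs_of_pos hg, abs_div, abs_of_pos hd]
        · rw [h1 s hs, h1 s' hs']
          have : ∀ A B C D : ℝ, A - B * C - (A - B * D) = B * (D - C) := fun A B C D => by ring
          rw [this, e2, abs_mul, abs_of_pos hg, abs_div, abs_of_pos hd, abs_sub_comm s' s]
      rw [e1, ← hwj i hi' j hj]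
      have h3 := hbd i hi'
      have h4 : c3 - c2 = (1 - 2 * mu) * (1 / 4 * w i) / W := by
        rw [hc3, hc2, hlen i hi']
        have e : ((5:ℝ) / 8 - 3 / 8) = 1 / 4 := by norm_num
        rw [e]
      rw [← h4] at h3
      have h5 : w i / (c3 - c2) ≤ 8 * W / ‖b - a‖ * ‖b - a‖ := (div_le_iff₀ hd).2 h3
      calc w i * ((hi j (h (x i) j) - lo j (h (x i) j)) * (|s - s'| / (c3 - c2)))
          = (hi j (h (x i) j) - lo j (h (x i) j)) * (w i / (c3 - c2) * |s - s'|) := by ring
        _ ≤ _ := mul_le_mul_of_nonneg_left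
            (mul_le_mul_of_nonneg_right h5 (abs_nonneg _)) hg.le
  · unfold ta
    exact continuous_finsetSum _ fun i _ => continuous_const.mul (continuous_rp _ _)
  · intro y hy j hj
    obtain ⟨i, hi', rfl⟩ := (hXi y).1 hy
    rw [hslot _ i hi', hslot _ i hi']
    exact haff i hi' j hj

end P073.H155
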