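import Vale.Agent.P073.H579.OwnEdge
import Vale.Agent.P073.H155.Crv

/-!
# P073, H155 (OWN-EDGE): monotone parameter changes of an interval
-/

open Set Metric Topology Filter

set_option autoImplicit false

namespace P073.H155

open P073.H31 P073.H579

/-- a ramp -/
noncomputable def rp (p q s : ℝ) : ℝ := cl1 ((s - p) / (q - p))

variable {p q s s' : ℝ}

theorem rp_zero (h : p < q) (hs : s ≤ p) : rp p q s = 0 := by
  unfold rp cl1
  have : (s - p) / (q - p) ≤ 0 := div_nonpos_of_nonpos_of_nonneg (by linarith) (by linarith)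
  rw [min_eq_right (by linarith), max_eq_left this]

theorem rp_one (h : p < q) (hs : q ≤ s) : rp p q s = 1 := by
  unfold rp cl1
  have : 1 ≤ (s - p) / (q - p) := by rw [one_le_div (by linarith)]; linarith
  rw [min_eq_left this, max_eq_right zero_le_one]

theorem rp_mid (h : p < q) (h0 : p ≤ s) (h1 : s ≤ q) : rp p q s = (s - p) / (q - p) := by
  unfold rp cl1
  have e1 : (s - p) / (q - p) ≤ 1 := by rw [div_le_one (by linarith)]; linarith
  have e0 : 0 ≤ (s - p) / (q - p) := div_nonneg (by linarith) (by linarith)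
  rw [min_eq_right e1, max_eq_right e0]

theorem rp_nonneg (p q s : ℝ) : 0 ≤ rp p q s := by unfold rp cl1; exact le_max_left _ _

theorem rp_le_one (p q s : ℝ) : rp p q s ≤ 1 := by
  unfold rp cl1; exact max_le zero_le_one (min_le_left _ _)

theorem rp_mono (h : p < q) : Monotone (rp p q) := by
  intro s s' hs
  unfold rp cl1
  have : (s - p) / (q - p) ≤ (s' - p) / (q - p) :=
    div_le_div_of_nonneg_right (by linarith) (by linarith)
  exact max_le_max le_rfl (min_le_min le_rfl this)

theorem rp_lt_one (h : p < q) (hs : s < q) : rp p q s < 1 := by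
  rcases le_total s p with h1 | h1
  · rw [rp_zero h h1]; exact zero_lt_one
  · rw [rp_mid h h1 hs.le, div_lt_one (by linarith)]; linarith

theorem rp_pos (h : p < q) (hs : p < s) : 0 < rp p q s := by
  rcases le_total s q with h1 | h1
  · rw [rp_mid h hs.le h1]; exact div_pos (by linarith) (by linarith)
  · rw [rp_one h h1]; exact zero_lt_one

theorem rp_lt (h : p < q) (h0 : p ≤ s) (h1 : s < q) (hs : s < s') : rp p q s < rp p q s' := by
  rcases le_total s' q with h2 | h2
  · rw [rp_mid h h0 h1.le, rp_mid h (by linarith) h2]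
    exact div_lt_div_of_pos_right (by linarith) (by linarith)
  · rw [rp_one h h2]; exact rp_lt_one h h1

theorem continuous_rp (p q : ℝ) : Continuous (rp p q) := by
  unfold rp
  exact continuous_cl1.comp ((continuous_id.sub continuous_const).div_const _)

theorem conicalOn_rp (p q : ℝ) {X : Set ℝ} (hX : ConicalSet X) : ConicalOn (rp p q) X := by
  unfold rp
  refine conicalOn_cl1 ?_ ((continuous_id.sub continuous_const).div_const _).continuousOn
  have := conicalOn_affR hX (q - p)⁻¹ (-(p * (q - p)⁻¹))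
  refine this.congr fun s _ => ?_
  rw [div_eq_mul_inv]; ring

/-- an ordered partition of `[0, 1]` into free pieces `[a i, b i]` and fibres `[b i, a (i+1)]` -/
structure Prt (n : ℕ) (a b T : ℕ → ℝ) : Prop where
  a0 : a 0 = 0
  bn : b n = 1
  ab : ∀ i ≤ n, a i < b i
  ba : ∀ i < n, b i < a (i + 1)
  T0 : T 0 = 0
  T1 : T (n + 1) = 1
  TT : ∀ i ≤ n, T i < T (i + 1)

/-- the monotone parameter change -/
noncomputable def ta (n : ℕ) (a b T : ℕ → ℝ) (s : ℝ) : ℝ :=
  ∑ i ∈ Finset.range (n + 1), (T (i + 1) - T i) * rp (a i) (b i) s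

namespace Prt

variable {n : ℕ} {a b T : ℕ → ℝ} (H : Prt n a b T)

include H

theorem a_lt {i j : ℕ} (hj : j ≤ n) (hij : i < j) : b i < a j := by
  induction j with
  | zero => omega
  | succ j ih =>
    rcases Nat.lt_or_ge i j with h | h
    · exact (ih (by omega) h).trans ((H.ab j (by omega)).trans (H.ba j (by omega)))
    · have : i = j := by omega
      subst this
      exact H.ba i (by omega)

theorem term_nonneg {i : ℕ} (hi : i ≤ n) : 0 < T (i + 1) - T i := by linarith [H.TT i hi]

/-- (A) and (D): splitting at `k` -/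
theorem le_of_zero {k : ℕ} (hk : k ≤ n + 1) {s : ℝ}
    (h0 : ∀ i ≤ n, k ≤ i → rp (a i) (b i) s = 0) : ta n a b T s ≤ T k := by
  have h1 : ta n a b T s = ∑ i ∈ Finset.range k, (T (i + 1) - T i) * rp (a i) (b i) s := by
    unfold ta
    refine (Finset.sum_subset (Finset.range_mono hk) fun i hi hik => ?_).symm
    rw [Finset.mem_range] at hi hik
    rw [h0 i (by omega) (by omega), mul_zero]
  rw [h1]
  have h2 : ∑ i ∈ Finset.range k, (T (i + 1) - T i) = T k := by
    rw [Finset.sum_range_sub, H.T0, sub_zero]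
  rw [← h2]
  refine Finset.sum_le_sum fun i hi => ?_
  rw [Finset.mem_range] at hi
  exact mul_le_of_le_one_right (H.term_nonneg (by omega)).le (rp_le_one _ _ _)

theorem ge_of_one {k : ℕ} (hk : k ≤ n + 1) {s : ℝ}
    (h1 : ∀ i < k, rp (a i) (b i) s = 1) : T k ≤ ta n a b T s := by
  have h2 : ∑ i ∈ Finset.range k, (T (i + 1) - T i) = T k := by
    rw [Finset.sum_range_sub, H.T0, sub_zero]
  rw [← h2]
  unfold ta
  calc ∑ i ∈ Finset.range k, (T (i + 1) - T i)
      = ∑ i ∈ Finset.range k, (T (i + 1) - T i) * rp (a i) (b i) s :=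
        Finset.sum_congr rfl fun i hi => by rw [h1 i (Finset.mem_range.1 hi), mul_one]
    _ ≤ _ := Finset.sum_le_sum_of_subset_of_nonneg (Finset.range_mono hk) fun i hi _ =>
        mul_nonneg (H.term_nonneg (by rw [Finset.mem_range] at hi; omega)).le (rp_nonneg _ _ _)

theorem le_D {k : ℕ} (hk : k ≤ n) {s : ℝ} (hs : s ≤ a k) : ta n a b T s ≤ T k := by
  refine H.le_of_zero (by omega) fun i hi hki => rp_zero (H.ab i hi) ?_
  rcases hki.lt_or_eq with h | h
  · exact hs.trans ((H.ab k hk).trans (H.a_lt hi h)).le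
  · rw [← h]; exact hs

theorem ge_C {k : ℕ} (hk : k ≤ n) {s : ℝ} (hs : b k ≤ s) : T (k + 1) ≤ ta n a b T s := by
  refine H.ge_of_one (by omega) fun i hi => rp_one (H.ab i (by omega)) ?_
  rcases (Nat.lt_succ_iff.1 hi).lt_or_eq with h | h
  · exact ((H.a_lt hk h).trans (H.ab k hk)).le.trans hs
  · rw [h]; exact hs

theorem lt_A {k : ℕ} (hk : k ≤ n) {s : ℝ} (hs : s < b k) : ta n a b T s < T (k + 1) := by
  have h0 : ∀ i ≤ n, k + 1 ≤ i → rp (a i) (b i) s = 0 := fun i hi hki =>
    rp_zero (H.ab i hi) (hs.trans (H.a_lt hi (by omega))).le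
  have h1 : ta n a b T s = ∑ i ∈ Finset.range (k + 1), (T (i + 1) - T i) * rp (a i) (b i) s := by
    unfold ta
    refine (Finset.sum_subset (Finset.range_mono (by omega)) fun i hi hik => ?_).symm
    rw [Finset.mem_range] at hi hik
    rw [h0 i (by omega) (by omega), mul_zero]
  rw [h1]
  have h2 : ∑ i ∈ Finset.range (k + 1), (T (i + 1) - T i) = T (k + 1) := by
    rw [Finset.sum_range_sub, H.T0, sub_zero]
  rw [← h2]
  refine Finset.sum_lt_sum (fun i hi => ?_) ⟨k, Finset.mem_range.2 (by omega), ?_⟩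
  · rw [Finset.mem_range] at hi
    exact mul_le_of_le_one_right (H.term_nonneg (by omega)).le (rp_le_one _ _ _)
  · have h3 := H.term_nonneg hk
    have h4 := rp_lt_one (H.ab k hk) hs
    calc (T (k + 1) - T k) * rp (a k) (b k) s < (T (k + 1) - T k) * 1 :=
          mul_lt_mul_of_pos_left h4 h3
      _ = _ := mul_one _

theorem gt_B {k : ℕ} (hk : k ≤ n) {s : ℝ} (hs : a k < s) : T k < ta n a b T s := by
  have h1 : ∀ i < k, rp (a i) (b i) s = 1 := fun i hi =>
    rp_one (H.ab i (by omega)) ((H.a_lt hk hi).trans hs).le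
  have h2 : ∑ i ∈ Finset.range k, (T (i + 1) - T i) = T k := by
    rw [Finset.sum_range_sub, H.T0, sub_zero]
  rw [← h2]
  unfold ta
  have h3 := H.term_nonneg hk
  have h4 := mul_pos h3 (rp_pos (H.ab k hk) hs)
  calc ∑ i ∈ Finset.range k, (T (i + 1) - T i)
      = ∑ i ∈ Finset.range k, (T (i + 1) - T i) * rp (a i) (b i) s :=
        Finset.sum_congr rfl fun i hi => by rw [h1 i (Finset.mem_range.1 hi), mul_one]
    _ < ∑ i ∈ Finset.range (k + 1), (T (i + 1) - T i) * rp (a i) (b i) s := by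
        rw [Finset.sum_range_succ]; linarith
    _ ≤ _ := Finset.sum_le_sum_of_subset_of_nonneg (Finset.range_mono (by omega)) fun i hi _ =>
        mul_nonneg (H.term_nonneg (by rw [Finset.mem_range] at hi; omega)).le (rp_nonneg _ _ _)

theorem fib {i : ℕ} (hi : i < n) {s : ℝ} :
    ta n a b T s = T (i + 1) ↔ b i ≤ s ∧ s ≤ a (i + 1) := by
  constructor
  · intro h
    constructor
    · by_contra hcon
      exact absurd h (H.lt_A hi.le (not_le.1 hcon)).ne
    · by_contra hcon
      exact absurd h (H.gt_B hi (not_le.1 hcon)).ne'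
  · rintro ⟨h1, h2⟩
    exact le_antisymm (H.le_D hi h2) (H.ge_C hi.le h1)

theorem mono : Monotone (ta n a b T) := by
  intro s s' hs
  unfold ta
  refine Finset.sum_le_sum fun i hi => ?_
  rw [Finset.mem_range] at hi
  exact mul_le_mul_of_nonneg_left (rp_mono (H.ab i (by omega)) hs) (H.term_nonneg (by omega)).le

theorem ta_zero : ta n a b T 0 = 0 := by
  refine le_antisymm ?_ ?_
  · have := H.le_D (Nat.zero_le n) (s := 0) H.a0.ge
    rwa [H.T0] at this
  · unfold ta
    exact Finset.sum_nonneg fun i hi => mul_nonneg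
      (H.term_nonneg (by rw [Finset.mem_range] at hi; omega)).le (rp_nonneg _ _ _)

theorem ta_one : ta n a b T 1 = 1 := by
  refine le_antisymm ?_ ?_
  · have := H.le_of_zero (k := n + 1) le_rfl (s := 1) fun i hi hk => by omega
    rwa [H.T1] at this
  · have := H.ge_C le_rfl (s := 1) H.bn.le
    rwa [H.T1] at this

/-- the piece of a point -/
theorem exists_piece {s : ℝ} (h0 : 0 ≤ s) (h1 : s < 1) :
    (∃ i ≤ n, a i ≤ s ∧ s < b i) ∨ ∃ i < n, b i ≤ s ∧ s < a (i + 1) := by
  classical
  set P : ℕ → Prop := fun i => a i ≤ s with hP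
  have hP0 : P 0 := by show a 0 ≤ s; rw [H.a0]; exact h0
  set i := Nat.findGreatest P n with hi
  have hin : i ≤ n := Nat.findGreatest_le n
  have hPi : P i := Nat.findGreatest_spec (Nat.zero_le n) hP0
  rcases lt_or_ge s (b i) with h | h
  · exact Or.inl ⟨i, hin, hPi, h⟩
  · have hlt : i < n := by
      rcases hin.lt_or_eq with h2 | h2
      · exact h2
      · rw [h2, H.bn] at h; linarith
    refine Or.inr ⟨i, hlt, h, ?_⟩
    by_contra hcon
    have := Nat.findGreatest_is_greatest (P := P) (n := n) (k := i + 1) (by omega) (by omega)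
    exact this (not_lt.1 hcon)

theorem inj_aux {s s' : ℝ} (h0 : 0 ≤ s) (h1 : s' ≤ 1) (hss : s < s')
    (h : ta n a b T s = ta n a b T s')
    (hz : ∀ i < n, rp (b i) (a (i + 1)) s = rp (b i) (a (i + 1)) s') : False := by
  rcases H.exists_piece h0 (hss.trans_le h1) with ⟨i, hi, h2, h3⟩ | ⟨i, hi, h2, h3⟩
  · refine absurd h (ne_of_lt ?_)
    unfold ta
    refine Finset.sum_lt_sum (fun k hk => ?_) ⟨i, Finset.mem_range.2 (by omega), ?_⟩
    · rw [Finset.mem_range] at hk
      exact mul_le_mul_of_nonneg_left (rp_mono (H.ab k (by omega)) hss.le)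
        (H.term_nonneg (by omega)).le
    · exact mul_lt_mul_of_pos_left (rp_lt (H.ab i hi) h2 h3 hss) (H.term_nonneg hi)
  · exact absurd (hz i hi) (rp_lt (H.ba i hi) h2 h3 hss).ne

/-- **the parameter change of an own edge** -/
theorem ownPar : OwnPar n (fun i => T (i + 1)) (ta n a b T) fun i => rp (b i) (a (i + 1)) := by
  have hTm : ∀ i j, i < j → j ≤ n + 1 → T i < T j := by
    intro i j hij hj
    induction j with
    | zero => omega
    | succ j ih =>
      rcases Nat.lt_or_ge i j with h | h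
      · exact (ih h (by omega)).trans (H.TT j (by omega))
      · have : i = j := by omega
        subst this
        exact H.TT i (by omega)
  have hcs : ConicalSet (Icc (0:ℝ) 1) := Convex.conicalSet (convex_Icc 0 1)
  refine ⟨fun i hi => ⟨?_, ?_⟩, fun i hi i' hi' h => ?_, ?_, ?_, H.mono.monotoneOn _, H.ta_zero,
    H.ta_one, fun i _ => (continuous_rp _ _).continuousOn, fun i _ => conicalOn_rp _ _ hcs,
    fun i _ s _ => ⟨rp_nonneg _ _ _, rp_le_one _ _ _⟩, fun i hi s _ h => ?_, fun i hi s _ h => ?_,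
    fun s hs s' hs' h hz => ?_⟩
  · rw [← H.T0]; exact hTm 0 (i + 1) (by omega) (by omega)
  · rw [← H.T1]; exact hTm (i + 1) (n + 1) (by omega) le_rfl
  · rcases lt_trichotomy i i' with h1 | h1 | h1
    · exact absurd h (hTm (i + 1) (i' + 1) (by omega) (by omega)).ne
    · exact h1
    · exact absurd h (hTm (i' + 1) (i + 1) (by omega) (by omega)).ne'
  · unfold ta
    exact (continuous_finsetSum _ fun i _ => continuous_const.mul
      (continuous_rp _ _)).continuousOn
  · unfold ta
    exact conicalOn_sum hcs _ fun i _ => by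
      have := (conicalOn_rp (a i) (b i) hcs).const_smul (T (i + 1) - T i)
      simpa only [smul_eq_mul] using this
  · refine rp_zero (H.ba i hi) ?_
    by_contra hcon
    exact absurd h (not_lt.2 (H.ge_C hi.le (not_le.1 hcon).le))
  · refine rp_one (H.ba i hi) ?_
    by_contra hcon
    exact absurd h (not_lt.2 (H.le_D hi (not_le.1 hcon).le))
  · rcases lt_trichotomy s s' with h1 | h1 | h1
    · exact (H.inj_aux hs.1 hs'.2 h1 h hz).elim
    · exact h1
    · exact (H.inj_aux hs'.1 hs.2 h1 h.symm fun i hi => (hz i hi).symm).elim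

end Prt

/-! ### The positions -/

/-- partial sums -/
noncomputable def ps (w : ℕ → ℝ) (i : ℕ) : ℝ := ∑ k ∈ Finset.range i, w k

/-- the point of the cell `i` with the fraction `r` -/
noncomputable def cp (mu : ℝ) (n : ℕ) (w : ℕ → ℝ) (r : ℝ) (i : ℕ) : ℝ :=
  mu + (1 - 2 * mu) * (ps w i + r * w i) / ps w n

/-- the ends of the free pieces -/
noncomputable def pa (mu : ℝ) (n : ℕ) (w : ℕ → ℝ) (i : ℕ) : ℝ :=
  if i = 0 then 0 else cp mu n w (5 / 8) (i - 1)

noncomputable def pb' (mu : ℝ) (n : ℕ) (w : ℕ → ℝ) (i : ℕ) : ℝ :=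
  if i < n then cp mu n w (3 / 8) i else 1

section pos

variable {n : ℕ} {w : ℕ → ℝ} {mu : ℝ}

theorem ps_mono (hw : ∀ i < n, 0 < w i) {i j : ℕ} (hij : i ≤ j) (hj : j ≤ n) :
    ps w i ≤ ps w j :=
  Finset.sum_le_sum_of_subset_of_nonneg (Finset.range_mono hij) fun k hk _ =>
    (hw k (by rw [Finset.mem_range] at hk; omega)).le

theorem ps_succ (w : ℕ → ℝ) (i : ℕ) : ps w (i + 1) = ps w i + w i := Finset.sum_range_succ _ _

theorem ps_pos (hw : ∀ i < n, 0 < w i) (hn : 0 < n) : 0 < ps w n :=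
  Finset.sum_pos (fun k hk => hw k (Finset.mem_range.1 hk)) ⟨0, Finset.mem_range.2 hn⟩

theorem cp_lt (hm : mu < 1 / 2) (hw : ∀ i < n, 0 < w i) {i : ℕ} (hi : i < n) {r r' : ℝ}
    (h : r < r') : cp mu n w r i < cp mu n w r' i := by
  have h1 := ps_pos hw (by omega)
  unfold cp
  have h2 : (ps w i + r * w i) < ps w i + r' * w i := by
    have := mul_lt_mul_of_pos_right h (hw i hi)
    linarith
  have h3 : 0 < 1 - 2 * mu := by linarith
  have := div_lt_div_of_pos_right (mul_lt_mul_of_pos_left h2 h3) h1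
  linarith

theorem cp_le_next (hm : mu < 1 / 2) (hw : ∀ i < n, 0 < w i) {i j : ℕ} (hij : i < j) (hj : j < n)
    {r r' : ℝ} (hr : r ≤ 1) (hr' : 0 ≤ r') : cp mu n w r i ≤ cp mu n w r' j := by
  have h1 := ps_pos hw (by omega)
  unfold cp
  have h2 : ps w i + r * w i ≤ ps w j + r' * w j := by
    have a1 : ps w (i + 1) ≤ ps w j := ps_mono hw hij hj.le
    rw [ps_succ] at a1
    have a2 := mul_le_of_le_one_left (hw i (by omega)).le hr
    have a3 := mul_nonneg hr' (hw j hj).le
    linarith
  have h3 : 0 ≤ 1 - 2 * mu := by linarith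
  have := div_le_div_of_nonneg_right (mul_le_mul_of_nonneg_left h2 h3) h1.le
  linarith

theorem cp_ge (hm : mu < 1 / 2) (hw : ∀ i < n, 0 < w i) {i : ℕ} (hi : i < n) {r : ℝ}
    (hr : 0 ≤ r) : mu ≤ cp mu n w r i := by
  have h1 := ps_pos hw (by omega)
  unfold cp
  have a1 : 0 ≤ ps w i := by
    have := ps_mono hw (Nat.zero_le i) hi.le
    simpa [ps] using this
  have a2 := mul_nonneg hr (hw i hi).le
  have h3 : 0 ≤ 1 - 2 * mu := by linarith
  have := div_nonneg (mul_nonneg h3 (add_nonneg a1 a2)) h1.le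
  linarith

theorem cp_le (hm : mu < 1 / 2) (hw : ∀ i < n, 0 < w i) {i : ℕ} (hi : i < n) {r : ℝ}
    (hr : r ≤ 1) : cp mu n w r i ≤ 1 - mu := by
  have h1 := ps_pos hw (by omega)
  unfold cp
  have a1 : ps w i + r * w i ≤ ps w n := by
    have := ps_mono hw (show i + 1 ≤ n by omega) le_rfl
    rw [ps_succ] at this
    have a2 := mul_le_of_le_one_left (hw i hi).le hr
    linarith
  have h3 : 0 ≤ 1 - 2 * mu := by linarith
  have := div_le_div_of_nonneg_right (mul_le_mul_of_nonneg_left a1 h3) h1.le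
  rw [mul_div_cancel_right₀ _ h1.ne'] at this
  linarith

/-- **the positions form a partition** -/
theorem prt_pos (hm0 : 0 < mu) (hm : mu < 1 / 2) (hw : ∀ i < n, 0 < w i) {T : ℕ → ℝ}
    (T0 : T 0 = 0) (T1 : T (n + 1) = 1) (TT : ∀ i ≤ n, T i < T (i + 1)) :
    Prt n (pa mu n w) (pb' mu n w) T := by
  refine ⟨if_pos rfl, if_neg (lt_irrefl n), fun i hi => ?_, fun i hi => ?_, T0, T1, TT⟩
  · unfold pa pb'
    by_cases h0 : i = 0
    · rw [if_pos h0]
      by_cases h1 : i < n
      · rw [if_pos h1]; exact hm0.trans_le (cp_ge hm hw h1 (by norm_num))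
      · rw [if_neg h1]; exact zero_lt_one
    · rw [if_neg h0]
      by_cases h1 : i < n
      · rw [if_pos h1]
        have h2 : cp mu n w (5 / 8) (i - 1) ≤ cp mu n w 0 i :=
          cp_le_next hm hw (by omega) h1 (by norm_num) le_rfl
        exact h2.trans_lt (cp_lt hm hw h1 (by norm_num))
      · rw [if_neg h1]
        have := cp_le hm hw (show i - 1 < n by omega) (r := 5 / 8) (by norm_num)
        linarith
  · unfold pa pb'
    rw [if_pos hi, if_neg (Nat.succ_ne_zero i), Nat.add_sub_cancel]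
    exact cp_lt hm hw hi (by norm_num)

end pos

end P073.H155
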