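import Vale.Agent.P073.H155.Own1
import Vale.Agent.P073.H579.HFaceC

/-!
# P073, H155 (OWN-EDGE): the crossing points of an edge
-/

open Set Metric Topology Filter

set_option autoImplicit false

namespace P073.H155

open P073.H31 P073.H579

variable {E : Type*} [NormedAddCommGroup E] [NormedSpace ℝ E]

theorem dist_lineMap' {a b : E} (s s' : ℝ) :
    dist (AffineMap.lineMap a b s : E) (AffineMap.lineMap a b s') = |s - s'| * ‖b - a‖ := by
  rw [dist_eq_norm, AffineMap.lineMap_apply_module', AffineMap.lineMap_apply_module']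
  have : s • (b - a) + a - (s' • (b - a) + a) = (s - s') • (b - a) := by module
  rw [this, norm_smul, Real.norm_eq_abs]

theorem lineMap_injective {a b : E} (hab : a ≠ b) :
    Function.Injective (AffineMap.lineMap a b : ℝ → E) := by
  intro s s' h
  have h1 := dist_lineMap' (a := a) (b := b) s s'
  rw [h, dist_self] at h1
  have h2 : 0 < ‖b - a‖ := norm_pos_iff.2 (sub_ne_zero.2 hab.symm)
  have h3 : |s - s'| = 0 := by
    rcases mul_eq_zero.1 h1.symm with h4 | h4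
    · exact h4
    · exact absurd h4 h2.ne'
  exact sub_eq_zero.1 (abs_eq_zero.1 h3)

theorem conicalOn_lineMap (a b : E) {X : Set ℝ} (hX : ConicalSet X) :
    ConicalOn (fun s : ℝ => (AffineMap.lineMap a b s : E)) X := by
  have h1 := (conicalOn_smul_const (conicalOn_id hX) (b - a)).add (conicalOn_const a hX)
  refine h1.congr fun s _ => ?_
  exact (AffineMap.lineMap_apply_module' a b s)

/-- the parametrised segment -/
noncomputable def segC {a b : E} (hab : a ≠ b) : ConHomeo (Icc (0:ℝ) 1) (segment ℝ a b) :=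
  ConHomeo.ofCompact isCompact_Icc (fun s => (AffineMap.lineMap a b s : E))
    AffineMap.lineMap_continuous.continuousOn ((lineMap_injective hab).injOn)
    (conicalOn_lineMap a b (Convex.conicalSet (convex_Icc 0 1)))
    (segment_eq_image_lineMap ℝ a b).symm

theorem segC_apply {a b : E} (hab : a ≠ b) (s : ℝ) :
    (segC hab).toFun s = AffineMap.lineMap a b s := by
  unfold segC
  rw [ConHomeo.ofCompact_toFun]

/-- the parameter of a point of the segment -/
noncomputable def pr (a b x : E) : ℝ := ‖x - a‖ / ‖b - a‖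

theorem pr_lineMap {a b : E} (hab : a ≠ b) {s : ℝ} (hs : 0 ≤ s) :
    pr a b (AffineMap.lineMap a b s) = s := by
  have h2 : 0 < ‖b - a‖ := norm_pos_iff.2 (sub_ne_zero.2 hab.symm)
  unfold pr
  rw [AffineMap.lineMap_apply_module', add_sub_cancel_right, norm_smul,
    Real.norm_of_nonneg hs, mul_div_cancel_right₀ _ h2.ne']

theorem lineMap_pr {a b x : E} (hab : a ≠ b) (hx : x ∈ segment ℝ a b) :
    (AffineMap.lineMap a b (pr a b x) : E) = x ∧ pr a b x ∈ Icc (0:ℝ) 1 := by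
  rw [segment_eq_image_lineMap] at hx
  obtain ⟨s, hs, rfl⟩ := hx
  rw [pr_lineMap hab hs.1]
  exact ⟨rfl, hs⟩

section local_

variable {m : ℕ} {a b : E} {h : E → Fin m → ℝ} {L : Fin m → Finset ℝ}

/-- the sign of the crossing -/
theorem exists_sign (hab : a ≠ b) (hk : ConicalOn h (segment ℝ a b)) {s₀ : ℝ}
    (hs : s₀ ∈ Ioo (0:ℝ) 1) {j : Fin m}
    (hcr : (AffineMap.lineMap a b s₀ : E) ∈ closure {y | y ∈ segment ℝ a b ∧
        h (AffineMap.lineMap a b s₀) j < h y j} ∧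
      (AffineMap.lineMap a b s₀ : E) ∈ closure {y | y ∈ segment ℝ a b ∧
        h y j < h (AffineMap.lineMap a b s₀) j}) :
    ∃ ε : ℝ, (ε = 1 ∨ ε = -1) ∧ ∃ δ > 0, ∀ s ∈ Icc (0:ℝ) 1, |s - s₀| ≤ δ →
      (s₀ < s → 0 < ε * (h (AffineMap.lineMap a b s) j - h (AffineMap.lineMap a b s₀) j)) ∧
      (s < s₀ → ε * (h (AffineMap.lineMap a b s) j - h (AffineMap.lineMap a b s₀) j) < 0) := by
  set q : ℝ → ℝ := fun s => h (AffineMap.lineMap a b s) j with hq
  have hcs : ConicalSet (Icc (0:ℝ) 1) := Convex.conicalSet (convex_Icc 0 1)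
  have hm : MapsTo (fun s : ℝ => (AffineMap.lineMap a b s : E)) (Icc 0 1) (segment ℝ a b) :=
    fun s hs => lineMap_mem hs
  have hcq : ConicalOn (fun s : ℝ => h (AffineMap.lineMap a b s)) (Icc 0 1) :=
    hk.comp (conicalOn_lineMap a b hcs) hm AffineMap.lineMap_continuous.continuousOn
  obtain ⟨r, hr, hcon⟩ := hcq s₀ ⟨hs.1.le, hs.2.le⟩
  set δ := min r (min s₀ (1 - s₀)) with hδ
  have hδ0 : 0 < δ := lt_min hr (lt_min hs.1 (by linarith [hs.2]))
  have hδr : δ ≤ r := min_le_left _ _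
  have hδ1 : δ ≤ s₀ := (min_le_right _ _).trans (min_le_left _ _)
  have hδ2 : δ ≤ 1 - s₀ := (min_le_right _ _).trans (min_le_right _ _)
  set α := q (s₀ + δ) - q s₀ with hα
  set β := q (s₀ - δ) - q s₀ with hβ
  have hR : ∀ s, s₀ ≤ s → s ≤ s₀ + δ → q s - q s₀ = (s - s₀) / δ * α := by
    intro s h1 h2
    have h3 := (hcon δ (by rw [Real.norm_of_nonneg hδ0.le]; exact hδr)
      ⟨by linarith, by linarith⟩ ((s - s₀) / δ) ⟨div_nonneg (by linarith) hδ0.le,
        (div_le_one hδ0).2 (by linarith)⟩).2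
    have e : s₀ + (s - s₀) / δ * δ = s := by rw [div_mul_cancel₀ _ hδ0.ne']; ring
    rw [smul_eq_mul, e] at h3
    have h4 := congrFun h3 j
    simp only [Pi.add_apply, Pi.smul_apply, Pi.sub_apply, smul_eq_mul] at h4
    show q s - q s₀ = _
    rw [hq]
    simp only
    rw [h4, hα]
    ring
  have hL : ∀ s, s ≤ s₀ → s₀ - δ ≤ s → q s - q s₀ = (s₀ - s) / δ * β := by
    intro s h1 h2
    have h3 := (hcon (-δ) (by rw [norm_neg, Real.norm_of_nonneg hδ0.le]; exact hδr)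
      ⟨by linarith, by linarith⟩ ((s₀ - s) / δ) ⟨div_nonneg (by linarith) hδ0.le,
        (div_le_one hδ0).2 (by linarith)⟩).2
    have e : s₀ + (s₀ - s) / δ * -δ = s := by rw [mul_neg, div_mul_cancel₀ _ hδ0.ne']; ring
    rw [smul_eq_mul, e, ← sub_eq_add_neg] at h3
    have h4 := congrFun h3 j
    simp only [Pi.add_apply, Pi.smul_apply, Pi.sub_apply, smul_eq_mul] at h4
    show q s - q s₀ = _
    rw [hq]
    simp only
    rw [h4, hβ]
    ring
  have hba : 0 < ‖b - a‖ := norm_pos_iff.2 (sub_ne_zero.2 hab.symm)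
  -- points near the crossing
  have hnear : ∀ S : Set E, S ⊆ segment ℝ a b → (AffineMap.lineMap a b s₀ : E) ∈ closure S →
      ∃ s, |s - s₀| < δ ∧ (AffineMap.lineMap a b s : E) ∈ S := by
    intro S hS hcl
    obtain ⟨y, hy, hd⟩ := Metric.mem_closure_iff.1 hcl (δ * ‖b - a‖) (mul_pos hδ0 hba)
    obtain ⟨e1, -⟩ := lineMap_pr hab (hS hy)
    refine ⟨pr a b y, ?_, by rw [e1]; exact hy⟩
    rw [← e1, dist_lineMap', abs_sub_comm] at hd
    exact lt_of_mul_lt_mul_right hd hba.le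
  obtain ⟨s1, h1, -, h1'⟩ := hnear _ (fun y hy => hy.1) hcr.1
  obtain ⟨s2, h2, -, h2'⟩ := hnear _ (fun y hy => hy.1) hcr.2
  have hq1 : 0 < q s1 - q s₀ := sub_pos.2 h1'
  have hq2 : q s2 - q s₀ < 0 := sub_neg.2 h2'
  rw [abs_lt] at h1 h2
  have c1 : 0 < α ∨ 0 < β := by
    rcases le_total s₀ s1 with h3 | h3
    · left
      rw [hR s1 h3 (by linarith)] at hq1
      by_contra hcon
      have := mul_nonpos_of_nonneg_of_nonpos (div_nonneg (sub_nonneg.2 h3) hδ0.le) (not_lt.1 hcon)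
      linarith
    · right
      rw [hL s1 h3 (by linarith)] at hq1
      by_contra hcon
      have := mul_nonpos_of_nonneg_of_nonpos (div_nonneg (sub_nonneg.2 h3) hδ0.le) (not_lt.1 hcon)
      linarith
  have c2 : α < 0 ∨ β < 0 := by
    rcases le_total s₀ s2 with h3 | h3
    · left
      rw [hR s2 h3 (by linarith)] at hq2
      by_contra hcon
      have := mul_nonneg (div_nonneg (sub_nonneg.2 h3) hδ0.le) (not_lt.1 hcon)
      linarith
    · right
      rw [hL s2 h3 (by linarith)] at hq2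
      by_contra hcon
      have := mul_nonneg (div_nonneg (sub_nonneg.2 h3) hδ0.le) (not_lt.1 hcon)
      linarith
  have c3 : (0 < α ∧ β < 0) ∨ (α < 0 ∧ 0 < β) := by
    rcases c1 with h3 | h3 <;> rcases c2 with h4 | h4
    · linarith
    · exact Or.inl ⟨h3, h4⟩
    · exact Or.inr ⟨h4, h3⟩
    · linarith
  rcases c3 with ⟨h3, h4⟩ | ⟨h3, h4⟩
  · refine ⟨1, Or.inl rfl, δ, hδ0, fun s _ hd => ?_⟩
    rw [abs_le] at hd
    constructor
    · intro h5
      show 0 < 1 * (q s - q s₀)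
      rw [one_mul, hR s h5.le (by linarith)]
      exact mul_pos (div_pos (sub_pos.2 h5) hδ0) h3
    · intro h5
      show 1 * (q s - q s₀) < 0
      rw [one_mul, hL s h5.le (by linarith)]
      exact mul_neg_of_pos_of_neg (div_pos (sub_pos.2 h5) hδ0) h4
  · refine ⟨-1, Or.inr rfl, δ, hδ0, fun s _ hd => ?_⟩
    rw [abs_le] at hd
    constructor
    · intro h5
      show 0 < -1 * (q s - q s₀)
      rw [hR s h5.le (by linarith)]
      have := mul_neg_of_pos_of_neg (div_pos (sub_pos.2 h5) hδ0) h3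
      linarith
    · intro h5
      show -1 * (q s - q s₀) < 0
      rw [hL s h5.le (by linarith)]
      have := mul_pos (div_pos (sub_pos.2 h5) hδ0) h4
      linarith

/-- the crossing parameters are isolated -/
theorem ev_not_level (hab : a ≠ b) (hc : ContinuousOn h (segment ℝ a b))
    (hk : ConicalOn h (segment ℝ a b)) (ha : ∀ j, h a j ∉ L j) (hb : ∀ j, h b j ∉ L j)
    (hcr : ∀ x ∈ segment ℝ a b, ∀ j, h x j ∈ L j →
      x ∈ closure {y | y ∈ segment ℝ a b ∧ h x j < h y j} ∧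
      x ∈ closure {y | y ∈ segment ℝ a b ∧ h y j < h x j}) {s₀ : ℝ} (hs : s₀ ∈ Icc (0:ℝ) 1) :
    ∀ᶠ s in 𝓝 s₀, s ∈ Icc (0:ℝ) 1 → s ≠ s₀ → ∀ j, h (AffineMap.lineMap a b s) j ∉ L j := by
  have hm : MapsTo (fun s : ℝ => (AffineMap.lineMap a b s : E)) (Icc 0 1) (segment ℝ a b) :=
    fun s hs => lineMap_mem hs
  have hqc : ∀ j, ContinuousOn (fun s : ℝ => h (AffineMap.lineMap a b s) j) (Icc 0 1) := fun j =>
    (continuous_apply j).comp_continuousOn
      (hc.comp AffineMap.lineMap_continuous.continuousOn hm)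
  have key : ∀ j, ∀ᶠ s in 𝓝 s₀, s ∈ Icc (0:ℝ) 1 → s ≠ s₀ → h (AffineMap.lineMap a b s) j ∉ L j := by
    intro j
    -- the other levels
    have h1 : ∀ᶠ s in 𝓝[Icc 0 1] s₀, h (AffineMap.lineMap a b s) j ∉
        (L j).erase (h (AffineMap.lineMap a b s₀) j) := by
      have hcl : IsClosed (((L j).erase (h (AffineMap.lineMap a b s₀) j) : Finset ℝ) : Set ℝ) :=
        Finset.isClosed _
      have : ((((L j).erase (h (AffineMap.lineMap a b s₀) j) : Finset ℝ) : Set ℝ))ᶜ ∈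
          𝓝 (h (AffineMap.lineMap a b s₀) j) :=
        hcl.isOpen_compl.mem_nhds fun hmem => absurd rfl (Finset.mem_erase.1
          (Finset.mem_coe.1 hmem)).1
      filter_upwards [hqc j s₀ hs this] with s hs' h2
      exact hs' (Finset.mem_coe.2 h2)
    rw [eventually_nhdsWithin_iff] at h1
    by_cases hj : h (AffineMap.lineMap a b s₀) j ∈ L j
    · have hs0 : s₀ ∈ Ioo (0:ℝ) 1 := by
        refine ⟨lt_of_le_of_ne hs.1 fun h0 => ?_, lt_of_le_of_ne hs.2 fun h1 => ?_⟩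
        · rw [← h0, AffineMap.lineMap_apply_zero] at hj; exact ha j hj
        · rw [h1, AffineMap.lineMap_apply_one] at hj; exact hb j hj
      obtain ⟨ε, hε, δ, hδ, hsg⟩ := exists_sign hab hk hs0 (hcr _ (lineMap_mem hs) j hj)
      filter_upwards [h1, Metric.closedBall_mem_nhds s₀ hδ] with s hs1 hs2 hs3 hs4 hs5
      have h6 := hsg s hs3 (by rwa [← Real.dist_eq])
      have h7 : h (AffineMap.lineMap a b s) j ≠ h (AffineMap.lineMap a b s₀) j := by
        intro h8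
        rw [h8, sub_self, mul_zero] at h6
        rcases lt_or_gt_of_ne hs4 with h9 | h9
        · exact lt_irrefl _ (h6.2 h9)
        · exact lt_irrefl _ (h6.1 h9)
      exact hs1 hs3 (Finset.mem_erase.2 ⟨h7, hs5⟩)
    · filter_upwards [h1] with s hs1 hs3 hs4 hs5
      refine hs1 hs3 (Finset.mem_erase.2 ⟨fun h8 => ?_, hs5⟩)
      rw [← h8] at hj
      exact hj hs5
  filter_upwards [eventually_all.2 key] with s hs1 h1 h2 j
  exact hs1 j h1 h2

/-- finitely many crossings -/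
theorem finite_level (hab : a ≠ b) (hc : ContinuousOn h (segment ℝ a b))
    (hk : ConicalOn h (segment ℝ a b)) (ha : ∀ j, h a j ∉ L j) (hb : ∀ j, h b j ∉ L j)
    (hcr : ∀ x ∈ segment ℝ a b, ∀ j, h x j ∈ L j →
      x ∈ closure {y | y ∈ segment ℝ a b ∧ h x j < h y j} ∧
      x ∈ closure {y | y ∈ segment ℝ a b ∧ h y j < h x j}) :
    {s | s ∈ Icc (0:ℝ) 1 ∧ ∃ j, h (AffineMap.lineMap a b s) j ∈ L j}.Finite := by
  obtain ⟨t, -, ht⟩ := isCompact_Icc.elim_nhds_subcover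
    (fun s₀ : ℝ => {s | s ∈ Icc (0:ℝ) 1 → s ≠ s₀ → ∀ j, h (AffineMap.lineMap a b s) j ∉ L j})
    (fun s₀ hs => ev_not_level hab hc hk ha hb hcr hs)
  refine t.finite_toSet.subset ?_
  rintro s ⟨hs, j, hj⟩
  obtain ⟨s₀, hs0, h1⟩ := mem_iUnion₂.1 (ht hs)
  by_contra hcon
  have hne : s ≠ s₀ := fun h2 => hcon (h2 ▸ hs0)
  exact h1 hs hne j hj

/-- **the ordered crossings** -/
theorem exists_enum (hab : a ≠ b) (hc : ContinuousOn h (segment ℝ a b))
    (hk : ConicalOn h (segment ℝ a b)) (ha : ∀ j, h a j ∉ L j) (hb : ∀ j, h b j ∉ L j)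
    (hcr : ∀ x ∈ segment ℝ a b, ∀ j, h x j ∈ L j →
      x ∈ closure {y | y ∈ segment ℝ a b ∧ h x j < h y j} ∧
      x ∈ closure {y | y ∈ segment ℝ a b ∧ h y j < h x j}) :
    ∃ (n : ℕ) (T : ℕ → ℝ), T 0 = 0 ∧ T (n + 1) = 1 ∧ (∀ i ≤ n, T i < T (i + 1)) ∧
      (∀ i < n, ∃ j, h (AffineMap.lineMap a b (T (i + 1))) j ∈ L j) ∧
      ∀ s ∈ Icc (0:ℝ) 1, (∃ j, h (AffineMap.lineMap a b s) j ∈ L j) → ∃ i < n, T (i + 1) = s := by
  classical
  have hfin := finite_level hab hc hk ha hb hcr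
  set Z := hfin.toFinset with hZ
  set n := Z.card with hn
  set f := Z.orderEmbOfFin (rfl : Z.card = n) with hf
  set T : ℕ → ℝ := fun i => if i = 0 then 0 else if hi : i - 1 < n then f ⟨i - 1, hi⟩ else 1
    with hT
  have hT0 : T 0 = 0 := if_pos rfl
  have hTi : ∀ i (hi : i < n), T (i + 1) = f ⟨i, hi⟩ := by
    intro i hi
    show (if i + 1 = 0 then (0:ℝ) else if hi : i + 1 - 1 < n then f ⟨i + 1 - 1, hi⟩ else 1) = _
    rw [if_neg (Nat.succ_ne_zero i), dif_pos (by simpa using hi)]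
    rfl
  have hT1 : T (n + 1) = 1 := by
    show (if n + 1 = 0 then (0:ℝ) else if hi : n + 1 - 1 < n then f ⟨n + 1 - 1, hi⟩ else 1) = _
    rw [if_neg (Nat.succ_ne_zero n), dif_neg (by simp)]
  have hmem : ∀ i (hi : i < n), f ⟨i, hi⟩ ∈ Ioo (0:ℝ) 1 ∧
      ∃ j, h (AffineMap.lineMap a b (f ⟨i, hi⟩)) j ∈ L j := by
    intro i hi
    have h1 : f ⟨i, hi⟩ ∈ Z := Finset.orderEmbOfFin_mem Z rfl _
    obtain ⟨h2, j, hj⟩ := hfin.mem_toFinset.1 h1
    refine ⟨⟨lt_of_le_of_ne h2.1 fun h0 => ?_, lt_of_le_of_ne h2.2 fun h1 => ?_⟩, j, hj⟩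
    · rw [← h0, AffineMap.lineMap_apply_zero] at hj; exact ha j hj
    · rw [h1, AffineMap.lineMap_apply_one] at hj; exact hb j hj
  refine ⟨n, T, hT0, hT1, fun i hi => ?_, fun i hi => ?_, fun s hs hj => ?_⟩
  · rcases Nat.eq_zero_or_pos i with h0 | h0
    · subst h0
      rw [hT0]
      rcases Nat.eq_zero_or_pos n with h1 | h1
      · have : T (0 + 1) = 1 := by rw [← hT1, h1]
        rw [this]; exact zero_lt_one
      · rw [hTi 0 h1]; exact (hmem 0 h1).1.1
    · obtain ⟨k, rfl⟩ : ∃ k, i = k + 1 := ⟨i - 1, by omega⟩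
      rw [hTi k (by omega)]
      rcases hi.lt_or_eq with h1 | h1
      · rw [hTi (k + 1) h1]
        exact f.strictMono (by simp)
      · rw [h1, hT1]; exact (hmem k (by omega)).1.2
  · rw [hTi i hi]; exact (hmem i hi).2
  · have h1 : s ∈ Z := hfin.mem_toFinset.2 ⟨hs, hj⟩
    have h2 : s ∈ Set.range f := by
      rw [Finset.range_orderEmbOfFin]; exact h1
    obtain ⟨⟨i, hi⟩, rfl⟩ := h2
    exact ⟨i, hi, hTi i hi⟩

end local_

end P073.H155
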