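import Vale.Agent.P073.H155.Chart
import Vale.Agent.P073.St
import Mathlib.LinearAlgebra.Dual.Lemmas

/-!
# P073, H155 (ENER): the cones over the edges of a star, and the perimeter
-/

open Set Metric Topology Filter MeasureTheory
open scoped ENNReal

set_option autoImplicit false

namespace P073.H155

section cones

variable {E : Type*} [NormedAddCommGroup E] [NormedSpace ℝ E] {n : ℕ} {v : ℕ → E} {O : E}
  {rho R : ℝ} {F : Set E}

/-- the cone over the edge `j` -/
def cn (v : ℕ → E) (O : E) (j : ℕ) : Set E := coneSetAt O (segment ℝ (v j) (v (j + 1)))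

theorem isCompact_seg (a b : E) : IsCompact (segment ℝ a b) := by
  rw [segment_eq_image']
  exact isCompact_Icc.image (by fun_prop)

theorem isCompact_coneSetAt (O : E) {S : Set E} (hS : IsCompact S) :
    IsCompact (coneSetAt O S) := by
  have : coneSetAt O S = (fun q : ℝ × E => O + q.1 • (q.2 - O)) '' (Icc (0:ℝ) 1 ×ˢ S) := by
    ext y
    constructor
    · rintro ⟨s, hs, x, hx, rfl⟩
      exact ⟨(s, x), ⟨hs, hx⟩, rfl⟩
    · rintro ⟨⟨s, x⟩, ⟨hs, hx⟩, rfl⟩
      exact ⟨s, hs, x, hx, rfl⟩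
  rw [this]
  exact (isCompact_Icc.prod hS).image (by fun_prop)

theorem isCompact_cn (v : ℕ → E) (O : E) (j : ℕ) : IsCompact (cn v O j) :=
  isCompact_coneSetAt O (isCompact_seg _ _)


theorem seg_sub_bd {j : ℕ} (hj : j < n) :
    segment ℝ (v j) (v (j + 1)) ⊆ cv n v '' Icc (0:ℝ) n := by
  rw [segment_eq_image']
  rintro _ ⟨s, hs, rfl⟩
  have h1 : (j : ℝ) + 1 ≤ n := by exact_mod_cast hj
  refine ⟨j + s, ⟨add_nonneg (Nat.cast_nonneg j) hs.1, by linarith [hs.2]⟩, ?_⟩
  rw [cv_eq v hj (by linarith [hs.1]) (by linarith [hs.2]), add_sub_cancel_left]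

theorem Star.cn_sub (hS : Star n v O rho R F) {j : ℕ} (hj : j < n) : cn v O j ⊆ F := by
  rw [← hS.cone]
  rintro _ ⟨s, hs, x, hx, rfl⟩
  exact ⟨s, hs, x, seg_sub_bd hj hx, rfl⟩

theorem Star.exists_cn (hS : Star n v O rho R F) {x : E} (hx : x ∈ F) :
    ∃ j < n, x ∈ cn v O j := by
  rw [← hS.cone] at hx
  obtain ⟨s, hs, _, ⟨T, hT, rfl⟩, rfl⟩ := hx
  obtain ⟨j, hj, h0, h1⟩ := Star.exists_edge hS.hn hT
  refine ⟨j, hj, s, hs, _, ?_, rfl⟩
  rw [cv_eq v hj h0 h1, segment_eq_image']
  exact ⟨T - j, ⟨by linarith, by linarith⟩, rfl⟩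

theorem Star.mem_O (hS : Star n v O rho R F) : O ∈ F := by
  rw [← hS.cone]
  refine ⟨0, ⟨le_refl _, zero_le_one⟩, cv n v 0, ⟨0, ⟨le_refl _, Nat.cast_nonneg n⟩, rfl⟩, ?_⟩
  rw [zero_smul, add_zero]

theorem Star.seg_sub (hS : Star n v O rho R F) {j : ℕ} (hj : j < n) :
    segment ℝ (v j) (v (j + 1)) ⊆ F := fun x hx => by
  rw [← hS.cone]
  refine ⟨1, ⟨zero_le_one, le_refl _⟩, x, seg_sub_bd hj hx, ?_⟩
  rw [one_smul, add_sub_cancel]

/-- the supporting functional of an edge is at most one on the whole face -/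
theorem Star.exists_sup (hS : Star n v O rho R F) {j : ℕ} (hj : j < n) : ∃ l : E →L[ℝ] ℝ,
    (∀ x ∈ segment ℝ (v j) (v (j + 1)), l (x - O) = 1) ∧ (∀ x ∈ F, l (x - O) ≤ 1) ∧
    ∀ x ∈ F, ∀ y ∈ F, |l (x - y)| ≤ ‖x - y‖ / rho := by
  obtain ⟨l, h1, h2, h3, h4⟩ := hS.sup j hj
  have key : ∀ (a b : E) (s : ℝ), l (a + s • (b - a) - O) = (1 - s) * l (a - O) + s * l (b - O) := by
    intro a b s
    have : a + s • (b - a) - O = (1 - s) • (a - O) + s • (b - O) := by module
    rw [this, map_add, map_smul, map_smul, smul_eq_mul, smul_eq_mul]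
  refine ⟨l, fun x hx => ?_, fun x hx => ?_, h4⟩
  · rw [segment_eq_image'] at hx
    obtain ⟨s, -, rfl⟩ := hx
    rw [key, h1, h2]; ring
  · obtain ⟨i, hi, s, hs, b, hb, rfl⟩ := hS.exists_cn hx
    rw [segment_eq_image'] at hb
    obtain ⟨t, ht, rfl⟩ := hb
    rw [add_sub_cancel_left, map_smul, smul_eq_mul, key]
    have a1 := h3 i hi.le
    have a2 := h3 (i + 1) hi
    have a3 := mul_le_mul_of_nonneg_left a1 (sub_nonneg.2 ht.2)
    have a4 := mul_le_mul_of_nonneg_left a2 ht.1
    have a5 : (1 - t) * l (v i - O) + t * l (v (i + 1) - O) ≤ 1 := by linarith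
    have a6 := mul_le_mul_of_nonneg_left a5 hs.1
    linarith [hs.2]

end cones

/-! ### The perimeter -/

open Vale.Agent.P073.St (V)

variable {n : ℕ} {v : ℕ → V} {O : V} {rho R : ℝ} {F : Set V} {ν : V →L[ℝ] ℝ} {t : ℝ}

/-- two independent vectors of a plane span it -/
theorem span2 (hν : ν ≠ 0) (f : V →ₗ[ℝ] ℝ) {x u y : V} (hx : ν x = 0) (hu : ν u = 0)
    (hx0 : x ≠ 0) (fx : f x = 0) (fu : f u ≠ 0) (hy : ν y = 0) :
    ∃ α β : ℝ, α • x + β • u = y := by
  set W : Submodule ℝ V := LinearMap.ker (ν : V →ₗ[ℝ] ℝ) with hW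
  have hν' : (ν : V →ₗ[ℝ] ℝ) ≠ 0 := by
    intro h
    apply hν
    refine DFunLike.ext _ _ fun z => ?_
    exact LinearMap.congr_fun h z
  have h1 : Module.finrank ℝ W + 1 = 3 := by
    have := Module.Dual.finrank_ker_add_one_of_ne_zero hν'
    simpa using this
  have hli : LinearIndependent ℝ ![x, u] := by
    rw [LinearIndependent.pair_iff]
    intro s r h
    have h2 := congrArg f h
    rw [map_add, map_smul, map_smul, fx, map_zero, smul_zero, zero_add, smul_eq_mul] at h2
    have hr : r = 0 := (mul_eq_zero.1 h2).resolve_right fu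
    rw [hr, zero_smul, add_zero] at h
    exact ⟨(smul_eq_zero.1 h).resolve_right hx0, hr⟩
  have h3 : Submodule.span ℝ (Set.range ![x, u]) = W := by
    apply Submodule.eq_of_le_of_finrank_eq
    · rw [Submodule.span_le]
      rintro _ ⟨i, rfl⟩
      fin_cases i
      · exact hx
      · exact hu
    · rw [finrank_span_eq_card hli, Fintype.card_fin]
      omega
  have h4 : y ∈ Submodule.span ℝ (Set.range ![x, u]) := by
    rw [h3]; exact hy
  rw [Matrix.range_cons, Matrix.range_cons, Matrix.range_empty, union_empty, singleton_union,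
    Submodule.mem_span_pair] at h4
  exact h4

/-- a point of an edge is not between two points of the face with the same coordinate -/
theorem mid_false (hS : Star n v O rho R F) (hν : ν ≠ 0) (hpl : ∀ x ∈ F, ν x = t) (i : Fin 3)
    {j : ℕ} (hj : j < n) {q a c : V} (hq : q ∈ segment ℝ (v j) (v (j + 1))) (ha : a ∈ F)
    (hc : c ∈ F) {τ : ℝ} (h0 : 0 < τ) (h1 : τ < 1) (hmid : q = a + τ • (c - a)) (hac : a ≠ c)
    (hi : a i = c i) (hne : v j i ≠ v (j + 1) i) : False := by
  obtain ⟨l, l1, l2, -⟩ := hS.exists_sup hj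
  have e1 := l1 q hq
  have e2 : l (q - O) = (1 - τ) * l (a - O) + τ * l (c - O) := by
    have : q - O = (1 - τ) • (a - O) + τ • (c - O) := by rw [hmid]; module
    rw [this, map_add, map_smul, map_smul, smul_eq_mul, smul_eq_mul]
  have e3 := l2 a ha
  have e4 := l2 c hc
  have e5 : l (a - O) = 1 := by
    by_contra hcon
    have hlt : l (a - O) < 1 := lt_of_le_of_ne e3 hcon
    have b1 := mul_lt_mul_of_pos_left hlt (sub_pos.2 h1)
    have b2 := mul_le_mul_of_nonneg_left e4 h0.le
    linarith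
  have e6 : l (c - O) = 1 := by
    have : τ * l (c - O) = τ * 1 := by rw [e5, e1] at e2; linarith
    exact mul_left_cancel₀ h0.ne' this
  have hO := hS.mem_O
  have hl := hS.seg_sub hj (left_mem_segment ℝ _ _)
  have hr := hS.seg_sub hj (right_mem_segment ℝ _ _)
  obtain ⟨α, β, hy⟩ := span2 hν (LinearMap.proj i : V →ₗ[ℝ] ℝ) (x := c - a)
    (u := v (j + 1) - v j) (y := v j - O) (by rw [map_sub, hpl c hc, hpl a ha, sub_self])
    (by rw [map_sub, hpl _ hr, hpl _ hl, sub_self]) (sub_ne_zero.2 (Ne.symm hac))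
    (show (c - a) i = 0 by rw [Pi.sub_apply, hi, sub_self])
    (show (v (j + 1) - v j) i ≠ 0 by rw [Pi.sub_apply]; exact sub_ne_zero.2 (Ne.symm hne))
    (by rw [map_sub, hpl _ hl, hpl _ hO, sub_self])
  have f1 : l (c - a) = 0 := by
    have : c - a = (c - O) - (a - O) := by abel
    rw [this, map_sub, e5, e6, sub_self]
  have f2 : l (v (j + 1) - v j) = 0 := by
    have : v (j + 1) - v j = (v (j + 1) - O) - (v j - O) := by abel
    rw [this, map_sub, l1 _ (left_mem_segment ℝ _ _), l1 _ (right_mem_segment ℝ _ _), sub_self]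
  have f3 := congrArg l hy
  rw [map_add, map_smul, map_smul, f1, f2, smul_zero, smul_zero, add_zero,
    l1 _ (left_mem_segment ℝ _ _)] at f3
  exact zero_ne_one f3

theorem exists_pt {a b c : ℝ} (hc : c ∈ Ioo (min a b) (max a b)) :
    a ≠ b ∧ ∃ s ∈ Ioo (0:ℝ) 1, a + s * (b - a) = c := by
  rcases lt_trichotomy a b with h | h | h
  · rw [min_eq_left h.le, max_eq_right h.le] at hc
    have h' : 0 < b - a := sub_pos.2 h
    refine ⟨h.ne, (c - a) / (b - a), ⟨div_pos (by linarith [hc.1]) h', ?_⟩, ?_⟩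
    · rw [div_lt_one h']; linarith [hc.2]
    · rw [div_mul_cancel₀ _ h'.ne']; ring
  · rw [h, min_self, max_self] at hc
    exact absurd hc.1 (not_lt.2 hc.2.le)
  · rw [min_eq_right h.le, max_eq_left h.le] at hc
    have h' : 0 < a - b := sub_pos.2 h
    refine ⟨h.ne', (a - c) / (a - b), ⟨div_pos (by linarith [hc.2]) h', ?_⟩, ?_⟩
    · rw [div_lt_one h']; linarith [hc.1]
    · have : b - a = -(a - b) := by ring
      rw [this, mul_neg, div_mul_cancel₀ _ h'.ne']; ring

/-- a level of a coordinate meets at most two edges -/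
theorem three_false (hS : Star n v O rho R F) (hν : ν ≠ 0) (hpl : ∀ x ∈ F, ν x = t) (i : Fin 3)
    {c : ℝ} {j : Fin 3 → ℕ} (hj : ∀ k, j k < n) (hinj : Function.Injective j)
    (hc : ∀ k, c ∈ Ioo (min (v (j k) i) (v (j k + 1) i)) (max (v (j k) i) (v (j k + 1) i))) :
    False := by
  choose hne s hs hsc using fun k => exists_pt (hc k)
  set P : Fin 3 → V := fun k => v (j k) + s k • (v (j k + 1) - v (j k)) with hP
  have hseg : ∀ k, P k ∈ segment ℝ (v (j k)) (v (j k + 1)) := fun k => by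
    rw [segment_eq_image']
    exact ⟨s k, ⟨(hs k).1.le, (hs k).2.le⟩, rfl⟩
  have hPF : ∀ k, P k ∈ F := fun k => hS.seg_sub (hj k) (hseg k)
  have hPi : ∀ k, P k i = c := hsc
  have hcv : ∀ k, cv n v (j k + s k) = P k := fun k => by
    rw [cv_eq v (hj k) (by linarith [(hs k).1]) (by linarith [(hs k).2]), add_sub_cancel_left]
  have hPinj : ∀ k k', k ≠ k' → P k ≠ P k' := by
    intro k k' hkk h
    rw [← hcv, ← hcv] at h
    have hmem : ∀ k, (j k : ℝ) + s k ∈ Ico (0:ℝ) n := fun k => by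
      have : (j k : ℝ) + 1 ≤ n := by exact_mod_cast hj k
      exact ⟨add_nonneg (Nat.cast_nonneg _) (hs k).1.le, by linarith [(hs k).2]⟩
    have h1 := hS.inj (hmem k) (hmem k') h
    have h2 : j k = j k' := by
      rcases lt_trichotomy (j k) (j k') with h3 | h3 | h3
      · have : (j k : ℝ) + 1 ≤ j k' := by exact_mod_cast h3
        linarith [(hs k).2, (hs k').1]
      · exact h3
      · have : (j k' : ℝ) + 1 ≤ j k := by exact_mod_cast h3
        linarith [(hs k').2, (hs k).1]
    exact hkk (hinj h2)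
  have mid := fun (k a b : Fin 3) (τ : ℝ) (h0 : 0 < τ) (h1 : τ < 1) (hm : P k = P a + τ • (P b - P a))
    (hab : a ≠ b) => mid_false hS hν hpl i (hj k) (hseg k) (hPF a) (hPF b) h0 h1 hm
      (hPinj a b hab) ((hPi a).trans (hPi b).symm) (hne k)
  obtain ⟨α, β, hy⟩ := span2 hν (LinearMap.proj i : V →ₗ[ℝ] ℝ) (x := P 2 - P 0)
    (u := v (j 0 + 1) - v (j 0)) (y := P 1 - P 0)
    (by rw [map_sub, hpl _ (hPF 2), hpl _ (hPF 0), sub_self])
    (by rw [map_sub, hpl _ (hS.seg_sub (hj 0) (right_mem_segment ℝ _ _)),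
      hpl _ (hS.seg_sub (hj 0) (left_mem_segment ℝ _ _)), sub_self])
    (sub_ne_zero.2 (hPinj 2 0 (by decide)))
    (show (P 2 - P 0) i = 0 by rw [Pi.sub_apply, hPi, hPi, sub_self])
    (show (v (j 0 + 1) - v (j 0)) i ≠ 0 by
      rw [Pi.sub_apply]; exact sub_ne_zero.2 (Ne.symm (hne 0)))
    (by rw [map_sub, hpl _ (hPF 1), hpl _ (hPF 0), sub_self])
  have hβ : β = 0 := by
    have h1 := congrArg (fun z : V => z i) hy
    simp only [Pi.add_apply, Pi.smul_apply, Pi.sub_apply, smul_eq_mul, hPi, sub_self,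
      mul_zero, zero_add] at h1
    exact (mul_eq_zero.1 h1).resolve_right (sub_ne_zero.2 (Ne.symm (hne 0)))
  rw [hβ, zero_smul, add_zero] at hy
  have hP1 : P 1 = P 0 + α • (P 2 - P 0) := by rw [hy]; abel
  rcases lt_trichotomy α 0 with hα | hα | hα
  · -- `P 0` is between `P 1` and `P 2`
    have h1 : 0 < 1 - α := by linarith
    refine mid 0 1 2 (-α / (1 - α)) (div_pos (by linarith) h1) ?_ ?_ (by decide)
    · rw [div_lt_one h1]; linarith
    · have e : P 2 - P 1 = (1 - α) • (P 2 - P 0) := by rw [hP1]; module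
      rw [e, smul_smul, div_mul_cancel₀ _ h1.ne', hP1]
      module
  · rw [hα, zero_smul, add_zero] at hP1
    exact hPinj 1 0 (by decide) hP1
  · rcases lt_trichotomy α 1 with hα1 | hα1 | hα1
    · exact mid 1 0 2 α hα hα1 hP1 (by decide)
    · rw [hα1, one_smul, add_sub_cancel] at hP1
      exact hPinj 1 2 (by decide) hP1
    · refine mid 2 0 1 α⁻¹ (inv_pos.2 hα) (inv_lt_one_of_one_lt₀ hα1) ?_ (by decide)
      rw [hP1, add_sub_cancel_left, smul_smul, inv_mul_cancel₀ hα.ne', one_smul, add_sub_cancel]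

theorem inj3 {α : Type*} {a b c : α} (h01 : a ≠ b) (h02 : a ≠ c) (h12 : b ≠ c) :
    Function.Injective ![a, b, c] := by
  intro k k' h
  fin_cases k <;> fin_cases k'
  · rfl
  · exact absurd h h01
  · exact absurd h h02
  · exact absurd h h01.symm
  · rfl
  · exact absurd h h12
  · exact absurd h h02.symm
  · exact absurd h h12.symm
  · rfl

/-- the total variation of a coordinate along the boundary -/
theorem coord_sum_le (hS : Star n v O rho R F) (hν : ν ≠ 0) (hpl : ∀ x ∈ F, ν x = t) (i : Fin 3) :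
    ∑ j ∈ Finset.range n, |v (j + 1) i - v j i| ≤ 4 * R := by
  classical
  have hR0 : 0 ≤ R := (norm_nonneg _).trans (hS.R 0 (Nat.zero_le n))
  set I : ℕ → Set ℝ := fun j => Ioo (min (v j i) (v (j + 1) i)) (max (v j i) (v (j + 1) i))
    with hI
  have hvol : ∀ j, volume (I j) = ENNReal.ofReal |v (j + 1) i - v j i| := fun j => by
    rw [hI, Real.volume_Ioo]
    congr 1
    rcases le_total (v j i) (v (j + 1) i) with h | h
    · rw [max_eq_right h, min_eq_left h, abs_of_nonneg (sub_nonneg.2 h)]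
    · rw [max_eq_left h, min_eq_right h, abs_of_nonpos (sub_nonpos.2 h)]; ring
  have hsub : ∀ j < n, I j ⊆ Icc (O i - R) (O i + R) := by
    intro j hj c hc
    have h1 : |(v j - O) i| ≤ R := by
      rw [← Real.norm_eq_abs]
      exact (norm_le_pi_norm (v j - O) i).trans (hS.R j hj.le)
    have h2 : |(v (j + 1) - O) i| ≤ R := by
      rw [← Real.norm_eq_abs]
      exact (norm_le_pi_norm (v (j + 1) - O) i).trans (hS.R (j + 1) hj)
    rw [Pi.sub_apply, abs_le] at h1 h2
    constructor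
    · rcases min_choice (v j i) (v (j + 1) i) with h | h
      · linarith [h ▸ hc.1]
      · linarith [h ▸ hc.1]
    · rcases max_choice (v j i) (v (j + 1) i) with h | h
      · linarith [h ▸ hc.2]
      · linarith [h ▸ hc.2]
  have hcard : ∀ c, ∑ j ∈ Finset.range n, (I j).indicator (1 : ℝ → ℝ≥0∞) c ≤
      (Icc (O i - R) (O i + R)).indicator (fun _ => (2 : ℝ≥0∞)) c := by
    intro c
    have e1 : ∑ j ∈ Finset.range n, (I j).indicator (1 : ℝ → ℝ≥0∞) c =
        (((Finset.range n).filter fun j => c ∈ I j).card : ℝ≥0∞) := by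
      rw [Finset.card_filter, Nat.cast_sum]
      refine Finset.sum_congr rfl fun j _ => ?_
      by_cases h : c ∈ I j
      · rw [indicator_of_mem h, if_pos h]; simp
      · rw [indicator_of_notMem h, if_neg h]; simp
    rw [e1]
    by_cases hne : ((Finset.range n).filter fun j => c ∈ I j).Nonempty
    · obtain ⟨j, hj⟩ := hne
      obtain ⟨hj, hcj⟩ := Finset.mem_filter.1 hj
      rw [indicator_of_mem (hsub j (Finset.mem_range.1 hj) hcj)]
      have : ((Finset.range n).filter fun j => c ∈ I j).card ≤ 2 := by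
        by_contra hcon
        push Not at hcon
        obtain ⟨j0, m0, j1, m1, j2, m2, h01, h02, h12⟩ := Finset.two_lt_card.1 hcon
        rw [Finset.mem_filter, Finset.mem_range] at m0 m1 m2
        refine three_false hS hν hpl i (c := c) (j := ![j0, j1, j2]) ?_ ?_ ?_
        · intro k; fin_cases k
          · exact m0.1
          · exact m1.1
          · exact m2.1
        · exact inj3 h01 h02 h12
        · intro k; fin_cases k
          · exact m0.2
          · exact m1.2
          · exact m2.2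
      exact_mod_cast this
    · rw [Finset.not_nonempty_iff_eq_empty.1 hne]
      simp
  have key : ∑ j ∈ Finset.range n, ENNReal.ofReal |v (j + 1) i - v j i| ≤
      ENNReal.ofReal (4 * R) := by
    calc ∑ j ∈ Finset.range n, ENNReal.ofReal |v (j + 1) i - v j i|
        = ∑ j ∈ Finset.range n, ∫⁻ c, (I j).indicator (1 : ℝ → ℝ≥0∞) c := by
          refine Finset.sum_congr rfl fun j _ => ?_
          rw [lintegral_indicator_one measurableSet_Ioo, hvol]
      _ = ∫⁻ c, ∑ j ∈ Finset.range n, (I j).indicator (1 : ℝ → ℝ≥0∞) c := by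
          rw [lintegral_finsetSum]
          intro j _
          exact measurable_one.indicator measurableSet_Ioo
      _ ≤ ∫⁻ c, (Icc (O i - R) (O i + R)).indicator (fun _ => (2 : ℝ≥0∞)) c :=
          lintegral_mono hcard
      _ = ENNReal.ofReal (4 * R) := by
          rw [lintegral_indicator_const measurableSet_Icc, Real.volume_Icc]
          have : (4 : ℝ) * R = 2 * (O i + R - (O i - R)) := by ring
          rw [this, ENNReal.ofReal_mul (by norm_num)]
          norm_num
  rw [← ENNReal.ofReal_sum_of_nonneg fun j _ => abs_nonneg _] at key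
  exact (ENNReal.ofReal_le_ofReal_iff (by linarith)).1 key

/-- **the perimeter** -/
theorem perim_le (hS : Star n v O rho R F) (hν : ν ≠ 0) (hpl : ∀ x ∈ F, ν x = t) :
    ∑ j ∈ Finset.range n, ‖v (j + 1) - v j‖ ≤ 12 * R := by
  have h1 : ∀ j ∈ Finset.range n, ‖v (j + 1) - v j‖ ≤ ∑ i : Fin 3, |v (j + 1) i - v j i| := by
    intro j _
    refine (pi_norm_le_iff_of_nonneg (Finset.sum_nonneg fun i _ => abs_nonneg _)).2 fun i => ?_
    rw [Real.norm_eq_abs, Pi.sub_apply]
    exact Finset.single_le_sum (f := fun i => |v (j + 1) i - v j i|) (fun i _ => abs_nonneg _)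
      (Finset.mem_univ i)
  refine (Finset.sum_le_sum h1).trans ?_
  rw [Finset.sum_comm]
  calc ∑ i : Fin 3, ∑ j ∈ Finset.range n, |v (j + 1) i - v j i| ≤ ∑ _i : Fin 3, 4 * R :=
        Finset.sum_le_sum fun i _ => coord_sum_le hS hν hpl i
    _ = 12 * R := by
        rw [Finset.sum_const, Finset.card_univ, Fintype.card_fin, nsmul_eq_mul]
        norm_num
        ring

end P073.H155
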