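import Vale.Agent.P073.H155.Crv
import Vale.Agent.P073.H155.LamSum

/-!
# P073, H155 (EDGE-DATA): combinatorial positions on a closed curve
-/

open Set Metric Topology Filter MeasureTheory

set_option autoImplicit false

namespace P073.H155

open P073.H31

/-- increments of clamps to non-overlapping intervals -/
theorem sum_cld_sub_le {ι : Type*} (s : Finset ι) (c d : ι → ℝ) (hcd : ∀ i ∈ s, c i ≤ d i)
    (hd : ∀ i ∈ s, ∀ j ∈ s, i ≠ j → d i ≤ c j ∨ d j ≤ c i) {a a' : ℝ} (ha : a ≤ a') :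
    ∑ i ∈ s, (cld (c i) (d i) a' - cld (c i) (d i) a) ≤ a' - a := by
  have h1 : ∀ i ∈ s, cld (c i) (d i) a' - cld (c i) (d i) a =
      volume.real (Ioc (c i) (d i) ∩ Ioc a a') := by
    intro i hi
    rw [cld_sub (hcd i hi) ha, measureReal_def, measureReal_def, Icc_inter_Icc, Ioc_inter_Ioc,
      Real.volume_Icc, Real.volume_Ioc]
  have hfin : ∀ i ∈ s, volume (Ioc (c i) (d i) ∩ Ioc a a') ≠ ⊤ := fun i _ =>
    ((measure_mono inter_subset_right).trans_lt
      (by rw [Real.volume_Ioc]; exact ENNReal.ofReal_lt_top)).ne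
  rw [Finset.sum_congr rfl h1, ← measureReal_biUnion_finset (h := hfin)]
  · have h2 : volume.real (Ioc a a') = a' - a := by
      rw [measureReal_def, Real.volume_Ioc, ENNReal.toReal_ofReal (sub_nonneg.2 ha)]
    rw [← h2]
    refine measureReal_mono (iUnion₂_subset fun i _ => inter_subset_right) ?_
    rw [Real.volume_Ioc]
    exact ENNReal.ofReal_ne_top
  · intro i hi j hj hij
    rw [Function.onFun, Set.disjoint_left]
    rintro x ⟨hx, _⟩ ⟨hy, _⟩
    rcases hd i hi j hj hij with h | h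
    · linarith [hx.2, hy.1]
    · linarith [hx.1, hy.2]
  · intro i _
    exact measurableSet_Ioc.inter measurableSet_Ioc

theorem continuous_cld (c d : ℝ) : Continuous (cld c d) := by
  unfold cld; fun_prop

theorem conicalOn_cld {X : Set ℝ} (hX : ConicalSet X) (c d : ℝ) : ConicalOn (cld c d) X := by
  unfold cld
  refine (conicalOn_const c hX).rmax ((conicalOn_const d hX).rmin (conicalOn_id hX) ?_ ?_) ?_ ?_
  · exact continuousOn_const
  · exact continuousOn_id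
  · exact continuousOn_const
  · exact ContinuousOn.inf continuousOn_const continuousOn_id

theorem cld_mem {c d : ℝ} (h : c ≤ d) (x : ℝ) : cld c d x ∈ Icc c d :=
  ⟨le_max_left _ _, max_le h (min_le_left _ _)⟩

theorem cld_lt {c d x y : ℝ} (hcd : c ≤ d) (h : cld c d x < cld c d y) :
    cld c d x < d ∧ c < cld c d y :=
  ⟨h.trans_le (cld_mem hcd y).2, (cld_mem hcd x).1.trans_lt h⟩

/-- Position data on `[0, L]`: pairwise non-overlapping intervals `[s1 x, s4 x]`, `x ∈ X`, with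
middle parts `[s2 x, s3 x]`, weights `om x`, and increasing functions `ze x` from `0` to `1` on
the middle parts. -/
structure PosIn {ι : Type*} (L : ℝ) (X : Finset ι) (s1 s2 s3 s4 om : ι → ℝ)
    (ze : ι → ℝ → ℝ) : Prop where
  L0 : 0 < L
  a1 : ∀ x ∈ X, 0 < s1 x
  a2 : ∀ x ∈ X, s1 x < s2 x
  a3 : ∀ x ∈ X, s2 x < s3 x
  a4 : ∀ x ∈ X, s3 x < s4 x
  a5 : ∀ x ∈ X, s4 x < L
  dis : ∀ x ∈ X, ∀ y ∈ X, x ≠ y → s4 x ≤ s1 y ∨ s4 y ≤ s1 x
  om0 : ∀ x ∈ X, 0 < om x
  z0 : ∀ x ∈ X, ∀ T ≤ s2 x, ze x T = 0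
  z1 : ∀ x ∈ X, ∀ T, s3 x ≤ T → ze x T = 1
  zm : ∀ x ∈ X, StrictMonoOn (ze x) (Icc (s2 x) (s3 x))
  zc : ∀ x ∈ X, Continuous (ze x)
  zk : ∀ x ∈ X, ConicalOn (ze x) univ

namespace PosIn

variable {ι : Type*} {L : ℝ} {X : Finset ι} {s1 s2 s3 s4 om : ι → ℝ} {ze : ι → ℝ → ℝ}

/-- the mass function of one crossing point -/
noncomputable def ks (s1 s2 s3 s4 om : ι → ℝ) (ze : ι → ℝ → ℝ) (x : ι) (T : ℝ) : ℝ :=
  om x * (2 * cl1 ((T - s1 x) / (s2 x - s1 x)) + ze x T + 2 * cl1 ((T - s3 x) / (s4 x - s3 x)))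

/-- the background -/
noncomputable def be (X : Finset ι) (s2 s3 : ι → ℝ) (T : ℝ) : ℝ :=
  T - ∑ x ∈ X, (cld (s2 x) (s3 x) T - s2 x)

/-- the position function -/
noncomputable def SS (X : Finset ι) (s1 s2 s3 s4 om : ι → ℝ) (ze : ι → ℝ → ℝ) (ep T : ℝ) : ℝ :=
  ep * be X s2 s3 T + ∑ x ∈ X, ks s1 s2 s3 s4 om ze x T

variable (P : PosIn L X s1 s2 s3 s4 om ze)

include P

theorem disJ : ∀ x ∈ X, ∀ y ∈ X, x ≠ y → s3 x ≤ s2 y ∨ s3 y ≤ s2 x := by
  intro x hx y hy hxy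
  rcases P.dis x hx y hy hxy with h | h
  · exact Or.inl (by linarith [P.a4 x hx, P.a2 y hy])
  · exact Or.inr (by linarith [P.a4 y hy, P.a2 x hx])

theorem be_mono {T T' : ℝ} (h : T ≤ T') : be X s2 s3 T ≤ be X s2 s3 T' := by
  have h1 := sum_cld_sub_le X s2 s3 (fun x hx => (P.a3 x hx).le) P.disJ h
  have h2 : be X s2 s3 T' - be X s2 s3 T =
      (T' - T) - ∑ x ∈ X, (cld (s2 x) (s3 x) T' - cld (s2 x) (s3 x) T) := by
    unfold be
    have h3 : ∑ x ∈ X, (cld (s2 x) (s3 x) T' - cld (s2 x) (s3 x) T) =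
        ∑ x ∈ X, (cld (s2 x) (s3 x) T' - s2 x) - ∑ x ∈ X, (cld (s2 x) (s3 x) T - s2 x) := by
      rw [← Finset.sum_sub_distrib]
      exact Finset.sum_congr rfl fun x _ => by ring
    rw [h3]; ring
  linarith

omit P in
theorem be_le {T T' : ℝ} (h : T ≤ T') :
    be X s2 s3 T' - be X s2 s3 T ≤ T' - T := by
  unfold be
  have h3 : ∑ x ∈ X, (cld (s2 x) (s3 x) T - s2 x) ≤ ∑ x ∈ X, (cld (s2 x) (s3 x) T' - s2 x) :=
    Finset.sum_le_sum fun x _ => by linarith [cld_mono (c := s2 x) (d := s3 x) h]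
  linarith

theorem ze_cld {x : ι} (hx : x ∈ X) (T : ℝ) : ze x T = ze x (cld (s2 x) (s3 x) T) := by
  have h := P.a3 x hx
  rcases le_total T (s2 x) with h1 | h1
  · rw [cld_of_le h1, P.z0 x hx T h1, P.z0 x hx _ le_rfl]
  rcases le_total (s3 x) T with h2 | h2
  · rw [cld_of_ge h.le h2, P.z1 x hx T h2, P.z1 x hx _ le_rfl]
  · rw [cld_self h1 h2]

theorem ze_mono {x : ι} (hx : x ∈ X) {T T' : ℝ} (h : T ≤ T') : ze x T ≤ ze x T' := by
  rw [P.ze_cld hx T, P.ze_cld hx T']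
  exact (P.zm x hx).monotoneOn (cld_mem (P.a3 x hx).le _) (cld_mem (P.a3 x hx).le _) (cld_mono h)

theorem ks_mono {x : ι} (hx : x ∈ X) {T T' : ℝ} (h : T ≤ T') :
    ks s1 s2 s3 s4 om ze x T ≤ ks s1 s2 s3 s4 om ze x T' := by
  unfold ks
  have h1 := sub_pos.2 (P.a2 x hx)
  have h2 := sub_pos.2 (P.a4 x hx)
  have h3 := P.ze_mono hx h
  have h4 : cl1 ((T - s1 x) / (s2 x - s1 x)) ≤ cl1 ((T' - s1 x) / (s2 x - s1 x)) :=
    cl1_mono (by gcongr)
  have h5 : cl1 ((T - s3 x) / (s4 x - s3 x)) ≤ cl1 ((T' - s3 x) / (s4 x - s3 x)) :=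
    cl1_mono (by gcongr)
  refine mul_le_mul_of_nonneg_left (by linarith) (P.om0 x hx).le

theorem SS_mono {ep : ℝ} (hep : 0 ≤ ep) {T T' : ℝ} (h : T ≤ T') :
    SS X s1 s2 s3 s4 om ze ep T ≤ SS X s1 s2 s3 s4 om ze ep T' := by
  unfold SS
  exact add_le_add (mul_le_mul_of_nonneg_left (P.be_mono h) hep)
    (Finset.sum_le_sum fun x hx => P.ks_mono hx h)

theorem SS_strictMono {ep : ℝ} (hep : 0 < ep) : StrictMono (SS X s1 s2 s3 s4 om ze ep) := by
  intro T T' h
  unfold SS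
  have hk : ∀ x ∈ X, ks s1 s2 s3 s4 om ze x T ≤ ks s1 s2 s3 s4 om ze x T' :=
    fun x hx => P.ks_mono hx h.le
  rcases (P.be_mono h.le).lt_or_eq with h1 | h1
  · exact add_lt_add_of_lt_of_le (mul_lt_mul_of_pos_left h1 hep) (Finset.sum_le_sum hk)
  · rw [← h1]
    refine add_lt_add_of_le_of_lt le_rfl (Finset.sum_lt_sum hk ?_)
    by_contra hcon
    push Not at hcon
    have h2 : ∀ x ∈ X, cld (s2 x) (s3 x) T' = cld (s2 x) (s3 x) T := by
      intro x hx
      by_contra hne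
      have h3 : cld (s2 x) (s3 x) T < cld (s2 x) (s3 x) T' :=
        lt_of_le_of_ne (cld_mono h.le) (Ne.symm hne)
      have h4 : ze x T < ze x T' := by
        rw [P.ze_cld hx T, P.ze_cld hx T']
        exact P.zm x hx (cld_mem (P.a3 x hx).le _) (cld_mem (P.a3 x hx).le _) h3
      have h5 := hcon x hx
      have g1 := sub_pos.2 (P.a2 x hx)
      have g2 := sub_pos.2 (P.a4 x hx)
      have g4 : cl1 ((T - s1 x) / (s2 x - s1 x)) ≤ cl1 ((T' - s1 x) / (s2 x - s1 x)) :=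
        cl1_mono (by gcongr)
      have g5 : cl1 ((T - s3 x) / (s4 x - s3 x)) ≤ cl1 ((T' - s3 x) / (s4 x - s3 x)) :=
        cl1_mono (by gcongr)
      unfold ks at h5
      have h6 := le_of_mul_le_mul_left h5 (P.om0 x hx)
      linarith
    have h3 : be X s2 s3 T' = be X s2 s3 T + (T' - T) := by
      unfold be
      rw [Finset.sum_congr rfl fun x hx => by rw [h2 x hx]]
      ring
    linarith

omit P in
theorem cl1_div_of_le {T s s' : ℝ} (h : s < s') (hT : T ≤ s) : cl1 ((T - s) / (s' - s)) = 0 :=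
  cl1_eq_zero (div_nonpos_of_nonpos_of_nonneg (by linarith) (by linarith))

omit P in
theorem cl1_div_of_ge {T s s' : ℝ} (h : s < s') (hT : s' ≤ T) : cl1 ((T - s) / (s' - s)) = 1 :=
  cl1_eq_one (by rw [le_div_iff₀ (sub_pos.2 h)]; linarith)

/-- the mass function before the interval -/
theorem ks_of_le {x : ι} (hx : x ∈ X) {T : ℝ} (h : T ≤ s1 x) : ks s1 s2 s3 s4 om ze x T = 0 := by
  have h2 := P.a2 x hx
  have h3 := P.a3 x hx
  have h4 := P.a4 x hx
  rw [ks, cl1_div_of_le h2 h, P.z0 x hx T (by linarith), cl1_div_of_le h4 (by linarith)]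
  ring

theorem ks_of_ge {x : ι} (hx : x ∈ X) {T : ℝ} (h : s4 x ≤ T) :
    ks s1 s2 s3 s4 om ze x T = 5 * om x := by
  have h2 := P.a2 x hx
  have h3 := P.a3 x hx
  have h4 := P.a4 x hx
  rw [ks, cl1_div_of_ge h2 (by linarith), P.z1 x hx T (by linarith), cl1_div_of_ge h4 h]
  ring

theorem ks_mid {x : ι} (hx : x ∈ X) {T : ℝ} (h : s2 x ≤ T) (h' : T ≤ s3 x) :
    ks s1 s2 s3 s4 om ze x T = om x * (2 + ze x T) := by
  have h2 := P.a2 x hx
  have h4 := P.a4 x hx
  rw [ks, cl1_div_of_ge h2 h, cl1_div_of_le h4 h']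
  ring

/-- on a middle interval -/
theorem SS_mid {ep : ℝ} {x : ι} (hx : x ∈ X) {T : ℝ} (h : s2 x ≤ T) (h' : T ≤ s3 x) :
    SS X s1 s2 s3 s4 om ze ep T = SS X s1 s2 s3 s4 om ze ep (s2 x) + om x * ze x T := by
  classical
  have h3 := P.a3 x hx
  have hb : be X s2 s3 T = be X s2 s3 (s2 x) := by
    unfold be
    rw [← Finset.add_sum_erase X _ hx, ← Finset.add_sum_erase X _ hx, cld_self h h',
      cld_of_le le_rfl]
    have : ∀ y ∈ X.erase x, cld (s2 y) (s3 y) T - s2 y = cld (s2 y) (s3 y) (s2 x) - s2 y := by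
      intro y hy
      obtain ⟨hyx, hyX⟩ := Finset.mem_erase.1 hy
      have g3 := P.a3 y hyX
      rcases P.disJ x hx y hyX (Ne.symm hyx) with g | g
      · rw [cld_of_le (h'.trans g), cld_of_le (h3.le.trans g)]
      · rw [cld_of_ge g3.le (g.trans h), cld_of_ge g3.le g]
    rw [Finset.sum_congr rfl this]
    ring
  have hk : ∑ y ∈ X, ks s1 s2 s3 s4 om ze y T =
      ∑ y ∈ X, ks s1 s2 s3 s4 om ze y (s2 x) + om x * ze x T := by
    rw [← Finset.add_sum_erase X _ hx, ← Finset.add_sum_erase X (fun y =>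
      ks s1 s2 s3 s4 om ze y (s2 x)) hx, P.ks_mid hx h h', P.ks_mid hx le_rfl h3.le,
      P.z0 x hx _ le_rfl]
    have : ∀ y ∈ X.erase x, ks s1 s2 s3 s4 om ze y T = ks s1 s2 s3 s4 om ze y (s2 x) := by
      intro y hy
      obtain ⟨hyx, hyX⟩ := Finset.mem_erase.1 hy
      have g2 := P.a2 x hx
      have g4 := P.a4 x hx
      rcases P.dis x hx y hyX (Ne.symm hyx) with g | g
      · rw [P.ks_of_le hyX (by linarith), P.ks_of_le hyX (by linarith)]
      · rw [P.ks_of_ge hyX (by linarith), P.ks_of_ge hyX (by linarith)]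
    rw [Finset.sum_congr rfl this]
    ring
  unfold SS
  rw [hb, hk]
  ring

/-- the gap between two middle intervals -/
theorem SS_gap {ep : ℝ} (hep : 0 ≤ ep) {x y : ι} (hx : x ∈ X) (hy : y ∈ X)
    (h : s4 x ≤ s1 y) : SS X s1 s2 s3 s4 om ze ep (s3 x) + 2 * om x + 2 * om y ≤
      SS X s1 s2 s3 s4 om ze ep (s2 y) := by
  classical
  have x2 := P.a2 x hx
  have x3 := P.a3 x hx
  have x4 := P.a4 x hx
  have y2 := P.a2 y hy
  have y3 := P.a3 y hy
  have y4 := P.a4 y hy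
  have hne : x ≠ y := by
    rintro rfl; linarith
  have hle : s3 x ≤ s2 y := by linarith
  have hyx : y ∈ X.erase x := Finset.mem_erase.2 ⟨hne.symm, hy⟩
  have e1 : ks s1 s2 s3 s4 om ze x (s3 x) = 3 * om x := by
    rw [P.ks_mid hx x3.le le_rfl, P.z1 x hx _ le_rfl]; ring
  have e2 : ks s1 s2 s3 s4 om ze x (s2 y) = 5 * om x := P.ks_of_ge hx (by linarith)
  have e3 : ks s1 s2 s3 s4 om ze y (s3 x) = 0 := P.ks_of_le hy (by linarith)
  have e4 : ks s1 s2 s3 s4 om ze y (s2 y) = 2 * om y := by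
    rw [P.ks_mid hy le_rfl y3.le, P.z0 y hy _ le_rfl]; ring
  have hb := mul_le_mul_of_nonneg_left (P.be_mono hle) hep
  unfold SS
  rw [← Finset.add_sum_erase X _ hx, ← Finset.add_sum_erase _ _ hyx,
    ← Finset.add_sum_erase X (fun z => ks s1 s2 s3 s4 om ze z (s2 y)) hx,
    ← Finset.add_sum_erase _ (fun z => ks s1 s2 s3 s4 om ze z (s2 y)) hyx, e1, e2, e3, e4]
  have hr : ∑ z ∈ (X.erase x).erase y, ks s1 s2 s3 s4 om ze z (s3 x) ≤
      ∑ z ∈ (X.erase x).erase y, ks s1 s2 s3 s4 om ze z (s2 y) :=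
    Finset.sum_le_sum fun z hz => P.ks_mono
      (Finset.mem_of_mem_erase (Finset.mem_of_mem_erase hz)) hle
  linarith

/-- the total mass -/
theorem SS_total {ep T T' : ℝ} (h : ∀ x ∈ X, T ≤ s1 x) (h' : ∀ x ∈ X, s4 x ≤ T') :
    SS X s1 s2 s3 s4 om ze ep T' - SS X s1 s2 s3 s4 om ze ep T =
      ep * (be X s2 s3 T' - be X s2 s3 T) + 5 * ∑ x ∈ X, om x := by
  unfold SS
  rw [Finset.sum_congr rfl fun x hx => P.ks_of_ge hx (h' x hx),
    Finset.sum_congr rfl fun x hx => P.ks_of_le hx (h x hx), ← Finset.mul_sum]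
  simp only [Finset.sum_const_zero]
  ring

theorem continuous_SS (ep : ℝ) : Continuous (SS X s1 s2 s3 s4 om ze ep) := by
  have h1 : Continuous (be X s2 s3) := by
    unfold be
    exact continuous_id.sub (continuous_finsetSum _ fun x _ =>
      (continuous_cld _ _).sub continuous_const)
  unfold SS
  refine (continuous_const.mul h1).add (continuous_finsetSum _ fun x hx => ?_)
  unfold ks
  refine continuous_const.mul (((continuous_const.mul ?_).add (P.zc x hx)).add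
    (continuous_const.mul ?_))
  · exact continuous_cl1.comp (by fun_prop)
  · exact continuous_cl1.comp (by fun_prop)

theorem conicalOn_SS (ep : ℝ) {Y : Set ℝ} (hY : ConicalSet Y) :
    ConicalOn (SS X s1 s2 s3 s4 om ze ep) Y := by
  have h1 : ConicalOn (be X s2 s3) Y := by
    unfold be
    exact (conicalOn_id hY).sub (conicalOn_sum hY _ fun x _ =>
      (conicalOn_cld hY _ _).sub (conicalOn_const _ hY))
  have h2 : ∀ a b : ℝ, ConicalOn (fun T => cl1 ((T - a) / b)) Y := by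
    intro a b
    refine conicalOn_cl1 ((conicalOn_affR hY (1 / b) (-a / b)).congr fun T _ => ?_) (by fun_prop)
    ring
  unfold SS
  refine (h1.const_smul ep).add (conicalOn_sum hY _ fun x hx => ?_)
  unfold ks
  refine ConicalOn.const_smul (om x) (((((h2 _ _).const_smul 2)).add
    ((P.zk x hx).mono hY (subset_univ _))).add ((h2 _ _).const_smul 2))

/-- the slope of the mass function of one point -/
theorem ks_le {M : ℝ} {x : ι} (hx : x ∈ X)
    (m1 : 2 * om x ≤ M * (s2 x - s1 x)) (m3 : 2 * om x ≤ M * (s4 x - s3 x))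
    (m2 : ∀ T ∈ Icc (s2 x) (s3 x), ∀ T' ∈ Icc (s2 x) (s3 x), T ≤ T' →
      om x * (ze x T' - ze x T) ≤ M * (T' - T)) {T T' : ℝ} (h : T ≤ T') :
    ks s1 s2 s3 s4 om ze x T' - ks s1 s2 s3 s4 om ze x T ≤
      M * (cld (s1 x) (s4 x) T' - cld (s1 x) (s4 x) T) := by
  have x2 := P.a2 x hx
  have x3 := P.a3 x hx
  have x4 := P.a4 x hx
  have hom := P.om0 x hx
  -- ramps
  have hr : ∀ a b : ℝ, a < b → ∀ t, cl1 ((t - a) / (b - a)) = (cld a b t - a) / (b - a) := by
    intro a b hab t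
    have hpos := sub_pos.2 hab
    rcases le_total t a with h1 | h1
    · rw [cl1_div_of_le hab h1, cld_of_le h1]; simp
    rcases le_total b t with h2 | h2
    · rw [cl1_div_of_ge hab h2, cld_of_ge hab.le h2, div_self hpos.ne']
    · rw [cld_self h1 h2]
      exact cl1_eq_self (div_nonneg (by linarith) hpos.le) (by rw [div_le_one hpos]; linarith)
  have hadd : ∀ t, cld (s1 x) (s4 x) t = cld (s1 x) (s2 x) t + (cld (s2 x) (s3 x) t - s2 x) +
      (cld (s3 x) (s4 x) t - s3 x) := by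
    intro t
    rcases le_total t (s1 x) with h1 | h1
    · rw [cld_of_le h1, cld_of_le h1, cld_of_le (by linarith), cld_of_le (by linarith)]; ring
    rcases le_total t (s2 x) with h2 | h2
    · rw [cld_self h1 (by linarith), cld_self h1 h2, cld_of_le h2, cld_of_le (by linarith)]; ring
    rcases le_total t (s3 x) with h3 | h3
    · rw [cld_self h1 (by linarith), cld_of_ge x2.le h2, cld_self h2 h3, cld_of_le h3]; ring
    rcases le_total t (s4 x) with h4 | h4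
    · rw [cld_self h1 h4, cld_of_ge x2.le h2, cld_of_ge x3.le h3, cld_self h3 h4]; ring
    · rw [cld_of_ge (by linarith) h4, cld_of_ge x2.le h2, cld_of_ge x3.le h3,
        cld_of_ge x4.le h4]; ring
  have p1 := sub_pos.2 x2
  have p3 := sub_pos.2 x4
  have c1 := cld_mono (c := s1 x) (d := s2 x) h
  have c2 := cld_mono (c := s2 x) (d := s3 x) h
  have c3 := cld_mono (c := s3 x) (d := s4 x) h
  have k1 : om x * (2 * cl1 ((T' - s1 x) / (s2 x - s1 x)) -
      2 * cl1 ((T - s1 x) / (s2 x - s1 x))) ≤ M * (cld (s1 x) (s2 x) T' - cld (s1 x) (s2 x) T) := by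
    rw [hr _ _ x2, hr _ _ x2]
    have : om x * (2 * ((cld (s1 x) (s2 x) T' - s1 x) / (s2 x - s1 x)) -
        2 * ((cld (s1 x) (s2 x) T - s1 x) / (s2 x - s1 x))) =
        (2 * om x / (s2 x - s1 x)) * (cld (s1 x) (s2 x) T' - cld (s1 x) (s2 x) T) := by
      field_simp; ring
    rw [this]
    exact mul_le_mul_of_nonneg_right ((div_le_iff₀ p1).2 m1) (by linarith)
  have k3 : om x * (2 * cl1 ((T' - s3 x) / (s4 x - s3 x)) -
      2 * cl1 ((T - s3 x) / (s4 x - s3 x))) ≤ M * (cld (s3 x) (s4 x) T' - cld (s3 x) (s4 x) T) := by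
    rw [hr _ _ x4, hr _ _ x4]
    have : om x * (2 * ((cld (s3 x) (s4 x) T' - s3 x) / (s4 x - s3 x)) -
        2 * ((cld (s3 x) (s4 x) T - s3 x) / (s4 x - s3 x))) =
        (2 * om x / (s4 x - s3 x)) * (cld (s3 x) (s4 x) T' - cld (s3 x) (s4 x) T) := by
      field_simp; ring
    rw [this]
    exact mul_le_mul_of_nonneg_right ((div_le_iff₀ p3).2 m3) (by linarith)
  have k2 : om x * (ze x T' - ze x T) ≤ M * (cld (s2 x) (s3 x) T' - cld (s2 x) (s3 x) T) := by
    rw [P.ze_cld hx T, P.ze_cld hx T']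
    exact m2 _ (cld_mem x3.le _) _ (cld_mem x3.le _) c2
  rw [hadd T, hadd T']
  unfold ks
  linarith

/-- **the slope of the position function on an edge `[A, B]`** -/
theorem SS_le {ep M A B : ℝ} (hep : 0 ≤ ep) (hM : 0 ≤ M)
    (hX : ∀ x ∈ X, (A ≤ s1 x ∧ s4 x ≤ B ∧ 2 * om x ≤ M * (s2 x - s1 x) ∧
      2 * om x ≤ M * (s4 x - s3 x) ∧ ∀ T ∈ Icc (s2 x) (s3 x), ∀ T' ∈ Icc (s2 x) (s3 x), T ≤ T' →
      om x * (ze x T' - ze x T) ≤ M * (T' - T)) ∨ s4 x ≤ A ∨ B ≤ s1 x) {T T' : ℝ} (h : T ≤ T')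
    (hA : A ≤ T) (hB : T' ≤ B) :
    SS X s1 s2 s3 s4 om ze ep T' - SS X s1 s2 s3 s4 om ze ep T ≤ (ep + M) * (T' - T) := by
  have h1 : ∀ x ∈ X, ks s1 s2 s3 s4 om ze x T' - ks s1 s2 s3 s4 om ze x T ≤
      M * (cld (s1 x) (s4 x) T' - cld (s1 x) (s4 x) T) := by
    intro x hx
    rcases hX x hx with ⟨_, _, m1, m3, m2⟩ | g | g
    · exact P.ks_le hx m1 m3 m2 h
    · rw [P.ks_of_ge hx (by linarith), P.ks_of_ge hx (by linarith), sub_self]
      exact mul_nonneg hM (by linarith [cld_mono (c := s1 x) (d := s4 x) h])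
    · rw [P.ks_of_le hx (by linarith), P.ks_of_le hx (by linarith), sub_self]
      exact mul_nonneg hM (by linarith [cld_mono (c := s1 x) (d := s4 x) h])
  have h2 := sum_cld_sub_le X s1 s4 (fun x hx => by
    linarith [P.a2 x hx, P.a3 x hx, P.a4 x hx]) P.dis h
  have h3 := be_le (X := X) (s2 := s2) (s3 := s3) h
  have h4 := Finset.sum_le_sum h1
  rw [Finset.sum_sub_distrib, ← Finset.mul_sum] at h4
  have h5 := mul_le_mul_of_nonneg_left h2 hM
  have h6 := mul_le_mul_of_nonneg_left h3 hep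
  unfold SS
  linarith

end PosIn

end P073.H155
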