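import Vale.Agent.P073.H236.GOut4

/-!
# P073, H155: **[RT-3D]** ROUND T of `K3C`, the clauses `near3`, `off3` (all points of the cells)
-/

open Set Metric Topology Filter

set_option autoImplicit false

namespace P073.H155

open _root_.P073 _root_.P073.Net _root_.P073.PA691 _root_.P073.H236 _root_.P073.H579
open Vale.Agent.P073.St (V)
open Vale.Agent.P073.H471 Vale.Agent.P073.H267
open Vale.Agent.P073.H73 (Mesh)
open Vale.Agent.P073.H193 (Edges)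

variable {Ω Λ : Set V} {v : V} {K : BoxCx Λ v} {S₀ : Rad K} {W : Wid K S₀} {B : Boxes W}
  {G : Geo B} {M : Mesh Ω} {E : Edges M} {h h' : ConHomeo Ω Λ} {ω : TBx K → ℝ}
  {G₀ : Set (TBx K)} {Act₀ : Set M.κ} {Bx : G₀ → BX 3} {Ks : G₀ → Set V} {κ : V → V}
  {g : ConHomeo Ω Λ} {S : ConHomeo Λ Λ} {r : G₀ → ℝ}

/-- the point `x` after the lift, given on a protected cell: inside the supports it is moved by at
most `r b`, off the supports not at all -/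
def PtOk (h g : V → V) (Ks : G₀ → Set V) (r : G₀ → ℝ) (x : V) : Prop :=
  (∃ b, h x ∈ Ks b ∧ g x ∈ Ks b ∧ ‖g x - h x‖ ≤ r b) ∨ g x = h x

section

variable (D : St2G G M E h h' ω G₀ Act₀ Bx Ks κ g)
include D

/-- (T3) for a cell which misses the boxes, and was not changed before the staircase -/
theorem off_cell (hSm : Mv Ks r S.toFun) {i : M.ι} (hg : EqOn g.toFun h'.toFun (M.Q i))
    (hno : ∀ x ∈ M.Q i, ∀ b ∈ G₀, h.toFun x ∉ G.TB false b) :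
    EqOn (g.trans S).toFun h.toFun (M.Q i) :=
  D.off hSm (M.sub i) (fun _ => hg) hno

/-- **near3**, the cells which are not protected -/
theorem near_cell (hr : ∀ b, 12 * ω b.1 ≤ r b) (hc : ∀ b, (Bx b).c ≤ r b)
    (hSm : Mv Ks r S.toFun)
    (hom : ∀ b : G₀, ∀ y ∈ G.TB false b.1, ∀ q, y ∈ K.cube q → 16 * r b ≤ G.om q) {i : M.ι}
    (hcmp : (∃ x ∈ M.Q i, ∃ b ∈ G₀, h.toFun x ∈ G.TB false b) → ∀ x ∈ M.Q i, ∀ x' ∈ M.Q i,
      ∀ q q', h.toFun x ∈ K.cube q → h.toFun x' ∈ K.cube q' →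
      4 * ‖h.toFun x - h.toFun x'‖ ≤ G.om q ∧ G.om q' ≤ 4 * G.om q)
    (hmiss : (∀ x ∈ M.Q i, ∀ b ∈ G₀, h.toFun x ∉ G.TB false b) → EqOn g.toFun h'.toFun (M.Q i))
    {x : V} (hx : x ∈ M.Q i) {q : K.T} (hq : h.toFun x ∈ K.cube q) :
    ‖(g.trans S).toFun x - h.toFun x‖ ≤ G.om q := by
  by_cases hex : ∃ x ∈ M.Q i, ∃ b ∈ G₀, h.toFun x ∈ G.TB false b
  · exact D.near hr hc hSm hom (M.sub i) (D.cell i) (hcmp hex) hx hq
  · push Not at hex
    rw [off_cell D hSm (hmiss hex) hex hx, sub_self, norm_zero]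
    exact (G.om_pos q).le

/-- a point of a protected cell -/
theorem near_pt (hr : ∀ b, 12 * ω b.1 ≤ r b) (hSm : Mv Ks r S.toFun)
    (hom : ∀ b : G₀, ∀ y ∈ G.TB false b.1, ∀ q, y ∈ K.cube q → 16 * r b ≤ G.om q) {x : V}
    (hP : PtOk h.toFun g.toFun Ks r x) {q : K.T}
    (hq : h.toFun x ∈ K.cube q) : ‖(g.trans S).toFun x - h.toFun x‖ ≤ G.om q := by
  have hr0 : ∀ b, 0 ≤ r b := fun b => by linarith [D.ω0 b.1, hr b]
  show ‖S.toFun (g.toFun x) - h.toFun x‖ ≤ _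
  rcases hP with ⟨b, hb1, hb2, hb3⟩ | he
  · have h1 := hSm.near b _ hb2
    have h2 := hom b _ (D.subT b hb1) q hq
    have h3 := norm_sub_le_norm_sub_add_norm_sub (S.toFun (g.toFun x)) (g.toFun x) (h.toFun x)
    linarith [hr0 b]
  · rw [he]
    by_cases hex : ∃ b, h.toFun x ∈ Ks b
    · obtain ⟨b, hb⟩ := hex
      have h1 := hSm.near b _ hb
      have h2 := hom b _ (D.subT b hb) q hq
      linarith [hr0 b]
    · push Not at hex
      rw [hSm.off _ hex, sub_self, norm_zero]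
      exact (G.om_pos q).le

/-- **off3**, a point of a protected cell -/
theorem off_pt (hSm : Mv Ks r S.toFun) {x : V} (hP : PtOk h.toFun g.toFun Ks r x)
    (hno : ∀ b ∈ G₀, h.toFun x ∉ G.TB false b) : (g.trans S).toFun x = h.toFun x := by
  show S.toFun (g.toFun x) = h.toFun x
  rcases hP with ⟨b, hb1, -⟩ | he
  · exact absurd (D.subT b hb1) (hno b.1 b.2)
  · rw [he]
    exact hSm.off _ fun b hb => hno b.1 b.2 (D.subT b hb)

/-- **[RT-3D]** the clauses `near3`, `off3`, `offc`, `offg` of the output of ROUND T; `A`: the cells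
with a given map; the cells which miss the boxes are given, too, by `h'` -/
theorem rt3D (hr : ∀ b, 12 * ω b.1 ≤ r b) (hc : ∀ b, (Bx b).c ≤ r b)
    (hSm : Mv Ks r S.toFun)
    (hom : ∀ b : G₀, ∀ y ∈ G.TB false b.1, ∀ q, y ∈ K.cube q → 16 * r b ≤ G.om q)
    {A : Set M.ι} {N : Set V} (hgv : ∀ i ∈ A, ∀ x ∈ M.Q i, PtOk h.toFun g.toFun Ks r x)
    (hmiss : ∀ i ∉ A, (∀ x ∈ M.Q i, ∀ b ∈ G₀, h.toFun x ∉ G.TB false b) →
      EqOn g.toFun h'.toFun (M.Q i))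
    (hcmp : ∀ i ∉ A, (∃ x ∈ M.Q i, ∃ b ∈ G₀, h.toFun x ∈ G.TB false b) → ∀ x ∈ M.Q i,
      ∀ x' ∈ M.Q i, ∀ q q', h.toFun x ∈ K.cube q → h.toFun x' ∈ K.cube q' →
      4 * ‖h.toFun x - h.toFun x'‖ ≤ G.om q ∧ G.om q' ≤ 4 * G.om q)
    (hN : ∀ i ∉ A, (∃ x ∈ M.Q i, ∃ b ∈ G₀, h.toFun x ∈ G.TB false b) → ∀ y ∈ M.Q i,
      h.toFun y ∈ N) (hTN : ∀ b ∈ G₀, G.TB false b ⊆ N) :
    (∀ x ∈ Ω, ∀ q, h.toFun x ∈ K.cube q → ‖(g.trans S).toFun x - h.toFun x‖ ≤ G.om q) ∧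
    (∀ x ∈ Ω, h.toFun x ∉ N → (g.trans S).toFun x = h.toFun x) ∧
    (∀ i, (∀ x ∈ M.Q i, ∀ b ∈ G₀, h.toFun x ∉ G.TB false b) →
      EqOn (g.trans S).toFun h.toFun (M.Q i)) ∧
    ∀ i ∈ A, ∀ x ∈ M.Q i, (∀ b ∈ G₀, h.toFun x ∉ G.TB false b) →
      (g.trans S).toFun x = h.toFun x := by
  have hoffg : ∀ i ∈ A, ∀ x ∈ M.Q i, (∀ b ∈ G₀, h.toFun x ∉ G.TB false b) →
      (g.trans S).toFun x = h.toFun x := fun i hi x hx hno => off_pt D hSm (hgv i hi x hx) hno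
  have hoffc : ∀ i, (∀ x ∈ M.Q i, ∀ b ∈ G₀, h.toFun x ∉ G.TB false b) →
      EqOn (g.trans S).toFun h.toFun (M.Q i) := by
    intro i hno x hx
    by_cases hi : i ∈ A
    · exact hoffg i hi x hx (hno x hx)
    · exact off_cell D hSm (hmiss i hi hno) hno hx
  refine ⟨fun x hx q hq => ?_, fun x hx hxN => ?_, hoffc, hoffg⟩
  · obtain ⟨i, hi⟩ := M.cover x hx
    by_cases hiA : i ∈ A
    · exact near_pt D hr hSm hom (hgv i hiA x hi) hq
    · exact near_cell D hr hc hSm hom (hcmp i hiA) (hmiss i hiA) hi hq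
  · obtain ⟨i, hi⟩ := M.cover x hx
    by_cases hiA : i ∈ A
    · exact hoffg i hiA x hi fun b hb hxb => hxN (hTN b hb hxb)
    · by_cases hex : ∃ x ∈ M.Q i, ∃ b ∈ G₀, h.toFun x ∈ G.TB false b
      · exact absurd (hN i hiA hex x hi) hxN
      · push Not at hex
        exact hoffc i hex hi

end

end P073.H155
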