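import Vale.Agent.P073.H880.RP2
import Vale.Agent.P073.H919.HookG

/-!
# P073, block H155 ([T-HIN], part 1): the second staircases of ROUND P near an edge

`sg3_fwd`, `sg3_back`: near an edge only the coordinate along the edge is moved (forwards and
backwards), and only by small amounts.
-/

open Set Metric Topology Filter

set_option linter.unusedSectionVars false
set_option autoImplicit false

namespace P073.H155

open _root_.P073 _root_.P073.H579 _root_.P073.Net _root_.P073.PA691 _root_.P073.H236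
  _root_.P073.H345 _root_.P073.H142 _root_.P073.H228 _root_.P073.H919 _root_.P073.H936.K3
open _root_.P073.H880.RP (Sg3)
open Vale.Agent.P073.St (V)
open Vale.Agent.P073.H471 Vale.Agent.P073.H267

variable {Ω Λ : Set V} {v : V} {K : BoxCx Λ v} {S : Rad K} {W : Wid K S} {B : Boxes W} {G : Geo B}
  {L : PLev G} {S₀ : Set K.S} {F : Bool → BFam 3 S₀ Λ} {ς : Bool → S₀ → ℝ}
  {T : Bool → ConHomeo Λ Λ} {i : K.G} {y : V} {d : ℝ}

theorem sg3_near_tg (P : Sg3 L S₀ F ς T) (hy : NearE G i y) {β : Bool} {s : S₀}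
    (hK : y ∈ ((F β).B s).K) : y ∈ PK G s.1 ∧ tg s.1 β = K.dir i := by
  obtain ⟨h1, h2⟩ := PLev.mem_bxK.1 ((P.B β s).sub_K hK)
  refine ⟨h1, ?_⟩
  by_contra hne
  exact (hy s.1 h1).2 _ (tg_ne s.1 β) hne h2

/-- one family, forwards -/
theorem sg3_fwd_one (P : Sg3 L S₀ F ς T) (β : Bool) (hy : NearE G i y) (hd0 : 0 ≤ d)
    (hd : ∀ s : S₀, K.edge i ⊆ K.sq s.1 → (F β).e s ≤ d) :
    (∀ j, j ≠ K.dir i → (T β).toFun y j = y j) ∧ NearE G i ((T β).toFun y) ∧
      |(T β).toFun y (K.dir i) - y (K.dir i)| ≤ d := by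
  by_cases hK : ∃ s, y ∈ ((F β).B s).K
  · obtain ⟨s, hs⟩ := hK
    obtain ⟨h1, h2⟩ := sg3_near_tg P hy hs
    have h3 : ∀ j, j ≠ K.dir i → (T β).toFun y j = y j := by
      intro j hj
      refine (P.isS β).ne hs ?_
      rw [(P.B β s).j]
      show j ≠ tg s.1 β
      rw [h2]
      exact hj
    have h4 := P.mem_K ((P.isS β).mem hs)
    refine ⟨h3, fun s' hs'' => ?_, ?_⟩
    · have h5 : s' = s.1 := PK_unique hs'' h4
      subst h5
      refine ⟨(hy s.1 h1).1, fun j hj hjd => ?_⟩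
      rw [h3 j hjd]
      exact (hy s.1 h1).2 j hj hjd
    · have h6 := norm_le_pi_norm ((T β).toFun y - y) (K.dir i)
      rw [Pi.sub_apply, Real.norm_eq_abs] at h6
      exact h6.trans (((P.isS β).norm_sub_le hs).trans (hd s (hy s.1 h1).1))
  · push Not at hK
    rw [(P.isS β).off y hK]
    exact ⟨fun _ _ => rfl, hy, by rw [sub_self, abs_zero]; exact hd0⟩

/-- one family, backwards -/
theorem sg3_back_one (P : Sg3 L S₀ F ς T) (β : Bool) (hy : NearE G i ((T β).toFun y))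
    (hd0 : 0 ≤ d) (hd : ∀ s : S₀, K.edge i ⊆ K.sq s.1 → (F β).e s ≤ d) :
    (∀ j, j ≠ K.dir i → (T β).toFun y j = y j) ∧ NearE G i y ∧
      |(T β).toFun y (K.dir i) - y (K.dir i)| ≤ d := by
  by_cases hK : ∃ s, y ∈ ((F β).B s).K
  · obtain ⟨s, hs⟩ := hK
    have hs' := (P.isS β).mem hs
    obtain ⟨h1, h2⟩ := sg3_near_tg P hy hs'
    have h3 : ∀ j, j ≠ K.dir i → (T β).toFun y j = y j := by
      intro j hj
      refine (P.isS β).ne hs ?_
      rw [(P.B β s).j]
      show j ≠ tg s.1 β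
      rw [h2]
      exact hj
    have h4 := P.mem_K hs
    refine ⟨h3, fun s' hs'' => ?_, ?_⟩
    · have h5 : s' = s.1 := PK_unique hs'' h4
      subst h5
      refine ⟨(hy s.1 h1).1, fun j hj hjd => ?_⟩
      rw [← h3 j hjd]
      exact (hy s.1 h1).2 j hj hjd
    · have h6 := norm_le_pi_norm ((T β).toFun y - y) (K.dir i)
      rw [Pi.sub_apply, Real.norm_eq_abs] at h6
      exact h6.trans (((P.isS β).norm_sub_le hs).trans (hd s (hy s.1 h1).1))
  · push Not at hK
    rw [(P.isS β).off y hK] at hy ⊢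
    exact ⟨fun _ _ => rfl, hy, by rw [sub_self, abs_zero]; exact hd0⟩

/-- **near an edge only the coordinate along the edge is moved** -/
theorem sg3_fwd (P : Sg3 L S₀ F ς T) (hy : NearE G i y) (hd0 : 0 ≤ d)
    (hd : ∀ β, ∀ s : S₀, K.edge i ⊆ K.sq s.1 → (F β).e s ≤ d) :
    (∀ j, j ≠ K.dir i → PS.map T y j = y j) ∧ NearE G i (PS.map T y) ∧
      |PS.map T y (K.dir i) - y (K.dir i)| ≤ 2 * d := by
  obtain ⟨h4, h5, h6⟩ := sg3_fwd_one P false hy hd0 (hd false)
  obtain ⟨h1, h2, h3⟩ := sg3_fwd_one P true h5 hd0 (hd true)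
  refine ⟨fun j hj => (h1 j hj).trans (h4 j hj), h2, ?_⟩
  unfold PS.map
  have h7 := abs_sub_le ((T true).toFun ((T false).toFun y) (K.dir i))
    ((T false).toFun y (K.dir i)) (y (K.dir i))
  linarith

/-- **near an edge only the coordinate along the edge is moved**, backwards -/
theorem sg3_back (P : Sg3 L S₀ F ς T) (hy : NearE G i (PS.map T y)) (hd0 : 0 ≤ d)
    (hd : ∀ β, ∀ s : S₀, K.edge i ⊆ K.sq s.1 → (F β).e s ≤ d) :
    (∀ j, j ≠ K.dir i → PS.map T y j = y j) ∧ NearE G i y ∧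
      |PS.map T y (K.dir i) - y (K.dir i)| ≤ 2 * d := by
  obtain ⟨h1, h2, h3⟩ := sg3_back_one P true hy hd0 (hd true)
  obtain ⟨h4, h5, h6⟩ := sg3_back_one P false h2 hd0 (hd false)
  refine ⟨fun j hj => (h1 j hj).trans (h4 j hj), h5, ?_⟩
  unfold PS.map
  have h7 := abs_sub_le ((T true).toFun ((T false).toFun y) (K.dir i))
    ((T false).toFun y (K.dir i)) (y (K.dir i))
  linarith

end P073.H155
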