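import Vale.Agent.P073.H212.Soft2
import Vale.Agent.P073.H142.EstKill
import Vale.Agent.P073.H142.PCone2
import Vale.Agent.P073.H581.TileBX

/-!
# P073, [SOFT-EST]: from (CONE) to the cone estimate `Est` for the soft collapse `IsSoft` (H212)
-/

open Set Metric Topology Filter MeasureTheory
open scoped ENNReal

namespace P073.H155

open _root_.P073 _root_.P073.Net _root_.P073.PA691 _root_.P073.H142
open Vale.Agent.P073.H471 Vale.Agent.P073.H212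
open Vale.Agent.P073.St (V)
open Vale.Agent.P073.H73 (Mesh)
open Vale.Agent.P073.H193 (Edges)
open Vale.Agent.P073.H581 (TileIff)

variable {Ω Λ : Set V} {v : V} {K : BoxCx Λ v} {S : Rad K} {W : Wid K S} {B : Boxes W} {μ : ℝ}

/-- the soft collapse preserves the tiles -/
theorem tileIff_soft {ρ : V → ℝ} (C : Cells ρ v K) (hρ : SizeFn Λ ρ) {F : Fac K}
    {Φ : ConHomeo Λ Λ} (hΦ : IsSoft B μ F Φ) : TileIff Λ ρ v Φ.toFun := by
  refine TileIff.of_homeo hρ Φ fun m z ht y hy => ?_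
  obtain ⟨q, hq, -⟩ := Vale.Agent.P073.H267.exists_tile_of C ht
  rw [← hq] at hy ⊢
  rw [← hΦ.cube q]
  exact ⟨y, hy, rfl⟩

section Small

variable {α : Type*} {R : Fac K} {f : V → V} {F : α → Set V} {M ε : α → ℝ} {Φ : ConHomeo Λ Λ}
  {k : α} {x x' : V} {L : ℝ} {A : Set V}

/-- the Lipschitz estimate in the zone of a square -/
theorem soft_zs (H : Small W R f F M ε) (HΦ : IsSoft B μ R Φ) (hμ : 0 ≤ μ) {s : K.S}
    (hx : x ∈ F k) (hx' : x' ∈ F k) (hz : f x ∈ Zs W s) (hz' : f x' ∈ Zs W s) (hL0 : 0 ≤ L)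
    (hL : ∀ j, j ≠ K.nrm s → |f x j - f x' j| ≤ L * ‖x - x'‖) :
    ‖Φ.toFun (f x) - Φ.toFun (f x')‖ ≤ ((1 + μ) * L + ε k) * ‖x - x'‖ := by
  have h1 := H.le1 (R.s_pos s) (H.s k s ⟨f x, ⟨x, hx, rfl⟩, hz⟩)
  have h2 := H.lip k x hx x' hx'
  have h3 := R.s_pos s
  have h4 := norm_nonneg (x - x')
  have h5 : R.ρs s * ‖f x - f x'‖ ≤ ε k / 7 * ‖x - x'‖ := by
    calc R.ρs s * ‖f x - f x'‖ ≤ R.ρs s * (M k * ‖x - x'‖) := by gcongr
      _ = R.ρs s * M k * ‖x - x'‖ := by ring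
      _ ≤ _ := by gcongr
  have h6 : 0 ≤ ε k / 7 := le_trans (mul_nonneg h3.le (H.pos k).le) h1
  have h7 : 0 ≤ ε k / 7 * ‖x - x'‖ := mul_nonneg h6 h4
  have h8 : 0 ≤ L * ‖x - x'‖ := mul_nonneg hL0 h4
  have h9 : 0 ≤ μ * (L * ‖x - x'‖) := mul_nonneg hμ h8
  rw [pi_norm_le_iff_of_nonneg (by nlinarith)]
  intro j
  rw [Pi.sub_apply, Real.norm_eq_abs]
  refine (HΦ.zs s _ hz _ hz' (L * ‖x - x'‖) hL j).trans ?_
  have h10 : (if j = K.nrm s then 0 else |f x j - f x' j|) ≤ L * ‖x - x'‖ := by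
    split_ifs with h
    · exact h8
    · exact hL j h
  linarith

/-- the Lipschitz estimate in the box of an edge -/
theorem soft_ze (H : Small W R f F M ε) (HΦ : IsSoft B μ R Φ) (hμ : 0 ≤ μ) {e : K.G}
    (hx : x ∈ F k) (hx' : x' ∈ F k) (hz : f x ∈ B.E e) (hz' : f x' ∈ B.E e) (hL0 : 0 ≤ L)
    (hL : |f x (K.dir e) - f x' (K.dir e)| ≤ L * ‖x - x'‖) :
    ‖Φ.toFun (f x) - Φ.toFun (f x')‖ ≤ ((1 + μ) * L + ε k) * ‖x - x'‖ := by
  have h1 := H.le1 (R.e_pos e) (H.e k e ⟨f x, ⟨x, hx, rfl⟩, B.E_subset e hz⟩)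
  have h2 := H.lip k x hx x' hx'
  have h3 := R.e_pos e
  have h4 := norm_nonneg (x - x')
  have h5 : R.ρe e * ‖f x - f x'‖ ≤ ε k / 7 * ‖x - x'‖ := by
    calc R.ρe e * ‖f x - f x'‖ ≤ R.ρe e * (M k * ‖x - x'‖) := by gcongr
      _ = R.ρe e * M k * ‖x - x'‖ := by ring
      _ ≤ _ := by gcongr
  have h6 : 0 ≤ ε k / 7 := le_trans (mul_nonneg h3.le (H.pos k).le) h1
  have h7 : 0 ≤ ε k / 7 * ‖x - x'‖ := mul_nonneg h6 h4
  have h8 : 0 ≤ L * ‖x - x'‖ := mul_nonneg hL0 h4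
  have h9 : μ * |f x (K.dir e) - f x' (K.dir e)| ≤ μ * (L * ‖x - x'‖) :=
    mul_le_mul_of_nonneg_left hL hμ
  have h9' : 0 ≤ μ * (L * ‖x - x'‖) := mul_nonneg hμ h8
  rw [pi_norm_le_iff_of_nonneg (by nlinarith)]
  intro j
  rw [Pi.sub_apply, Real.norm_eq_abs]
  refine (HΦ.ze e _ hz _ hz' j).trans ?_
  have h10 : (if j = K.dir e then |f x j - f x' j| else 0) ≤ L * ‖x - x'‖ := by
    split_ifs with h
    · rw [h]; exact hL
    · exact h8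
  linarith

/-- the Lipschitz estimate in the zone of a vertex -/
theorem soft_zv (H : Small W R f F M ε) (HΦ : IsSoft B μ R Φ) {i : K.W} (hx : x ∈ F k)
    (hx' : x' ∈ F k) (hz : f x ∈ Zv W i) (hz' : f x' ∈ Zv W i) :
    ‖Φ.toFun (f x) - Φ.toFun (f x')‖ ≤ ε k * ‖x - x'‖ := by
  have h1 := H.le1 (R.v_pos i) (H.v k i ⟨f x, ⟨x, hx, rfl⟩, hz⟩)
  have h2 := H.lip k x hx x' hx'
  have h3 := R.v_pos i
  have h4 := norm_nonneg (x - x')
  have h5 : R.ρv i * ‖f x - f x'‖ ≤ ε k / 7 * ‖x - x'‖ := by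
    calc R.ρv i * ‖f x - f x'‖ ≤ R.ρv i * (M k * ‖x - x'‖) := by gcongr
      _ = R.ρv i * M k * ‖x - x'‖ := by ring
      _ ≤ _ := by gcongr
  have h6 : 0 ≤ ε k / 7 := le_trans (mul_nonneg h3.le (H.pos k).le) h1
  have h7 : 0 ≤ ε k / 7 * ‖x - x'‖ := mul_nonneg h6 h4
  rw [pi_norm_le_iff_of_nonneg (by nlinarith)]
  intro j
  rw [Pi.sub_apply, Real.norm_eq_abs]
  refine (HΦ.zv i _ hz _ hz' j).trans ?_
  linarith

end Small

variable {M : Mesh Ω} {E : Edges M} {k : M.κ}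

/-- one point -/
theorem soft_point {R : Fac K} {f : V → V} {M' ε : M.κ → ℝ} {Φ : ConHomeo Λ Λ}
    (H : Small W R f M.F M' ε) (HΦ : IsSoft B μ R Φ) (hμ : 0 ≤ μ) (hμ1 : μ ≤ 1) {A : Set V}
    {L : ℝ} (hA : A ⊆ M.F k) (hf : ContinuousOn f A) {x : V} (hx : x ∈ A) (hL : 0 ≤ L)
    (hε : ε k ≤ L) (h : ConeAtB B L A f x) :
    ∀ᶠ x' in 𝓝[A] x, ‖Φ.toFun (f x') - Φ.toFun (f x)‖ ≤ 8 * L * ‖x' - x‖ := by
  have hLL : (1 + μ) * L + ε k ≤ 8 * L := by nlinarith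
  rcases h with ⟨s, h1, h2⟩ | ⟨i, h1, h2⟩ | ⟨i, h1⟩
  · have h1' : f x ∈ interior (Zs W s) := interior_mono (B.P_subset s) h1
    filter_upwards [h2, Small.ev_mem hf hx h1', self_mem_nhdsWithin] with x' h3 h4 h5
    exact (soft_zs H HΦ hμ (hA h5) (hA hx) h4 (interior_subset h1') hL h3).trans
      (mul_le_mul_of_nonneg_right hLL (norm_nonneg _))
  · filter_upwards [h2, Small.ev_mem hf hx h1, self_mem_nhdsWithin] with x' h3 h4 h5
    exact (soft_ze H HΦ hμ (hA h5) (hA hx) h4 (interior_subset h1) hL h3).trans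
      (mul_le_mul_of_nonneg_right hLL (norm_nonneg _))
  · filter_upwards [Small.ev_mem hf hx h1, self_mem_nhdsWithin] with x' h4 h5
    exact (soft_zv H HΦ (hA h5) (hA hx) h4 (interior_subset h1)).trans
      (mul_le_mul_of_nonneg_right (by linarith) (norm_nonneg _))

/-- **(CONE)** for a face, with the boxes `B` -/
def ConeFB (B : Boxes W) (T : FStar E k) (C₁ : ℝ) (b : E.ε → ℝ) (f : V → V) : Prop :=
  ∀ e, E.seg e ⊆ M.F k → ∀ x ∈ coneSetAt T.O (E.seg e),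
    ConeAtB B (T.con C₁ b e) (coneSetAt T.O (E.seg e)) f x

theorem ConeFB.coneF {T : FStar E k} {C₁ : ℝ} {b : E.ε → ℝ} {f : V → V}
    (h : ConeFB B T C₁ b f) : ConeF W T C₁ b f := fun e he x hx => (h e he x hx).coneAt

/-- **(CONE) ⟹ `Est`** for the softly collapsed map -/
theorem ConeFB.est {T : FStar E k} {C₁ : ℝ} (hC₁ : 0 ≤ C₁) {b : E.ε → ℝ}
    (hb : ∀ e, E.seg e ⊆ M.F k → 0 ≤ b e) {R : Fac K} {f : V → V} {M' ε : M.κ → ℝ}
    {Φ : ConHomeo Λ Λ} (H : Small W R f M.F M' ε) (HΦ : IsSoft B μ R Φ) (hμ : 0 ≤ μ)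
    (hμ1 : μ ≤ 1) (hf : ContinuousOn f (M.F k))
    (hε : ∀ e, E.seg e ⊆ M.F k → ε k ≤ T.con C₁ b e) (h : ConeFB B T C₁ b f) :
    T.Est (8 * C₁) b (fun x => Φ.toFun (f x)) := by
  intro e he x hx
  have h1 := soft_point H HΦ hμ hμ1 (T.cone_sub he) (hf.mono (T.cone_sub he)) hx
    (T.con_nonneg hC₁ hb he) (hε e he) (h e he x hx)
  filter_upwards [h1] with y hy
  rw [T.con_mul]
  exact hy

/-- the same on a convex subset of a face (edges) -/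
theorem soft_edge_lip {R : Fac K} {f : V → V} {M' ε : M.κ → ℝ} {Φ : ConHomeo Λ Λ}
    (H : Small W R f M.F M' ε) (HΦ : IsSoft B μ R Φ) (hμ : 0 ≤ μ) (hμ1 : μ ≤ 1) {A : Set V}
    (hA : A ⊆ M.F k) (hc : Convex ℝ A) (hf : ContinuousOn f A) {L : ℝ} (hL : 0 ≤ L)
    (hε : ε k ≤ L) (h : ∀ x ∈ A, ConeAtB B L A f x) : ∀ x ∈ A, ∀ y ∈ A,
      ‖Φ.toFun (f x) - Φ.toFun (f y)‖ ≤ 8 * L * ‖x - y‖ :=
  _root_.P073.H142.lip_of_local (g := fun x => Φ.toFun (f x)) hc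
    fun x hx => soft_point H HΦ hμ hμ1 hA hf hx hL hε (h x hx)

end P073.H155
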