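import Vale.Agent.P073.ConicalBody
import Vale.Agent.P073.H155.Crv

/-!
# P073, H155 (EDGE-DATA): the boundary of the model rectangle and a fixed squeezing map
-/

open Set Metric Topology Filter

set_option autoImplicit false

namespace P073.H155

open P073.H31

/-- a closed path around the boundary of the rectangle, starting in the middle of the bottom -/
noncomputable def pb (t : ℝ) : ℝ × ℝ :=
  (max 0 (1 / 2 - t) + cl1 (t - 3 / 2) - max 0 (t - 7 / 2), cl1 (t - 1 / 2) - cl1 (t - 5 / 2))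

theorem pb_a {t : ℝ} (h1 : t ≤ 1 / 2) : pb t = (1 / 2 - t, 0) := by
  unfold pb
  rw [max_eq_right (by linarith), cl1_eq_zero (by linarith), max_eq_left (by linarith),
    cl1_eq_zero (by linarith), cl1_eq_zero (by linarith)]
  simp

theorem pb_b {t : ℝ} (h0 : 1 / 2 ≤ t) (h1 : t ≤ 3 / 2) : pb t = (0, t - 1 / 2) := by
  unfold pb
  rw [max_eq_left (by linarith), cl1_eq_zero (by linarith), max_eq_left (by linarith),
    cl1_eq_self (by linarith) (by linarith), cl1_eq_zero (by linarith)]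
  simp

theorem pb_c {t : ℝ} (h0 : 3 / 2 ≤ t) (h1 : t ≤ 5 / 2) : pb t = (t - 3 / 2, 1) := by
  unfold pb
  rw [max_eq_left (by linarith), cl1_eq_self (by linarith) (by linarith),
    max_eq_left (by linarith), cl1_eq_one (by linarith), cl1_eq_zero (by linarith)]
  simp

theorem pb_d {t : ℝ} (h0 : 5 / 2 ≤ t) (h1 : t ≤ 7 / 2) : pb t = (1, 7 / 2 - t) := by
  unfold pb
  rw [max_eq_left (by linarith), cl1_eq_one (by linarith), max_eq_left (by linarith),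
    cl1_eq_one (by linarith), cl1_eq_self (by linarith) (by linarith)]
  refine Prod.ext ?_ ?_
  · simp
  · show 1 - (t - 5 / 2) = 7 / 2 - t
    ring

theorem pb_e {t : ℝ} (h0 : 7 / 2 ≤ t) : pb t = (9 / 2 - t, 0) := by
  unfold pb
  rw [max_eq_left (by linarith), cl1_eq_one (by linarith), max_eq_right (by linarith),
    cl1_eq_one (by linarith), cl1_eq_one (by linarith)]
  refine Prod.ext ?_ ?_
  · show 0 + 1 - (t - 7 / 2) = 9 / 2 - t
    ring
  · simp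

theorem continuous_pb : Continuous pb := by
  unfold pb
  have := continuous_cl1
  fun_prop

theorem conicalOn_pb {X : Set ℝ} (hX : ConicalSet X) : ConicalOn pb X := by
  have h1 : ∀ a b : ℝ, ConicalOn (fun t : ℝ => a * t + b) X := conicalOn_affR hX
  have c1 : ∀ b : ℝ, ConicalOn (fun t : ℝ => cl1 (t - b)) X := fun b =>
    conicalOn_cl1 ((h1 1 (-b)).congr fun t _ => by ring) (by fun_prop)
  unfold pb
  refine ConicalOn.prodMk ((ConicalOn.add ?_ (c1 _)).sub ?_) ((c1 _).sub (c1 _))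
  · refine (conicalOn_const (0:ℝ) hX).rmax ((h1 (-1) (1/2)).congr fun t _ => by ring) ?_ ?_
    · exact continuousOn_const
    · fun_prop
  · refine (conicalOn_const (0:ℝ) hX).rmax ((h1 1 (-(7/2))).congr fun t _ => by ring) ?_ ?_
    · exact continuousOn_const
    · fun_prop

theorem pb_zero : pb 0 = pb 4 := by
  rw [pb_a (by norm_num), pb_e (by norm_num)]; norm_num

theorem cases5 {t : ℝ} (h0 : 0 ≤ t) (h1 : t ≤ 4) : (0 ≤ t ∧ t ≤ 1 / 2) ∨ (1 / 2 ≤ t ∧ t ≤ 3 / 2) ∨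
    (3 / 2 ≤ t ∧ t ≤ 5 / 2) ∨ (5 / 2 ≤ t ∧ t ≤ 7 / 2) ∨ (7 / 2 ≤ t ∧ t ≤ 4) := by
  rcases le_total t (1 / 2) with h | h
  · exact Or.inl ⟨h0, h⟩
  rcases le_total t (3 / 2) with h' | h'
  · exact Or.inr (Or.inl ⟨h, h'⟩)
  rcases le_total t (5 / 2) with h2 | h2
  · exact Or.inr (Or.inr (Or.inl ⟨h', h2⟩))
  rcases le_total t (7 / 2) with h3 | h3
  · exact Or.inr (Or.inr (Or.inr (Or.inl ⟨h2, h3⟩)))
  · exact Or.inr (Or.inr (Or.inr (Or.inr ⟨h3, h1⟩)))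

theorem pb_injOn : InjOn pb (Ico 0 4) := by
  intro s hs t ht hst
  have hs4 := hs.2
  have ht4 := ht.2
  rcases cases5 hs.1 hs.2.le with h | h | h | h | h <;>
    rcases cases5 ht.1 ht.2.le with h' | h' | h' | h' | h'
  · rw [pb_a h.2, pb_a h'.2, Prod.mk.injEq] at hst; linarith [hst.1]
  · rw [pb_a h.2, pb_b h'.1 h'.2, Prod.mk.injEq] at hst; linarith [hst.1, hst.2]
  · rw [pb_a h.2, pb_c h'.1 h'.2, Prod.mk.injEq] at hst; linarith [hst.1, hst.2]
  · rw [pb_a h.2, pb_d h'.1 h'.2, Prod.mk.injEq] at hst; linarith [hst.1, hst.2]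
  · rw [pb_a h.2, pb_e h'.1, Prod.mk.injEq] at hst; linarith [hst.1, hst.2]
  · rw [pb_b h.1 h.2, pb_a h'.2, Prod.mk.injEq] at hst; linarith [hst.1, hst.2]
  · rw [pb_b h.1 h.2, pb_b h'.1 h'.2, Prod.mk.injEq] at hst; linarith [hst.1, hst.2]
  · rw [pb_b h.1 h.2, pb_c h'.1 h'.2, Prod.mk.injEq] at hst; linarith [hst.1, hst.2]
  · rw [pb_b h.1 h.2, pb_d h'.1 h'.2, Prod.mk.injEq] at hst; linarith [hst.1, hst.2]
  · rw [pb_b h.1 h.2, pb_e h'.1, Prod.mk.injEq] at hst; linarith [hst.1, hst.2]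
  · rw [pb_c h.1 h.2, pb_a h'.2, Prod.mk.injEq] at hst; linarith [hst.1, hst.2]
  · rw [pb_c h.1 h.2, pb_b h'.1 h'.2, Prod.mk.injEq] at hst; linarith [hst.1, hst.2]
  · rw [pb_c h.1 h.2, pb_c h'.1 h'.2, Prod.mk.injEq] at hst; linarith [hst.1, hst.2]
  · rw [pb_c h.1 h.2, pb_d h'.1 h'.2, Prod.mk.injEq] at hst; linarith [hst.1, hst.2]
  · rw [pb_c h.1 h.2, pb_e h'.1, Prod.mk.injEq] at hst; linarith [hst.1, hst.2]
  · rw [pb_d h.1 h.2, pb_a h'.2, Prod.mk.injEq] at hst; linarith [hst.1, hst.2]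
  · rw [pb_d h.1 h.2, pb_b h'.1 h'.2, Prod.mk.injEq] at hst; linarith [hst.1, hst.2]
  · rw [pb_d h.1 h.2, pb_c h'.1 h'.2, Prod.mk.injEq] at hst; linarith [hst.1, hst.2]
  · rw [pb_d h.1 h.2, pb_d h'.1 h'.2, Prod.mk.injEq] at hst; linarith [hst.1, hst.2]
  · rw [pb_d h.1 h.2, pb_e h'.1, Prod.mk.injEq] at hst; linarith [hst.1, hst.2]
  · rw [pb_e h.1, pb_a h'.2, Prod.mk.injEq] at hst; linarith [hst.1, hst.2]
  · rw [pb_e h.1, pb_b h'.1 h'.2, Prod.mk.injEq] at hst; linarith [hst.1, hst.2]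
  · rw [pb_e h.1, pb_c h'.1 h'.2, Prod.mk.injEq] at hst; linarith [hst.1, hst.2]
  · rw [pb_e h.1, pb_d h'.1 h'.2, Prod.mk.injEq] at hst; linarith [hst.1, hst.2]
  · rw [pb_e h.1, pb_e h'.1, Prod.mk.injEq] at hst; linarith [hst.1, hst.2]

theorem pb_mem {t : ℝ} (h0 : 0 ≤ t) (h1 : t ≤ 4) : pb t ∈ bR := by
  rcases cases5 h0 h1 with h | h | h | h | h
  · rw [pb_a h.2]
    exact ⟨⟨⟨by show (0:ℝ) ≤ 1 / 2 - t; linarith, by show 1 / 2 - t ≤ (1:ℝ); linarith⟩,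
      le_refl _, zero_le_one⟩, Or.inr (Or.inr (Or.inl rfl))⟩
  · rw [pb_b h.1 h.2]
    exact ⟨⟨⟨le_refl _, zero_le_one⟩, by show (0:ℝ) ≤ t - 1 / 2; linarith,
      by show t - 1 / 2 ≤ (1:ℝ); linarith⟩, Or.inl rfl⟩
  · rw [pb_c h.1 h.2]
    exact ⟨⟨⟨by show (0:ℝ) ≤ t - 3 / 2; linarith, by show t - 3 / 2 ≤ (1:ℝ); linarith⟩,
      zero_le_one, le_refl _⟩, Or.inr (Or.inr (Or.inr rfl))⟩
  · rw [pb_d h.1 h.2]
    exact ⟨⟨⟨zero_le_one, le_refl _⟩, by show (0:ℝ) ≤ 7 / 2 - t; linarith,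
      by show 7 / 2 - t ≤ (1:ℝ); linarith⟩, Or.inr (Or.inl rfl)⟩
  · rw [pb_e h.1]
    exact ⟨⟨⟨by show (0:ℝ) ≤ 9 / 2 - t; linarith, by show 9 / 2 - t ≤ (1:ℝ); linarith⟩,
      le_refl _, zero_le_one⟩, Or.inr (Or.inr (Or.inl rfl))⟩

theorem pb_image : pb '' Icc 0 4 = bR := by
  refine Subset.antisymm ?_ ?_
  · rintro _ ⟨t, ht, rfl⟩
    exact pb_mem ht.1 ht.2
  · rintro ⟨a, b⟩ ⟨⟨⟨ha0, ha1⟩, hb0, hb1⟩, h⟩
    simp only at ha0 ha1 hb0 hb1 h
    rcases h with h | h | h | h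
    · refine ⟨b + 1 / 2, ⟨by linarith, by linarith⟩, ?_⟩
      rw [pb_b (by linarith) (by linarith), h]; simp
    · refine ⟨7 / 2 - b, ⟨by linarith, by linarith⟩, ?_⟩
      rw [pb_d (by linarith) (by linarith), h]; simp
    · rcases le_total a (1 / 2) with h2 | h2
      · refine ⟨1 / 2 - a, ⟨by linarith, by linarith⟩, ?_⟩
        rw [pb_a (by linarith), h]; simp
      · refine ⟨9 / 2 - a, ⟨by linarith, by linarith⟩, ?_⟩
        rw [pb_e (by linarith), h]; simp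
    · refine ⟨a + 3 / 2, ⟨by linarith, by linarith⟩, ?_⟩
      rw [pb_c (by linarith) (by linarith), h]; simp

/-! ### The squeezing map -/

/-- the monotone part of the first coordinate of the squeezing map -/
noncomputable def mq (a t : ℝ) : ℝ :=
  max (3 / 4 * a - (1 - t) / 2) (min (3 / 4 * a + (1 - t) / 2)
    (min (3 * a) (max (3 / 8) (3 * a - 9 / 4))))

/-- first coordinate of the squeezing map -/
noncomputable def sg (a t : ℝ) : ℝ := a / 4 + mq a t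

/-- the squeezing map -/
noncomputable def sqm (x : ℝ × ℝ) : ℝ × ℝ := (sg x.1 x.2, x.2)

theorem mq_mono {a a' : ℝ} (t : ℝ) (h : a ≤ a') : mq a t ≤ mq a' t := by
  unfold mq; gcongr

theorem sg_sub {a a' : ℝ} (t : ℝ) (h : a ≤ a') : (a' - a) / 4 ≤ sg a' t - sg a t := by
  unfold sg; linarith [mq_mono t h]

theorem sg_one (a : ℝ) : sg a 1 = a := by
  unfold sg mq
  norm_num
  ring

theorem sg_left {t : ℝ} (h : t ≤ 1) : sg 0 t = 0 := by
  unfold sg mq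
  rw [max_eq_left (show (3 * (0:ℝ) - 9 / 4) ≤ 3 / 8 by norm_num),
    min_eq_left (show (3 * (0:ℝ)) ≤ 3 / 8 by norm_num), min_eq_right (by linarith),
    max_eq_right (by linarith)]
  norm_num

theorem sg_right {t : ℝ} (h : t ≤ 1) : sg 1 t = 1 := by
  unfold sg mq
  rw [max_eq_right (show (3:ℝ) / 8 ≤ 3 * 1 - 9 / 4 by norm_num),
    min_eq_right (show (3 * (1:ℝ) - 9 / 4) ≤ 3 * 1 by norm_num), min_eq_right (by linarith),
    max_eq_right (by linarith)]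
  norm_num

theorem continuous_sqm : Continuous sqm := by
  unfold sqm sg mq
  fun_prop

theorem conicalOn_sqm {X : Set (ℝ × ℝ)} (hX : ConicalSet X) : ConicalOn sqm X := by
  have f1 : ConicalOn (fun x : ℝ × ℝ => x.1) X := conicalOn_linear (LinearMap.fst ℝ ℝ ℝ) hX
  have f2 : ConicalOn (fun x : ℝ × ℝ => x.2) X := conicalOn_linear (LinearMap.snd ℝ ℝ ℝ) hX
  have aff : ∀ p q r : ℝ, ConicalOn (fun x : ℝ × ℝ => p * x.1 + q * x.2 + r) X := fun p q r =>
    (((f1.const_smul p).add (f2.const_smul q)).add (conicalOn_const r hX))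
  unfold sqm sg mq
  refine ConicalOn.prodMk (ConicalOn.add ?_ ?_) f2
  · exact (aff (1 / 4) 0 0).congr fun x _ => by ring
  · refine ConicalOn.rmax ?_ (ConicalOn.rmin ?_ (ConicalOn.rmin ?_ (ConicalOn.rmax ?_ ?_ ?_ ?_)
      ?_ ?_) ?_ ?_) ?_ ?_
    · exact (aff (3 / 4) (1 / 2) (-(1 / 2))).congr fun x _ => by ring
    · exact (aff (3 / 4) (-(1 / 2)) (1 / 2)).congr fun x _ => by ring
    · exact (aff 3 0 0).congr fun x _ => by ring
    · exact conicalOn_const _ hX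
    · exact (aff 3 0 (-(9 / 4))).congr fun x _ => by ring
    all_goals fun_prop

theorem Rct_compact : IsCompact Rct := isCompact_Icc.prod isCompact_Icc

theorem Rct_convex : Convex ℝ Rct := (convex_Icc _ _).prod (convex_Icc _ _)

theorem sqm_injOn : InjOn sqm Rct := by
  intro x _ y _ h
  have h2 : (sqm x).2 = (sqm y).2 := by rw [h]
  have h1 : (sqm x).1 = (sqm y).1 := by rw [h]
  change x.2 = y.2 at h2
  change sg x.1 x.2 = sg y.1 y.2 at h1
  rw [← h2] at h1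
  refine Prod.ext ?_ h2
  rcases le_total x.1 y.1 with h3 | h3
  · have := sg_sub x.2 h3; linarith
  · have := sg_sub x.2 h3; linarith

theorem sg_mem {a t : ℝ} (ha : a ∈ Icc (0:ℝ) 1) (ht : t ≤ 1) : sg a t ∈ Icc (0:ℝ) 1 := by
  have h1 := sg_sub t ha.1
  have h2 := sg_sub t ha.2
  rw [sg_left ht] at h1
  rw [sg_right ht] at h2
  exact ⟨by linarith [ha.1], by linarith [ha.2]⟩

theorem sqm_image : sqm '' Rct = Rct := by
  refine Subset.antisymm ?_ ?_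
  · rintro _ ⟨x, hx, rfl⟩
    exact ⟨sg_mem hx.1 hx.2.2, hx.2⟩
  · rintro ⟨b, t⟩ ⟨hb, ht⟩
    have hc : ContinuousOn (fun a => sg a t) (Icc 0 1) := by
      unfold sg mq; fun_prop
    have hb' : b ∈ Icc (sg 0 t) (sg 1 t) := by rwa [sg_left ht.2, sg_right ht.2]
    obtain ⟨a, ha, hab⟩ := intermediate_value_Icc zero_le_one hc hb'
    exact ⟨(a, t), ⟨ha, ht⟩, Prod.ext hab rfl⟩

/-- the squeezing map as a conical homeomorphism -/
noncomputable def sqH : ConHomeo Rct Rct :=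
  ConHomeo.ofCompact Rct_compact sqm continuous_sqm.continuousOn sqm_injOn
    (conicalOn_sqm (Convex.conicalSet Rct_convex)) sqm_image

theorem sqH_toFun : sqH.toFun = sqm := ConHomeo.ofCompact_toFun _ _ _ _ _ _

/-- the inverse map -/
noncomputable def usq : ConHomeo Rct Rct := sqH.symm

theorem usq_sqm {x : ℝ × ℝ} (hx : x ∈ Rct) : usq.toFun (sqm x) = x := by
  have := sqH.left_inv hx
  rwa [sqH_toFun] at this

theorem sqm_usq {x : ℝ × ℝ} (hx : x ∈ Rct) : sqm (usq.toFun x) = x := by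
  have := sqH.right_inv hx
  rwa [sqH_toFun] at this

theorem usq_top {a : ℝ} (ha : a ∈ Icc (0:ℝ) 1) : usq.toFun (a, 1) = (a, 1) := by
  have h : ((a, 1) : ℝ × ℝ) ∈ Rct := ⟨ha, zero_le_one, le_refl _⟩
  have := usq_sqm h
  unfold sqm at this
  simp only [sg_one] at this
  exact this

theorem sqm_bR {x : ℝ × ℝ} (hx : x ∈ Rct) : sqm x ∈ bR ↔ x ∈ bR := by
  have h0 : sg x.1 x.2 = 0 ↔ x.1 = 0 := by
    constructor
    · intro h
      have := sg_sub x.2 hx.1.1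
      rw [sg_left hx.2.2, h] at this
      linarith [hx.1.1]
    · intro h; rw [h]; exact sg_left hx.2.2
  have h1 : sg x.1 x.2 = 1 ↔ x.1 = 1 := by
    constructor
    · intro h
      have := sg_sub x.2 hx.1.2
      rw [sg_right hx.2.2, h] at this
      linarith [hx.1.2]
    · intro h; rw [h]; exact sg_right hx.2.2
  have h2 : sqm x ∈ Rct := sqm_image ▸ mem_image_of_mem _ hx
  show (sqm x ∈ Rct ∧ (sg x.1 x.2 = 0 ∨ sg x.1 x.2 = 1 ∨ x.2 = 0 ∨ x.2 = 1)) ↔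
    (x ∈ Rct ∧ (x.1 = 0 ∨ x.1 = 1 ∨ x.2 = 0 ∨ x.2 = 1))
  rw [h0, h1]
  exact ⟨fun h => ⟨hx, h.2⟩, fun h => ⟨h2, h.2⟩⟩

theorem usq_bR {x : ℝ × ℝ} (hx : x ∈ Rct) : usq.toFun x ∈ bR ↔ x ∈ bR := by
  have h := sqm_bR (usq.mapsTo hx)
  rw [sqm_usq hx] at h
  exact h.symm

theorem abs_sg_sub_le (a t t' : ℝ) : |sg a t - sg a t'| ≤ |t - t'| / 2 := by
  unfold sg
  rw [add_sub_add_left_eq_sub]
  unfold mq
  refine (abs_max_sub_max_le_max _ _ _ _).trans (max_le ?_ ?_)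
  · rw [show 3 / 4 * a - (1 - t) / 2 - (3 / 4 * a - (1 - t') / 2) = (t - t') / 2 by ring, abs_div,
      abs_two]
  · refine (abs_min_sub_min_le_max _ _ _ _).trans (max_le ?_ ?_)
    · rw [show 3 / 4 * a + (1 - t) / 2 - (3 / 4 * a + (1 - t') / 2) = -((t - t') / 2) by ring,
        abs_neg, abs_div, abs_two]
    · rw [sub_self, abs_zero]; positivity

theorem abs_sg_ge (a a' t : ℝ) : |a - a'| ≤ 4 * |sg a t - sg a' t| := by
  rcases le_total a a' with h | h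
  · have := sg_sub t h
    rw [abs_sub_comm, abs_of_nonneg (sub_nonneg.2 h), abs_sub_comm, abs_of_nonneg (by linarith)]
    linarith
  · have := sg_sub t h
    rw [abs_of_nonneg (sub_nonneg.2 h), abs_of_nonneg (by linarith)]
    linarith

theorem sqm_lower (x y : ℝ × ℝ) : ‖x - y‖ ≤ 6 * ‖sqm x - sqm y‖ := by
  have h1 : |sg x.1 x.2 - sg y.1 y.2| ≤ ‖sqm x - sqm y‖ := norm_fst_le (sqm x - sqm y)
  have h2 : |x.2 - y.2| ≤ ‖sqm x - sqm y‖ := norm_snd_le (sqm x - sqm y)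
  have h3 := abs_sg_ge x.1 y.1 x.2
  have h4 := abs_sg_sub_le y.1 y.2 x.2
  have h5 : |sg x.1 x.2 - sg y.1 x.2| ≤ |sg x.1 x.2 - sg y.1 y.2| + |sg y.1 y.2 - sg y.1 x.2| :=
    abs_sub_le _ _ _
  rw [abs_sub_comm y.2 x.2] at h4
  have h6 : ‖x - y‖ = max |x.1 - y.1| |x.2 - y.2| := rfl
  have h7 : 0 ≤ ‖sqm x - sqm y‖ := norm_nonneg _
  rw [h6]
  refine max_le ?_ ?_ <;> linarith

/-- the inverse map is Lipschitz with constant `6` -/
theorem usq_lip {x y : ℝ × ℝ} (hx : x ∈ Rct) (hy : y ∈ Rct) :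
    ‖usq.toFun x - usq.toFun y‖ ≤ 6 * ‖x - y‖ := by
  have h := sqm_lower (usq.toFun x) (usq.toFun y)
  rwa [sqm_usq hx, sqm_usq hy] at h

/-- the apex of the cones -/
noncomputable def apx : ℝ × ℝ := (1 / 2, 1 / 8)

theorem bR_eq : bR = frontier Rct := by
  unfold Rct
  rw [frontier_prod_eq, frontier_Icc zero_le_one, closure_Icc]
  ext ⟨a, b⟩
  simp only [bR, Rct, mem_ofPred_eq, mem_prod, mem_Icc, mem_union, mem_insert_iff,
    mem_singleton_iff]
  constructor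
  · rintro ⟨⟨⟨h1, h2⟩, h3, h4⟩, h5 | h5 | h5 | h5⟩
    · exact Or.inr ⟨Or.inl h5, h3, h4⟩
    · exact Or.inr ⟨Or.inr h5, h3, h4⟩
    · exact Or.inl ⟨⟨h1, h2⟩, Or.inl h5⟩
    · exact Or.inl ⟨⟨h1, h2⟩, Or.inr h5⟩
  · rintro (⟨⟨h1, h2⟩, h5 | h5⟩ | ⟨h5 | h5, h3, h4⟩)
    · subst h5; exact ⟨⟨⟨h1, h2⟩, le_refl _, zero_le_one⟩, Or.inr (Or.inr (Or.inl rfl))⟩
    · subst h5; exact ⟨⟨⟨h1, h2⟩, zero_le_one, le_refl _⟩, Or.inr (Or.inr (Or.inr rfl))⟩
    · subst h5; exact ⟨⟨⟨le_refl _, zero_le_one⟩, h3, h4⟩, Or.inl rfl⟩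
    · subst h5; exact ⟨⟨⟨zero_le_one, le_refl _⟩, h3, h4⟩, Or.inr (Or.inl rfl)⟩

theorem Rct_nhds : Rct ∈ 𝓝 apx := by
  unfold Rct apx
  exact prod_mem_nhds (Icc_mem_nhds (by norm_num) (by norm_num))
    (Icc_mem_nhds (by norm_num) (by norm_num))

theorem rayBase_bR : RayBaseAt apx bR := by
  rw [bR_eq]; exact rayBaseAt_frontier Rct_compact Rct_convex Rct_nhds

theorem cone_bR : coneSetAt apx bR = Rct := by
  rw [bR_eq]; exact coneSetAt_frontier Rct_compact Rct_convex Rct_nhds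

/-- the zone where the model functions vanish -/
def Dead (x : ℝ × ℝ) : Prop := x.1 ≤ 1 / 8 ∨ 7 / 8 ≤ x.1 ∨ x.2 ≤ 1 / 2

theorem abs_sg_lt {a t : ℝ} (h0 : 1 / 8 < a) (h1 : a < 7 / 8) (ht : 1 / 2 < t) (ht1 : t ≤ 1) :
    |sg a t - 1 / 2| < 3 / 7 * (t - 1 / 8) := by
  have e1 : max (3 / 8) (3 * a - 9 / 4) = 3 / 8 := max_eq_left (by linarith)
  have e2 : min (3 * a) (3 / 8) = 3 / 8 := min_eq_right (by linarith)
  unfold sg mq
  rw [e1, e2, abs_lt]
  constructor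
  · have h3 : min (3 / 4 * a + (1 - t) / 2) (3 / 8) ≤ max (3 / 4 * a - (1 - t) / 2)
      (min (3 / 4 * a + (1 - t) / 2) (3 / 8)) := le_max_right _ _
    have h4 : 1 / 2 - a / 4 - 3 / 7 * (t - 1 / 8) < min (3 / 4 * a + (1 - t) / 2) (3 / 8) :=
      lt_min (by linarith) (by linarith)
    linarith
  · have h4 : max (3 / 4 * a - (1 - t) / 2) (min (3 / 4 * a + (1 - t) / 2) (3 / 8)) <
        1 / 2 - a / 4 + 3 / 7 * (t - 1 / 8) := by
      refine max_lt (by linarith) ((min_le_right _ _).trans_lt (by linarith))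
    linarith

/-- the cone over the boundary without the middle part of the top is mapped into the dead zone -/
theorem usq_dead {b : ℝ × ℝ} (hb : b ∈ bR) (hb' : b.2 = 1 → b.1 ≤ 1 / 8 ∨ 7 / 8 ≤ b.1) {s : ℝ}
    (hs : s ∈ Icc (0:ℝ) 1) : Dead (usq.toFun (apx + s • (b - apx))) := by
  have hmem : apx + s • (b - apx) ∈ Rct := by
    rw [← cone_bR]; exact ⟨s, hs, b, hb, rfl⟩
  set y := usq.toFun (apx + s • (b - apx)) with hy
  have hyR : y ∈ Rct := usq.mapsTo hmem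
  have hyx : sqm y = apx + s • (b - apx) := sqm_usq hmem
  by_contra hcon
  unfold Dead at hcon
  push Not at hcon
  obtain ⟨c1, c2, c3⟩ := hcon
  have h1 := abs_sg_lt c1 c2 c3 hyR.2.2
  have e1 : sg y.1 y.2 = 1 / 2 + s * (b.1 - 1 / 2) := by
    have := congrArg Prod.fst hyx
    simpa [sqm, apx] using this
  have e2 : y.2 = 1 / 8 + s * (b.2 - 1 / 8) := by
    have := congrArg Prod.snd hyx
    simpa [sqm, apx] using this
  rw [e1, add_sub_cancel_left, abs_mul, abs_of_nonneg hs.1, e2, add_sub_cancel_left] at h1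
  have hs0 : 0 < s := by
    rcases hs.1.lt_or_eq with h | h
    · exact h
    · exfalso; rw [← h] at e2; linarith
  have hb2 : 1 / 8 < b.2 := by
    by_contra hle
    have : s * (b.2 - 1 / 8) ≤ 0 := mul_nonpos_of_nonneg_of_nonpos hs.1 (by linarith)
    linarith
  have key : 3 / 7 * (b.2 - 1 / 8) ≤ |b.1 - 1 / 2| := by
    obtain ⟨⟨⟨k1, k2⟩, k3, k4⟩, h5 | h5 | h5 | h5⟩ := hb
    · rw [h5, abs_of_nonpos (by norm_num)]; linarith
    · rw [h5, abs_of_nonneg (by norm_num)]; linarith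
    · linarith
    · rcases hb' h5 with h6 | h6
      · rw [abs_of_nonpos (by linarith), h5]; linarith
      · rw [abs_of_nonneg (by linarith), h5]; linarith
  have := mul_le_mul_of_nonneg_left key hs.1
  linarith

end P073.H155
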