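import Vale.Agent.P073.H155.Stage2G

/-!
# P073, H155 [STAGE2-G], abstract form: arbitrary insertion map, given faces, given cells
-/

open Set Metric Topology Filter

namespace P073.H155

open _root_.P073 _root_.P073.TR _root_.P073.H936 _root_.P073.H236 _root_.P073.H579
open _root_.P073.H212 _root_.P073.H345
open Vale.Agent.P073.H73 (Mesh)
open Vale.Agent.P073.H193 (Edges)

variable {Ω Λ : Set (Fin 3 → ℝ)} {κ : (Fin 3 → ℝ) → Fin 3 → ℝ}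

/-- a lift of `κ` over the face `k`, without any estimate -/
def PassFace (M : Mesh Ω) (E : Edges M) (h : ConHomeo Ω Λ) (κ : (Fin 3 → ℝ) → Fin 3 → ℝ)
    (k : M.κ) : Prop :=
  ∃ Φ : ConHomeo (M.F k) (Pre κ Λ h (M.F k)),
    (∀ e, E.seg e ⊆ M.F k → Φ.toFun '' E.seg e = Pre κ Λ h (E.seg e)) ∧
    ∀ x ∈ M.F k, x ∈ E.verts → κ (Φ.toFun x) = h.toFun x

/-- the given maps `ΦW k` on the faces `k ∈ W` -/
structure GivF (M : Mesh Ω) (E : Edges M) (h : ConHomeo Ω Λ) (κ : (Fin 3 → ℝ) → Fin 3 → ℝ)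
    (Act : Set M.κ) (GE : E.ε → ((Fin 3 → ℝ) → Fin 3 → ℝ) → Prop) (W : Set M.κ)
    (ΦW : ∀ k ∈ W, ConHomeo (M.F k) (Pre κ Λ h (M.F k))) : Prop where
  act : ∀ k ∈ Act, k ∉ W
  agree : ∀ k hk l hl, EqOn (ΦW k hk).toFun (ΦW l hl).toFun (M.F k ∩ M.F l)
  edge : ∀ k hk e, E.seg e ⊆ M.F k → (ΦW k hk).toFun '' E.seg e = Pre κ Λ h (E.seg e)
  vert : ∀ k hk, ∀ x ∈ E.verts, x ∈ M.F k → κ ((ΦW k hk).toFun x) = h.toFun x
  good : ∀ k hk e, E.seg e ⊆ M.F k → (∃ l ∈ Act, E.seg e ⊆ M.F l) → GE e (ΦW k hk).toFun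

/-- **[STAGE2-G], abstract form** -/
theorem exists_stage2_abs (hΩ : IsOpen Ω) (M : Mesh Ω) (E : Edges M) (h : ConHomeo Ω Λ)
    (hI : InsMap κ Λ Λ) (hN : ∀ x ∈ E.verts, (Pre κ Λ h {x}).Subsingleton) {Act : Set M.κ}
    {GE : E.ε → ((Fin 3 → ℝ) → Fin 3 → ℝ) → Prop} {GF : M.κ → ((Fin 3 → ℝ) → Fin 3 → ℝ) → Prop}
    {W : Set M.κ} {ΦW : ∀ k ∈ W, ConHomeo (M.F k) (Pre κ Λ h (M.F k))}
    (hW : GivF M E h κ Act GE W ΦW) {Gv : Set M.ι}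
    {Ψ : ∀ j ∈ Gv, ConHomeo (M.Q j) (Pre κ Λ h (M.Q j))}
    (hGW : ∀ j ∈ Gv, ∀ k, M.F k ⊆ M.Q j → k ∈ W)
    (hΨ : ∀ j hj k hk, M.F k ⊆ M.Q j → EqOn (Ψ j hj).toFun (ΦW k hk).toFun (M.F k))
    (hpass : ∀ k, k ∉ W → k ∉ Act → PassFace M E h κ k)
    (hedge : ∀ k ∈ Act, ∀ e, E.seg e ⊆ M.F k → (∀ l ∈ W, ¬ E.seg e ⊆ M.F l) →
      ∃ Φ : ConHomeo (E.seg e) (Pre κ Λ h (E.seg e)),
      GE e Φ.toFun ∧ ∀ x ∈ E.seg e, x ∈ E.verts → κ (Φ.toFun x) = h.toFun x)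
    (hface : ∀ k ∈ Act,
      ∀ Φe : ∀ e, E.seg e ⊆ M.F k → ConHomeo (E.seg e) (Pre κ Λ h (E.seg e)),
      (∀ e he, GE e (Φe e he).toFun) →
      (∀ e he e' he', EqOn (Φe e he).toFun (Φe e' he').toFun (E.seg e ∩ E.seg e')) →
      (∀ e he, ∀ x ∈ E.seg e, x ∈ E.verts → κ ((Φe e he).toFun x) = h.toFun x) →
      ∃ Φ : ConHomeo (M.F k) (Pre κ Λ h (M.F k)), GF k Φ.toFun ∧
        ∀ e he, EqOn Φ.toFun (Φe e he).toFun (E.seg e)) :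
    ∃ g : ConHomeo Ω Λ, Out2 M E h κ Act GE GF g ∧
      (∀ k hk, EqOn g.toFun (ΦW k hk).toFun (M.F k)) ∧
      ∀ j hj, EqOn g.toFun (Ψ j hj).toFun (M.Q j) := by
  classical
  have hsc : ∀ e, IsCompact (E.seg e) := E.isCompact_seg
  have hsΩ : ∀ e, E.seg e ⊆ Ω := E.seg_sub_Ω
  obtain ⟨g, g0, g1, g2, g3, g4, g5, g6⟩ := exists_round (s := E.seg) (N := E.verts)
    (Vale.Agent.P073.H244.cellCx M hΩ) E.edgeCx h hI hN
    (fun e f => (∃ k ∈ Act, E.seg e ⊆ M.F k) → GE e f) (fun k f => k ∈ Act → GF k f)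
    W ΦW hW.agree hW.edge hW.vert
    (fun k hk e hek _ hA => hW.good k hk e hek hA)
    (by
      rintro e hne ⟨k, hk⟩
      by_cases hA : ∃ k ∈ Act, E.seg e ⊆ M.F k
      · obtain ⟨k', hk', hek'⟩ := hA
        obtain ⟨Φ, a1, a2⟩ := hedge k' hk' e hek' hne
        exact ⟨Φ, fun _ => a1, a2⟩
      · obtain ⟨Φ₀, p1, p2⟩ := hpass k (fun h' => hne k h' hk) fun h' => hA ⟨k, h', hk⟩
        exact ⟨(Φ₀.restr (E.edgeCx.con e) hk).cast rfl (p1 e hk), fun h => absurd h hA,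
          fun x hx hxN => p2 x (hk hx) hxN⟩)
    (by
      intro k hkW Φe a1 a2 a3
      by_cases hk : k ∈ Act
      · obtain ⟨Φ, b1, b2⟩ := hface k hk Φe (fun e he => a1 e he ⟨k, hk, he⟩) a2 a3
        exact ⟨Φ, fun _ => b1, b2⟩
      · have hball : ConBall 2 (M.F k) (⋃ e ∈ {e | E.seg e ⊆ M.F k}, E.seg e) := by
          rw [← E.fr_eq k]; exact Vale.Agent.P073.H244.conBall_face M k
        obtain ⟨Φ₀, p1, p2⟩ := hpass k hkW hk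
        obtain ⟨Φ, b1⟩ := exists_wild_face E.edgeCx h hI hsc hsΩ (E.fin_face k) hN hball Φ₀
          p1 Φe a2 a3
        exact ⟨Φ, fun h => absurd h hk, b1⟩)
  -- the given cells
  obtain ⟨g', k1, k2, -, k4⟩ := _root_.P073.H267.exists_given
    (Vale.Agent.P073.H244.cellCx M hΩ) hI g g6 Gv Ψ (by
      intro j hj x hx
      obtain ⟨k, hxk, hkj⟩ := M.bd j x hx
      have hk : k ∈ W := hGW j hj k hkj
      rw [g0 k hk hxk]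
      exact hΨ j hj k hk hkj hxk)
  have himg : ∀ k, ∀ X ⊆ M.F k, g'.toFun '' X = g.toFun '' X := fun k X hX =>
    image_congr fun x hx => k4 k (hX hx)
  refine ⟨g', ⟨fun k hk => ?_, fun k hk e he => ?_, fun e => ?_, fun x hx => ?_, fun k => ?_, k1⟩,
    fun k hk => (k4 k).trans (g0 k hk), k2⟩
  · obtain ⟨Φ, b1, b2⟩ := g1 k (hW.act k hk)
    exact ⟨Φ, b1 hk, (k4 k).trans b2⟩
  · obtain ⟨f, b1, b2⟩ := g2 k k (hW.act k hk) e he he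
    exact ⟨f, b1 ⟨k, hk, he⟩, ((k4 k).mono he).trans b2⟩
  · obtain ⟨k, hk⟩ : ∃ k, E.seg e ⊆ M.F k := E.own e
    rw [himg k _ hk]
    exact g3 e k hk
  · obtain ⟨k, hk⟩ := exists_face_of_vert E hx
    rw [k4 k hk]
    exact g4 x hx k hk
  · rw [himg k _ Subset.rfl]
    exact g5 k

end P073.H155
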