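import Vale.Agent.P073.H345.Stage2
import Vale.Agent.P073.H267.Given

/-!
# P073, H155 [STAGE2-G]: STAGE 2 (H345) with given cells

On the cells `Q j`, `j ∈ Gv`, the lift `Ψ j` is given.
-/

open Set Metric Topology Filter

namespace P073.H155

open _root_.P073 _root_.P073.TR _root_.P073.H936 _root_.P073.H236 _root_.P073.H579
open _root_.P073.H212 _root_.P073.H345
open Vale.Agent.P073.H73 (Mesh)
open Vale.Agent.P073.H193 (Edges)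

variable {γ : Type*} {Ω Λ : Set (Fin 3 → ℝ)} {B : γ → BX 3} {κ : (Fin 3 → ℝ) → Fin 3 → ℝ}

/-- an edge is not in the interior of a cell -/
theorem edge_frontier {M : Mesh Ω} (E : Edges M) {e : E.ε} {j : M.ι} {x : Fin 3 → ℝ}
    (hx : x ∈ E.seg e) (hj : x ∈ M.Q j) : x ∈ frontier (M.Q j) := by
  obtain ⟨l, hl⟩ := E.own e
  rw [(Vale.Agent.P073.H244.cell_closed M j).frontier_eq]
  exact ⟨hj, Set.disjoint_left.1 (Vale.Agent.P073.H244.face_disjoint M l j) (hl hx)⟩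

/-- an edge of a cell is an edge of a face of the cell -/
theorem exists_face_of_seg {M : Mesh Ω} (E : Edges M) {e : E.ε} {j : M.ι}
    (he : E.seg e ⊆ M.Q j) : ∃ k, M.F k ⊆ M.Q j ∧ E.seg e ⊆ M.F k := by
  have hm : midpoint ℝ (E.a e) (E.b e) ∈ openSegment ℝ (E.a e) (E.b e) :=
    midpoint_mem_openSegment _ _
  have hs : midpoint ℝ (E.a e) (E.b e) ∈ E.seg e := openSegment_subset_segment _ _ _ hm
  obtain ⟨k, hk1, hk2⟩ := M.bd j _ (edge_frontier E hs (he hs))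
  exact ⟨k, hk2, E.sub_of_mem hm hk1⟩

/-- the given maps `Ψ j` on the cells `Q j`, `j ∈ Gv` -/
structure Giv (M : Mesh Ω) (E : Edges M) (h : ConHomeo Ω Λ) (κ : (Fin 3 → ℝ) → Fin 3 → ℝ)
    (Act Mi : Set M.κ) (GE : E.ε → ((Fin 3 → ℝ) → Fin 3 → ℝ) → Prop) (Gv : Set M.ι)
    (Ψ : ∀ j ∈ Gv, ConHomeo (M.Q j) (Pre κ Λ h (M.Q j))) : Prop where
  agree : ∀ j hj j' hj', EqOn (Ψ j hj).toFun (Ψ j' hj').toFun (M.Q j ∩ M.Q j')
  face : ∀ j hj k, M.F k ⊆ M.Q j → (Ψ j hj).toFun '' M.F k = Pre κ Λ h (M.F k)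
  edge : ∀ j hj e, E.seg e ⊆ M.Q j → (Ψ j hj).toFun '' E.seg e = Pre κ Λ h (E.seg e)
  vert : ∀ j hj, ∀ x ∈ E.verts, x ∈ M.Q j → κ ((Ψ j hj).toFun x) = h.toFun x
  miss : ∀ j hj, ∀ l ∈ Mi, ∀ x ∈ M.Q j, x ∈ M.F l → (Ψ j hj).toFun x = h.toFun x
  good : ∀ j hj, ∀ k ∈ Act, ∀ e, E.seg e ⊆ M.F k → E.seg e ⊆ M.Q j → GE e (Ψ j hj).toFun

/-- **[STAGE2-G]: STAGE 2 with given cells.** `Mi`: a set of faces which miss the boxes
(nothing changes there). -/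
theorem exists_stage2G (hΩ : IsOpen Ω) (M : Mesh Ω) (E : Edges M) (h : ConHomeo Ω Λ)
    (H : Fam Λ B) (hreg : RegB M E h B) (Act Mi : Set M.κ) (Gv : Set M.ι)
    (hMi : Mi ⊆ Miss M h B) (hA1 : ∀ k ∈ Act, k ∉ Mi)
    (hA2 : ∀ k ∈ Act, ∀ e, E.seg e ⊆ M.F k → ∀ l ∈ Mi, ¬ E.seg e ⊆ M.F l)
    (hA3 : ∀ k ∈ Act, ∀ j ∈ Gv, ¬ M.F k ⊆ M.Q j) :
    ∃ c₀ : γ → ℝ, (∀ g, 0 < c₀ g) ∧ ∀ (c : γ → ℝ) (h0 : ∀ g, 0 < c g) (h1 : ∀ g, c g ≤ (B g).c),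
      (∀ g, c g ≤ c₀ g) → ∀ κ, IsQ (fun g => thin (B g) (c g) (h0 g) (h1 g)) κ →
      InsMap κ Λ Λ →
      ∀ (GE : E.ε → ((Fin 3 → ℝ) → Fin 3 → ℝ) → Prop) (GF : M.κ → ((Fin 3 → ℝ) → Fin 3 → ℝ) → Prop)
      (Ψ : ∀ j ∈ Gv, ConHomeo (M.Q j) (Pre κ Λ h (M.Q j))), Giv M E h κ Act Mi GE Gv Ψ →
      (∀ k ∈ Act, ∀ e, E.seg e ⊆ M.F k → (∀ j ∈ Gv, ¬ E.seg e ⊆ M.Q j) →
        ∃ Φ : ConHomeo (E.seg e) (Pre κ Λ h (E.seg e)),
        GE e Φ.toFun ∧ ∀ x ∈ E.seg e, x ∈ E.verts → κ (Φ.toFun x) = h.toFun x) →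
      (∀ k ∈ Act, ∀ Φe : ∀ e, E.seg e ⊆ M.F k → ConHomeo (E.seg e) (Pre κ Λ h (E.seg e)),
        (∀ e he, GE e (Φe e he).toFun) →
        (∀ e he e' he', EqOn (Φe e he).toFun (Φe e' he').toFun (E.seg e ∩ E.seg e')) →
        (∀ e he, ∀ x ∈ E.seg e, x ∈ E.verts → κ ((Φe e he).toFun x) = h.toFun x) →
        ∃ Φ : ConHomeo (M.F k) (Pre κ Λ h (M.F k)), GF k Φ.toFun ∧
          ∀ e he, EqOn Φ.toFun (Φe e he).toFun (E.seg e)) →
      ∃ g : ConHomeo Ω Λ, Out2 M E h κ Act GE GF g ∧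
        (∀ k ∈ Mi, EqOn g.toFun h.toFun (M.F k)) ∧
        ∀ j hj, EqOn g.toFun (Ψ j hj).toFun (M.Q j) := by
  classical
  have hFc : ∀ k, IsCompact (M.F k) := fun k => (Vale.Agent.P073.H193.pgn_of_fat (M.fat k)).cpt
  have hFΩ : ∀ k, M.F k ⊆ Ω := Vale.Agent.P073.H193.mesh_sub M
  obtain ⟨c₀, hc₀, hmain⟩ := exists_passed_all H h hFc
    (fun k => (Vale.Agent.P073.H244.conBall_face M k).conicalSet) hFΩ M.ffin (M := fam M E)
    (fun k => Sum.inl k) (fun k => rfl) (fun k g hg m hm x hx hxa => hreg k g hg m hm x hx hxa)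
  refine ⟨c₀, hc₀, fun c h0 h1 hc κ hκ hI GE GF Ψ hG hedge hface => ?_⟩
  have Hth : Fam Λ fun g => thin (B g) (c g) (h0 g) (h1 g) := H.thin h0 h1
  have hpass : ∀ k, ∃ (Φ : ConHomeo (M.F k) (Pre κ Λ h (M.F k))) (γ' : (Fin 3 → ℝ) → Fin 3 → ℝ),
      (∀ x ∈ M.F k, κ (Φ.toFun x) = h.toFun (γ' x)) ∧
      (∀ t, ∀ x ∈ M.F k, (γ' x ∈ fam M E t ↔ x ∈ fam M E t)) ∧
      ∀ e, E.seg e ⊆ M.F k → Φ.toFun '' E.seg e = Pre κ Λ h (E.seg e) := by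
    intro k
    obtain ⟨Φ, γ', hP⟩ := hmain c h0 h1 hc κ hκ k
    refine ⟨Φ.cast rfl (hκ.pre_eq Hth h (hFΩ k)).symm, γ', hP.eq, hP.iff, fun e he => ?_⟩
    have h2 := hP.img (Sum.inr (Sum.inl e))
    have h3 : fam M E (Sum.inr (Sum.inl e)) ∩ M.F k = E.seg e := inter_eq_left.2 he
    rw [h3] at h2
    rw [hκ.pre_eq Hth h (he.trans (hFΩ k))]
    exact h2
  choose Ψ₀ γ' hΨ1 hΨ2 hΨ3 using hpass
  have hN : ∀ x ∈ E.verts, (Pre κ Λ h {x}).Subsingleton := by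
    intro x hx y hy y' hy'
    obtain ⟨hyΛ, z, hz, hzy⟩ := hy
    obtain ⟨hyΛ', z', hz', hzy'⟩ := hy'
    rw [mem_singleton_iff] at hz hz'
    subst hz; subst hz'
    exact hκ.inj_off Hth hzy.symm hzy'.symm fun g hg m hm => hreg.vert hx hg hm
  have hsc : ∀ e, IsCompact (E.seg e) := E.isCompact_seg
  have hsΩ : ∀ e, E.seg e ⊆ Ω := E.seg_sub_Ω
  -- the faces which miss the boxes
  have hmiss : ∀ k ∈ Mi, ∀ X ⊆ M.F k, h.toFun '' X = Pre κ Λ h X := by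
    intro k hk X hX
    exact (hκ.pre_eq_off Hth h (hX.trans (hFΩ k)) fun g =>
      (hMi hk g).mono_right (image_mono hX)).symm
  have hmisspt : ∀ k ∈ Mi, ∀ x ∈ M.F k, κ (h.toFun x) = h.toFun x := fun k hk x hx =>
    hκ.off _ fun g hg => Set.disjoint_left.1 (hMi hk g) hg ⟨x, hx, rfl⟩
  -- the given maps on the faces
  set W : Set M.κ := {k | k ∈ Mi ∨ ∃ j ∈ Gv, M.F k ⊆ M.Q j} with hW
  have hWex : ∀ k, ∀ _ : k ∈ W, ∃ Φ : ConHomeo (M.F k) (Pre κ Λ h (M.F k)),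
      (∃ j hj, M.F k ⊆ M.Q j ∧ Φ.toFun = (Ψ j hj).toFun) ∨ (k ∈ Mi ∧ Φ.toFun = h.toFun) := by
    intro k hk
    by_cases hj : ∃ j ∈ Gv, M.F k ⊆ M.Q j
    · obtain ⟨j, hj, hkj⟩ := hj
      exact ⟨((Ψ j hj).restr (Vale.Agent.P073.H244.conBall_face M k).conicalSet hkj).cast rfl
        (hG.face j hj k hkj), Or.inl ⟨j, hj, hkj, rfl⟩⟩
    · have hk' : k ∈ Mi := hk.resolve_right hj
      exact ⟨(h.restr (Vale.Agent.P073.H244.conBall_face M k).conicalSet (hFΩ k)).cast rfl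
        (hmiss k hk' _ Subset.rfl), Or.inr ⟨hk', rfl⟩⟩
  choose ΦW hΦW using hWex
  -- comparison with the given maps
  have hcmp : ∀ k hk j hj, ∀ x ∈ M.F k, x ∈ M.Q j → (ΦW k hk).toFun x = (Ψ j hj).toFun x := by
    intro k hk j hj x hx hxj
    rcases hΦW k hk with ⟨j', hj', hkj', he⟩ | ⟨hkM, he⟩
    · rw [he]
      exact hG.agree j' hj' j hj ⟨hkj' hx, hxj⟩
    · rw [he]
      exact (hG.miss j hj k hkM x hxj hx).symm
  obtain ⟨g, g0, g1, g2, g3, g4, g5, g6⟩ := exists_round (s := E.seg) (N := E.verts)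
    (Vale.Agent.P073.H244.cellCx M hΩ) E.edgeCx h hI hN
    (fun e f => (∃ k ∈ Act, E.seg e ⊆ M.F k) → GE e f) (fun k f => k ∈ Act → GF k f)
    W ΦW
    (by
      rintro k hk l hl x ⟨hxk, hxl⟩
      rcases hΦW l hl with ⟨j', hj', hlj', he⟩ | ⟨hlM, he⟩
      · rw [he]
        exact hcmp k hk j' hj' x hxk (hlj' hxl)
      · rcases hΦW k hk with ⟨j, hj, hkj, he'⟩ | ⟨hkM, he'⟩
        · rw [he, he']
          exact hG.miss j hj l hlM x (hkj hxk) hxl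
        · rw [he, he'])
    (by
      intro k hk e hek
      rcases hΦW k hk with ⟨j, hj, hkj, he⟩ | ⟨hkM, he⟩
      · rw [he]
        exact hG.edge j hj e (hek.trans hkj)
      · rw [he]
        exact hmiss k hkM _ hek)
    (by
      intro k hk x hx hxk
      rcases hΦW k hk with ⟨j, hj, hkj, he⟩ | ⟨hkM, he⟩
      · rw [he]
        exact hG.vert j hj x hx (hkj hxk)
      · rw [he]
        exact hmisspt k hkM x hxk)
    (by
      rintro k hk e hek - ⟨l, hl, hel⟩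
      rcases hΦW k hk with ⟨j, hj, hkj, he⟩ | ⟨hkM, he⟩
      · rw [he]
        exact hG.good j hj l hl e hel (hek.trans hkj)
      · exact absurd hek (hA2 l hl e hel k hkM))
    (by
      rintro e hne ⟨k, hk⟩
      by_cases hA : ∃ k ∈ Act, E.seg e ⊆ M.F k
      · obtain ⟨k', hk', hek'⟩ := hA
        obtain ⟨Φ, a1, a2⟩ := hedge k' hk' e hek' (by
          intro j hj hej
          obtain ⟨l, hl1, hl2⟩ := exists_face_of_seg E hej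
          exact hne l (Or.inr ⟨j, hj, hl1⟩) hl2)
        exact ⟨Φ, fun _ => a1, a2⟩
      · refine ⟨((Ψ₀ k).restr (E.edgeCx.con e) hk).cast rfl (hΨ3 k e hk), fun h => absurd h hA,
          fun x hx hxN => ?_⟩
        show κ ((Ψ₀ k).toFun x) = h.toFun x
        rw [hΨ1 k x (hk hx)]
        have h2 := (hΨ2 k (Sum.inr (Sum.inr ⟨x, hxN⟩)) x (hk hx)).2 rfl
        rw [show γ' k x = x from h2])
    (by
      intro k _ Φe a1 a2 a3
      by_cases hk : k ∈ Act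
      · obtain ⟨Φ, b1, b2⟩ := hface k hk Φe (fun e he => a1 e he ⟨k, hk, he⟩) a2 a3
        exact ⟨Φ, fun _ => b1, b2⟩
      · have hball : ConBall 2 (M.F k) (⋃ e ∈ {e | E.seg e ⊆ M.F k}, E.seg e) := by
          rw [← E.fr_eq k]; exact Vale.Agent.P073.H244.conBall_face M k
        obtain ⟨Φ, b1⟩ := exists_wild_face E.edgeCx h hI hsc hsΩ (E.fin_face k) hN hball (Ψ₀ k)
          (hΨ3 k) Φe a2 a3
        exact ⟨Φ, fun h => absurd h hk, b1⟩)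
  -- the given cells
  obtain ⟨g', k1, k2, -, k4⟩ := _root_.P073.H267.exists_given
    (Vale.Agent.P073.H244.cellCx M hΩ) hI g g6 Gv Ψ (by
      intro j hj x hx
      obtain ⟨k, hxk, hkj⟩ := M.bd j x hx
      have hk : k ∈ W := Or.inr ⟨j, hj, hkj⟩
      rw [g0 k hk hxk]
      exact (hcmp k hk j hj x hxk (hkj hxk)).symm)
  have hW' : ∀ k ∈ Act, k ∉ W := by
    rintro k hk (h' | ⟨j, hj, h'⟩)
    · exact hA1 k hk h'
    · exact hA3 k hk j hj h'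
  have himg : ∀ k, ∀ X ⊆ M.F k, g'.toFun '' X = g.toFun '' X := fun k X hX =>
    image_congr fun x hx => k4 k (hX hx)
  refine ⟨g', ⟨fun k hk => ?_, fun k hk e he => ?_, fun e => ?_, fun x hx => ?_, fun k => ?_, k1⟩,
    fun k hk x hx => ?_, k2⟩
  · obtain ⟨Φ, b1, b2⟩ := g1 k (hW' k hk)
    exact ⟨Φ, b1 hk, (k4 k).trans b2⟩
  · obtain ⟨f, b1, b2⟩ := g2 k k (hW' k hk) e he he
    exact ⟨f, b1 ⟨k, hk, he⟩, ((k4 k).mono he).trans b2⟩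
  · obtain ⟨k, hk⟩ : ∃ k, E.seg e ⊆ M.F k := E.own e
    rw [himg k _ hk]
    exact g3 e k hk
  · obtain ⟨k, hk⟩ := exists_face_of_vert E hx
    rw [k4 k hk]
    exact g4 x hx k hk
  · rw [himg k _ Subset.rfl]
    exact g5 k
  · have hkW : k ∈ W := Or.inl hk
    rw [k4 k hx, g0 k hkW hx]
    rcases hΦW k hkW with ⟨j, hj, hkj, he⟩ | ⟨-, he⟩
    · rw [he]
      exact hG.miss j hj k hk x (hkj hx) hx
    · rw [he]

end P073.H155
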