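import Vale.Agent.P073.H919.HookG
import Vale.Agent.P073.H236.TOutDefs

/-!
# P073, block H155: **[VERT-T]**, the invariance of ROUND T survives the levels of ROUND P

`vertT`: a mesh set `X` which is invariant in a band of round T near the edge `e` for `h1` is
invariant in the smaller band for `h4 = S_P ∘ h3`, outside the boxes of the hooks of the plates.
-/

open Set Metric Topology Filter

set_option linter.unusedSectionVars false
set_option autoImplicit false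

namespace P073.H155

open _root_.P073 _root_.P073.H579 _root_.P073.Net _root_.P073.PA691 _root_.P073.H236
  _root_.P073.H345 _root_.P073.H142 _root_.P073.H919 _root_.P073.H936.K3
open Vale.Agent.P073.St (V)
open Vale.Agent.P073.H73 (Mesh)
open Vale.Agent.P073.H193 (Edges)
open Vale.Agent.P073.H471 Vale.Agent.P073.H267

variable {Ω Λ : Set V} {v : V} {K : BoxCx Λ v} {S : Rad K} {W : Wid K S} {B : Boxes W} {G : Geo B}
  {L : PLev G} {S₀ : Set K.S} {F : Bool → BFam 3 S₀ Λ} {T : Bool → ConHomeo Λ Λ} {i : K.G}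
  {y : V} {d : ℝ}

/-! ### the staircases near an edge, backwards -/

theorem ps3_near_tg (P : PSt L (Subtype.val : S₀ → K.S) F T) (hy : NearE G i y) {β : Bool}
    {s : S₀} (hK : y ∈ ((F β).B s).K) : y ∈ PK G s.1 ∧ tg s.1 β = K.dir i := by
  obtain ⟨h1, h2⟩ := PLev.mem_bxK.1 ((P.B β s).sub_K hK)
  refine ⟨h1, ?_⟩
  by_contra hne
  exact (hy s.1 h1).2 _ (tg_ne s.1 β) hne h2

/-- the displacement of `σ` is at most `D` at the points `t` such that an intermediate point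
between `t` and `σ t` is in `A` -/
def LocD (σ : ℝ → ℝ) (A : Set ℝ) (D : ℝ) : Prop := ∀ t, (uIcc t (σ t) ∩ A).Nonempty → |σ t - t| ≤ D

theorem LocD.mono {σ : ℝ → ℝ} {A A' : Set ℝ} {D D' : ℝ} (h : LocD σ A D) (hA : A' ⊆ A)
    (hD : D ≤ D') : LocD σ A' D' := fun t ht => (h t (ht.mono (inter_subset_inter_right _ hA))).trans hD

/-- **local displacement**: the displacement is at most `D` off the windows `Wd`, and the windows
are far from `[a, b]` -/
theorem locD_of {σ : ℝ → ℝ} (hσ : StrictMono σ) {Wd : Set (ℝ × ℝ)} {D a b : ℝ} (hD : 0 ≤ D)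
    (hab : a ≤ b) (hW : ∀ t, (∀ p ∈ Wd, t ∉ Icc p.1 p.2) → |σ t - t| ≤ D)
    (hoff : ∀ p ∈ Wd, p.2 + D < a ∨ b < p.1 - D) : LocD σ (Icc a b) D := by
  rintro t ⟨t', ht', ha, hb⟩
  by_cases h : ∀ p ∈ Wd, t ∉ Icc p.1 p.2
  · exact hW t h
  · exfalso
    push Not at h
    obtain ⟨p, hp, h1, h2⟩ := h
    rcases hoff p hp with h3 | h3
    · have h4 : |σ (a - D) - (a - D)| ≤ D := by
        refine hW _ fun p' hp' h5 => ?_
        rcases hoff p' hp' with h6 | h6 <;> linarith [h5.1, h5.2]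
      have h5 := hσ (show t < a - D by linarith)
      have h6 := (abs_le.1 h4).2
      rcases mem_uIcc.1 ht' with h7 | h7 <;> linarith [h7.1, h7.2]
    · have h4 : |σ (b + D) - (b + D)| ≤ D := by
        refine hW _ fun p' hp' h5 => ?_
        rcases hoff p' hp' with h6 | h6 <;> linarith [h5.1, h5.2]
      have h5 := hσ (show b + D < t by linarith)
      have h6 := (abs_le.1 h4).1
      rcases mem_uIcc.1 ht' with h7 | h7 <;> linarith [h7.1, h7.2]

theorem locD_of_le {σ : ℝ → ℝ} {A : Set ℝ} {D : ℝ} (h : ∀ t, |σ t - t| ≤ D) : LocD σ A D :=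
  fun t _ => h t

/-- the staircase moves a point to an intermediate point -/
theorem isS_mem_uIcc {γ : Type*} {F : BFam 3 γ Λ} {S : ConHomeo Λ Λ} (hS : F.IsS S) {b : γ}
    (hy : y ∈ (F.B b).K) :
    S.toFun y (F.B b).j ∈ uIcc (y (F.B b).j) (F.σ b (y (F.B b).j)) := by
  rw [hS.on b y hy]
  show vc (F.B b).j _ _ y (F.B b).j ∈ _
  rw [vc_same]
  exact cl_mem_uIcc (bmp_nonneg (F.D0 b) y)

/-- displacement at a point with local bound -/
theorem isS_abs_le {γ : Type*} {F : BFam 3 γ Λ} {S : ConHomeo Λ Λ} (hS : F.IsS S) {b : γ}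
    (hy : y ∈ (F.B b).K) {A : Set ℝ} (hd : LocD (F.σ b) A d)
    (hA : S.toFun y (F.B b).j ∈ A) : |S.toFun y (F.B b).j - y (F.B b).j| ≤ d := by
  have h1 := isS_mem_uIcc hS hy
  refine le_trans ?_ (hd _ ⟨_, h1, hA⟩)
  rcases mem_uIcc.1 h1 with h2 | h2
  · rw [abs_of_nonneg (by linarith [h2.1]), abs_of_nonneg (by linarith [h2.1, h2.2])]
    linarith [h2.2]
  · rw [abs_of_nonpos (by linarith [h2.2]), abs_of_nonpos (by linarith [h2.1, h2.2])]
    linarith [h2.1]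

/-- one family, backwards -/
theorem ps3_back_one (P : PSt L (Subtype.val : S₀ → K.S) F T) (β : Bool)
    (hy : NearE G i ((T β).toFun y)) (hd0 : 0 ≤ d) {A : Set ℝ}
    (hd : ∀ s : S₀, K.edge i ⊆ K.sq s.1 → tg s.1 β = K.dir i → LocD ((F β).σ s) A d)
    (hA : (T β).toFun y (K.dir i) ∈ A) :
    (∀ j, j ≠ K.dir i → (T β).toFun y j = y j) ∧ NearE G i y ∧
      |(T β).toFun y (K.dir i) - y (K.dir i)| ≤ d := by
  by_cases hK : ∃ s, y ∈ ((F β).B s).K
  · obtain ⟨s, hs⟩ := hK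
    have hs' := (P.isS β).mem hs
    obtain ⟨h1, h2⟩ := ps3_near_tg P hy hs'
    have ej : ((F β).B s).j = K.dir i := (P.B β s).j.trans h2
    have h3 : ∀ j, j ≠ K.dir i → (T β).toFun y j = y j := by
      intro j hj
      refine (P.isS β).ne hs ?_
      rw [ej]
      exact hj
    have h4 : y ∈ PK G s.1 := (PLev.mem_bxK.1 ((P.B β s).sub_K hs)).1
    refine ⟨h3, fun s' hs'' => ?_, ?_⟩
    · have h5 : s' = s.1 := PK_unique hs'' h4
      subst h5
      refine ⟨(hy s.1 h1).1, fun j hj hjd => ?_⟩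
      rw [← h3 j hjd]
      exact (hy s.1 h1).2 j hj hjd
    · have h6 := isS_abs_le (P.isS β) hs (hd s (hy s.1 h1).1 h2) (by rw [ej]; exact hA)
      rwa [ej] at h6
  · push Not at hK
    rw [(P.isS β).off y hK] at hy ⊢
    exact ⟨fun _ _ => rfl, hy, by rw [sub_self, abs_zero]; exact hd0⟩

/-- **near an edge only the coordinate along the edge is moved**, backwards; the displacement is
bounded near the final point -/
theorem ps3_back (P : PSt L (Subtype.val : S₀ → K.S) F T)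
    (hy : NearE G i ((T true).toFun ((T false).toFun y))) (hd0 : 0 ≤ d) {cc ww : ℝ}
    (hd : ∀ β, ∀ s : S₀, K.edge i ⊆ K.sq s.1 → tg s.1 β = K.dir i →
      LocD ((F β).σ s) {t | |t - cc| ≤ ww + d} d)
    (hA : |(T true).toFun ((T false).toFun y) (K.dir i) - cc| ≤ ww) :
    (∀ j, j ≠ K.dir i → (T true).toFun ((T false).toFun y) j = y j) ∧ NearE G i y ∧
      |(T true).toFun ((T false).toFun y) (K.dir i) - y (K.dir i)| ≤ 2 * d := by
  obtain ⟨h1, h2, h3⟩ := ps3_back_one P true hy hd0 (hd true)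
    (show |_ - cc| ≤ ww + d by linarith)
  obtain ⟨h4, h5, h6⟩ := ps3_back_one P false h2 hd0 (hd false) (by
    show |(T false).toFun y (K.dir i) - cc| ≤ ww + d
    have h7 := abs_sub_le ((T false).toFun y (K.dir i))
      ((T true).toFun ((T false).toFun y) (K.dir i)) cc
    rw [abs_sub_comm] at h3
    linarith)
  refine ⟨fun j hj => (h1 j hj).trans (h4 j hj), h5, ?_⟩
  have h7 := abs_sub_le ((T true).toFun ((T false).toFun y) (K.dir i))
    ((T false).toFun y (K.dir i)) (y (K.dir i))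
  linarith

/-! ### the insertion maps near an edge -/

/-- displacement of the insertion map of one box -/
theorem abs_Q_sub_le (B : BX 3) (y : Fin 3 → ℝ) : |B.Q y B.j - y B.j| ≤ B.c := by
  have h1 := mu_nonneg B y
  have h2 := mu_le B y
  rw [Q_self, add_sub_cancel_left, abs_le]
  constructor
  · exact le_trans (by linarith) (le_max_left _ _)
  · exact (max_le (by linarith) (min_le_left _ _)).trans h2

/-- one family -/
theorem kap_fwd_one {β : Bool} {κ : V → V} (hκ : IsQ (fun s : S₀ => L.bx β s.1) κ)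
    (hy : NearE G i y) (hd0 : 0 ≤ d) (hd : ∀ s : S₀, K.edge i ⊆ K.sq s.1 → L.c s.1 β ≤ d) :
    (∀ j, j ≠ K.dir i → κ y j = y j) ∧ NearE G i (κ y) ∧ |κ y (K.dir i) - y (K.dir i)| ≤ d := by
  by_cases hK : ∃ s : S₀, y ∈ (L.bx β s.1).K
  · obtain ⟨s, hs⟩ := hK
    obtain ⟨h1, hw⟩ := PLev.mem_bxK.1 hs
    have h2 : tg s.1 β = K.dir i := by
      by_contra hne
      exact (hy s.1 h1).2 _ (tg_ne s.1 β) hne hw
    have e1 : κ y = (L.bx β s.1).Q y := hκ.on s y hs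
    have h3 : ∀ j, j ≠ K.dir i → κ y j = y j := by
      intro j hj
      rw [e1]
      refine (L.bx β s.1).Q_ne ?_ y
      show j ≠ tg s.1 β
      rw [h2]
      exact hj
    have h4 : κ y ∈ PK G s.1 := (PLev.mem_bxK.1 (hκ.mapsK (g := s) hs)).1
    refine ⟨h3, fun s' hs'' => ?_, ?_⟩
    · have h5 : s' = s.1 := PK_unique hs'' h4
      subst h5
      refine ⟨(hy s.1 h1).1, fun j hj hjd => ?_⟩
      rw [h3 j hjd]
      exact (hy s.1 h1).2 j hj hjd
    · have h6 : |(L.bx β s.1).Q y (tg s.1 β) - y (tg s.1 β)| ≤ L.c s.1 β :=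
        abs_Q_sub_le (L.bx β s.1) y
      rw [e1, ← h2]
      exact h6.trans (hd s (hy s.1 h1).1)
  · push Not at hK
    rw [hκ.off y hK]
    exact ⟨fun _ _ => rfl, hy, by rw [sub_self, abs_zero]; exact hd0⟩

/-- **near an edge the insertion maps move only the coordinate along the edge** -/
theorem kap_fwd {κ₀ κ₁ : V → V} (h₀ : IsQ (fun s : S₀ => L.bx false s.1) κ₀)
    (h₁ : IsQ (fun s : S₀ => L.bx true s.1) κ₁) (hy : NearE G i y) (hd0 : 0 ≤ d)
    (hd : ∀ β, ∀ s : S₀, K.edge i ⊆ K.sq s.1 → L.c s.1 β ≤ d) :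
    (∀ j, j ≠ K.dir i → κ₁ (κ₀ y) j = y j) ∧ |κ₁ (κ₀ y) (K.dir i) - y (K.dir i)| ≤ 2 * d := by
  obtain ⟨h4, h5, h6⟩ := kap_fwd_one h₀ hy hd0 (hd false)
  obtain ⟨h1, h2, h3⟩ := kap_fwd_one h₁ h5 hd0 (hd true)
  refine ⟨fun j hj => (h1 j hj).trans (h4 j hj), ?_⟩
  have h7 := abs_sub_le (κ₁ (κ₀ y) (K.dir i)) (κ₀ y (K.dir i)) (y (K.dir i))
  linarith

/-! ### the theorem -/

variable {M : Mesh Ω} {κ₀ κ₁ : V → V} {c dd : ℝ} {Zb : S₀ → Set M.ι} {h1 h2 h3 h4 : ConHomeo Ω Λ}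
  {u : V} {sl : Finset (ℝ × ℝ)}

/-- **[VERT-T]** -/
theorem vertT (H : HkG M L (Subtype.val : S₀ → K.S) F T κ₀ κ₁ c dd Zb h2 h3 h4 u)
    -- nothing was changed off the boxes by the exchange
    (off1 : ∀ x ∈ Ω, (∀ s : S₀, h2.toFun x ∉ HB G c dd s.1) → h2.toFun x = h1.toFun x)
    (off2 : ∀ x ∈ Ω, (∀ s : S₀, h1.toFun x ∉ HB G c dd s.1) → h2.toFun x = h1.toFun x)
    {e : K.G} {dT dK : ℝ} (hT0 : 0 ≤ dT) {cc ww : ℝ}
    (hT : ∀ β, ∀ s : S₀, K.edge e ⊆ K.sq s.1 → tg s.1 β = K.dir e →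
      LocD ((F β).σ s) {t | |t - cc| ≤ ww + dT} dT)
    (hK0 : 0 ≤ dK) (hK : ∀ β, ∀ s : S₀, K.edge e ⊆ K.sq s.1 → L.c s.1 β ≤ dK)
    {X : Set V} (hX : X ⊆ Ω) (hg : h3.toFun '' X = Pre (κ₁ ∘ κ₀) Λ h2 X)
    (hvi : ∀ y ∈ h1.toFun '' X, y ∈ G.TB true (.inl e) →
      ∀ t ∈ Icc (G.tlo true (.inl e) (K.dir e)) (G.thi true (.inl e) (K.dir e)),
      (∀ r ∈ uIcc (y (K.dir e)) t, NoSl sl r) → Function.update y (K.dir e) t ∈ h1.toFun '' X)
    {x x' : V} (hx : x ∈ Ω) (hx' : x' ∈ Ω)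
    (hl : ∀ l, l ≠ K.dir e → |h4.toFun x l - K.w (K.a e) l| ≤ G.uT e)
    (hn : ∀ s : S₀, h4.toFun x ∉ HB G c dd s.1) (hn' : ∀ s : S₀, h4.toFun x' ∉ HB G c dd s.1)
    (heq : ∀ l, l ≠ K.dir e → h4.toFun x l = h4.toFun x' l)
    (hb : |h4.toFun x (K.dir e) - cc| ≤ ww) (hb' : |h4.toFun x' (K.dir e) - cc| ≤ ww)
    (hno : ∀ t, |t - cc| ≤ ww + (2 * dT + 2 * dK) →
      t ∈ Icc (G.tlo true (.inl e) (K.dir e)) (G.thi true (.inl e) (K.dir e)) ∧ NoSl sl t)
    (hxX : x ∈ X) : x' ∈ X := by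
  -- positions
  have hTB : ∀ z : V, (∀ l, l ≠ K.dir e → z l = h4.toFun x l) → |z (K.dir e) - cc| ≤
      ww + (2 * dT + 2 * dK) → z ∈ G.TB true (.inl e) := by
    intro z hz1 hz2
    have h6 := (hno _ hz2).1
    refine ⟨fun k => ?_, fun k => ?_⟩
    · by_cases hk : k = K.dir e
      · subst hk; exact h6.1
      · simp only [Geo.tlo, if_neg hk, if_true]
        rw [hz1 k hk]
        linarith [(abs_le.1 (hl k hk)).1]
    · by_cases hk : k = K.dir e
      · subst hk; exact h6.2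
      · simp only [Geo.thi, if_neg hk, if_true]
        rw [hz1 k hk]
        linarith [(abs_le.1 (hl k hk)).2]
  have hD0 : 0 ≤ 2 * dT + 2 * dK := by linarith
  have n1 : NearE G e (h4.toFun x) :=
    nearE_of_TB (Geo.TB_true_subset _ (hTB _ (fun _ _ => rfl) (by linarith)))
  have n2 : NearE G e (h4.toFun x') :=
    nearE_of_TB (Geo.TB_true_subset _ (hTB _ (fun l hl' => (heq l hl').symm) (by linarith)))
  -- one point
  have step : ∀ z ∈ Ω, NearE G e (h4.toFun z) → (∀ s : S₀, h4.toFun z ∉ HB G c dd s.1) →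
      |h4.toFun z (K.dir e) - cc| ≤ ww →
      (∀ l, l ≠ K.dir e → κ₁ (κ₀ (h3.toFun z)) l = h4.toFun z l) ∧
      |κ₁ (κ₀ (h3.toFun z)) (K.dir e) - h4.toFun z (K.dir e)| ≤ 2 * dT + 2 * dK ∧
      ∀ s : S₀, κ₁ (κ₀ (h3.toFun z)) ∉ HB G c dd s.1 := by
    intro z hz hzn hzo hzb
    have e1 := H.map z hz
    rw [e1] at hzn hzb
    obtain ⟨a1, a2, a3⟩ := ps3_back H.P hzn hT0 hT hzb
    obtain ⟨b1, b2⟩ := kap_fwd H.q₀ H.q₁ a2 hK0 hK
    refine ⟨fun l hl' => ?_, ?_, fun s hs => ?_⟩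
    · rw [b1 l hl', e1, a1 l hl']
    · rw [e1]
      rw [abs_sub_comm] at a3
      have h6 := abs_sub_le (κ₁ (κ₀ (h3.toFun z)) (K.dir e)) (h3.toFun z (K.dir e))
        ((T true).toFun ((T false).toFun (h3.toFun z)) (K.dir e))
      linarith
    · have h6 := (κ_mem_iff (L := L) H.P.inj H.q₀ H.q₁ (b := s) H.hc H.hc2 H.hd).1 hs
      refine hzo s ?_
      rw [e1]
      exact ((H.P.prodOn s H.hc H.hc2 H.hd).mem _ (h3.mapsTo hz)).2 h6
  obtain ⟨a1, a2, a3⟩ := step x hx n1 hn hb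
  obtain ⟨b1, b2, b3⟩ := step x' hx' n2 hn' hb'
  -- the point `κ (h3 x)` is in the image of `X` under `h1`
  have hp : h3.toFun x ∈ Pre (κ₁ ∘ κ₀) Λ h2 X := by rw [← hg]; exact ⟨x, hxX, rfl⟩
  obtain ⟨z, hz, hze⟩ := hp.2
  have hze : h2.toFun z = κ₁ (κ₀ (h3.toFun x)) := hze
  have hzΩ := hX hz
  have hz1 : h1.toFun z = κ₁ (κ₀ (h3.toFun x)) := by
    rw [← off1 z hzΩ fun s => by rw [hze]; exact a3 s, hze]
  have hyv : |κ₁ (κ₀ (h3.toFun x)) (K.dir e) - cc| ≤ ww + (2 * dT + 2 * dK) := by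
    have h6 := abs_sub_le (κ₁ (κ₀ (h3.toFun x)) (K.dir e)) (h4.toFun x (K.dir e)) cc
    linarith
  have hyv' : |κ₁ (κ₀ (h3.toFun x')) (K.dir e) - cc| ≤ ww + (2 * dT + 2 * dK) := by
    have h6 := abs_sub_le (κ₁ (κ₀ (h3.toFun x')) (K.dir e)) (h4.toFun x' (K.dir e)) cc
    linarith
  have h6 := hvi _ ⟨z, hz, hz1⟩ (hTB _ a1 hyv) _ (hno _ hyv').1 fun r hr => (hno r ?_).2
  · have e2 : Function.update (κ₁ (κ₀ (h3.toFun x))) (K.dir e)
        (κ₁ (κ₀ (h3.toFun x')) (K.dir e)) = κ₁ (κ₀ (h3.toFun x')) := by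
      funext l
      by_cases hl' : l = K.dir e
      · subst hl'; rw [Function.update_self]
      · rw [Function.update_of_ne hl', a1 l hl', b1 l hl']
        exact heq l hl'
    rw [e2] at h6
    obtain ⟨z', hz', hze'⟩ := h6
    have hzΩ' := hX hz'
    have h7 : h2.toFun z' = κ₁ (κ₀ (h3.toFun x')) := by
      rw [off2 z' hzΩ' fun s => by rw [hze']; exact b3 s, hze']
    have h8 : h3.toFun x' ∈ h3.toFun '' X := by
      rw [hg]
      exact ⟨h3.mapsTo hx', ⟨z', hz', h7⟩⟩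
    obtain ⟨x'', hx'', he''⟩ := h8
    rwa [← h3.injOn (hX hx'') hx' he'']
  · rw [abs_le]
    rw [mem_uIcc] at hr
    have h7 := abs_le.1 hyv
    have h8 := abs_le.1 hyv'
    rcases hr with ⟨r1, r2⟩ | ⟨r1, r2⟩ <;> constructor <;> linarith

end P073.H155
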