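import Vale.Agent.P073.H155.THin
import Vale.Agent.P073.H155.VertT
import Vale.Agent.P073.H805.NearP
import Vale.Agent.P073.H429.TEx
import Vale.Agent.P073.H236.GOut3

/-!
# P073, block H155: **[T-HIN]**, assembled

`Pσ`, `P'σ`: the ends of the bands of ROUND P after its second staircase, as sequences (the input of
`exists_thnF`); `bdsσ`, `gapσ`, `endsσ`.  `inv_thin`: a mesh set which is passive for the hooks of
the plates is invariant in the thin bands of a tube, from the outputs of ROUND T, of the exchange,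
of the levels, of the hook and of the second staircase of ROUND P, and from two facts on positions.
-/

open Set Metric Topology Filter MeasureTheory

set_option linter.unusedSectionVars false
set_option autoImplicit false

namespace P073.H155

open _root_.P073 _root_.P073.H579 _root_.P073.Net _root_.P073.PA691 _root_.P073.H236
  _root_.P073.H345 _root_.P073.H142 _root_.P073.H919 _root_.P073.H936 _root_.P073.H936.K3
  _root_.P073.H429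
open _root_.P073.H880.RP (Sg3 Dat ROut3)
open Vale.Agent.P073.H341 (ROutZ HtOk)
open Vale.Agent.P073.St (V)
open Vale.Agent.P073.H73 (Mesh)
open Vale.Agent.P073.H193 (Edges)
open Vale.Agent.P073.H669 (Bds eLo eHi)
open Vale.Agent.P073.H471 Vale.Agent.P073.H267

variable {Ω Λ : Set V} {v : V} {K : BoxCx Λ v} {S : Rad K} {W : Wid K S} {B : Boxes W} {G : Geo B}

/-! ### the bands of ROUND P -/

section bands

variable {S₀ : Set K.S}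

open Classical in
/-- the half gap of the bands of ROUND P after its second staircase -/
noncomputable def gσ (Fσ : Bool → BFam 3 S₀ Λ) (ς : Bool → S₀ → ℝ) (β : Bool) (s : K.S) : ℝ :=
  if h : s ∈ S₀ then ς β ⟨s, h⟩ * (Fσ β).e ⟨s, h⟩ else 0

theorem gσ_eq (Fσ : Bool → BFam 3 S₀ Λ) (ς : Bool → S₀ → ℝ) (β : Bool) (s : S₀) :
    gσ Fσ ς β s.1 = ς β s * (Fσ β).e s := dif_pos s.2

/-- lower ends of the bands of ROUND P at the edge `e` -/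
noncomputable def Pσ (L : PLev G) (Fσ : Bool → BFam 3 S₀ Λ) (ς : Bool → S₀ → ℝ) (e : K.G)
    (s : K.S) (k : ℕ) : ℝ :=
  K.slo s (K.dir e) + G.a s + (k : ℝ) * stp (L.N s (bt s (K.dir e)))
    (K.slo s (K.dir e) + G.a s) (K.shi s (K.dir e) - G.a s) + gσ Fσ ς (bt s (K.dir e)) s

/-- upper ends of the bands of ROUND P at the edge `e` -/
noncomputable def P'σ (L : PLev G) (Fσ : Bool → BFam 3 S₀ Λ) (ς : Bool → S₀ → ℝ) (e : K.G)
    (s : K.S) (k : ℕ) : ℝ :=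
  K.slo s (K.dir e) + G.a s + ((k : ℝ) + 1) * stp (L.N s (bt s (K.dir e)))
    (K.slo s (K.dir e) + G.a s) (K.shi s (K.dir e) - G.a s) - gσ Fσ ς (bt s (K.dir e)) s

variable {L : PLev G} {Fσ : Bool → BFam 3 S₀ Λ} {ς : Bool → S₀ → ℝ} {Tσ : Bool → ConHomeo Λ Λ}

theorem gσ_pos (P : Sg3 L S₀ Fσ ς Tσ) (β : Bool) (s : S₀) : 0 < gσ Fσ ς β s.1 := by
  rw [gσ_eq]
  exact mul_pos ((P.isS β).s0 s) ((Fσ β).he s)

theorem gσ_lt (P : Sg3 L S₀ Fσ ς Tσ) (β : Bool) (s : S₀) : 2 * gσ Fσ ς β s.1 <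
    stp (L.N s.1 β) (K.slo s.1 (tg s.1 β) + G.a s.1) (K.shi s.1 (tg s.1 β) - G.a s.1) := by
  rw [gσ_eq]
  have h1 := (Fσ β).heo s
  rw [(P.B β s).N, (P.B β s).al, (P.B β s).be] at h1
  change 2 * (Fσ β).e s < stp (L.N s.1 β) (K.slo s.1 (tg s.1 β) + G.a s.1)
    (K.shi s.1 (tg s.1 β) - G.a s.1) at h1
  have h2 := mul_le_mul_of_nonneg_right ((P.isS β).s1 s) ((Fσ β).he s).le
  linarith

theorem gσ_nonneg (P : Sg3 L S₀ Fσ ς Tσ) (β : Bool) (s : K.S) : 0 ≤ gσ Fσ ς β s := by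
  by_cases h : s ∈ S₀
  · exact (gσ_pos P β ⟨s, h⟩).le
  · unfold gσ; rw [dif_neg h]

/-- the length of the gaps -/
theorem gapσ (L : PLev G) (Fσ : Bool → BFam 3 S₀ Λ) (ς : Bool → S₀ → ℝ) (e : K.G) (s : K.S)
    (k : ℕ) : Pσ L Fσ ς e s (k + 1) - P'σ L Fσ ς e s k = 2 * gσ Fσ ς (bt s (K.dir e)) s := by
  unfold Pσ P'σ
  push_cast
  ring

/-- **the bands** -/
theorem bdsσ (P : Sg3 L S₀ Fσ ς Tσ) (e : K.G) : ∀ s ∈ S₀, K.edge e ⊆ K.sq s →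
    Bds (L.N s (bt s (K.dir e))) (Pσ L Fσ ς e s) (P'σ L Fσ ς e s) := by
  intro s hs he
  have h1 := gσ_lt P (bt s (K.dir e)) ⟨s, hs⟩
  have h2 := gσ_pos P (bt s (K.dir e)) ⟨s, hs⟩
  have e1 : tg s (bt s (K.dir e)) = K.dir e := tg_bt_dir he
  change 2 * gσ Fσ ς (bt s (K.dir e)) s < stp (L.N s (bt s (K.dir e)))
    (K.slo s (tg s (bt s (K.dir e))) + G.a s) (K.shi s (tg s (bt s (K.dir e))) - G.a s) at h1
  change 0 < gσ Fσ ς (bt s (K.dir e)) s at h2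
  rw [e1] at h1
  refine ⟨(L.lvs s _).pos, fun k _ => ?_, fun k _ => ?_⟩
  · unfold Pσ P'σ
    linarith
  · have h3 := gapσ L Fσ ς e s k
    linarith

/-- the ends -/
theorem endsσ (L : PLev G) {e : K.G} {s : K.S} (he : K.edge e ⊆ K.sq s)
    (hg : gσ Fσ ς (bt s (K.dir e)) s ≤ 31 * G.a s) :
    Pσ L Fσ ς e s 0 ≤ eLo W e ∧ eHi W e ≤ P'σ L Fσ ς e s (L.N s (bt s (K.dir e)) - 1) :=
  Vale.Agent.P073.H669.P_first G he (L.lvs s _).pos hg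

/-- **a thin band inside a band** -/
theorem hbP_of {e : K.G} {s : S₀} (he : K.edge e ⊆ K.sq s.1) {cc ww : ℝ}
    (h : ∃ k < L.N s.1 (bt s.1 (K.dir e)), Pσ L Fσ ς e s.1 k ≤ cc - ww ∧
      cc + ww ≤ P'σ L Fσ ς e s.1 k) :
    ∃ k : Fin (L.N s.1 (bt s.1 (K.dir e))), ∀ t, |t - cc| ≤ ww →
      |t - pcen L s.1 ⟨_, k⟩| ≤ pwσ L Fσ ς s ⟨bt s.1 (K.dir e), k⟩ := by
  obtain ⟨k, hk, h1, h2⟩ := h
  refine ⟨⟨k, hk⟩, fun t ht => ?_⟩
  obtain ⟨h3, h4⟩ := abs_le.1 ht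
  have e1 : tg s.1 (bt s.1 (K.dir e)) = K.dir e := tg_bt_dir he
  show |t - bc (L.N s.1 (bt s.1 (K.dir e))) (K.slo s.1 (tg s.1 (bt s.1 (K.dir e))) + G.a s.1)
      (K.shi s.1 (tg s.1 (bt s.1 (K.dir e))) - G.a s.1) k| ≤
    bw (L.N s.1 (bt s.1 (K.dir e))) (K.slo s.1 (tg s.1 (bt s.1 (K.dir e))) + G.a s.1)
      (K.shi s.1 (tg s.1 (bt s.1 (K.dir e))) - G.a s.1)
      (ς (bt s.1 (K.dir e)) s * (Fσ (bt s.1 (K.dir e))).e s)
  unfold Pσ at h1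
  unfold P'σ at h2
  rw [gσ_eq] at h1 h2
  rw [e1, abs_le]
  unfold bc bw
  constructor <;> linarith

end bands

/-! ### the box of the exchange -/

variable {M : Mesh Ω} {E : Edges M} {D : Dat K M} {c d : ℝ}

theorem pe_HB (hht : HtOk G D) (hc1 : c ≤ 1) (hd2 : 1 / 2 ≤ d) {s : K.S} (hs : s ∈ D.S₀) :
    D.PE G s ⊆ HB G c d s := by
  rintro y ⟨h1, h2, h3⟩
  have hp := Geo.p_pos (G := G) s
  have k1 := hht.le s hs true
  have k2 := hht.le s hs false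
  have k3 := B.τ_pos s
  have k4 : c * G.p s ≤ 1 * G.p s := mul_le_mul_of_nonneg_right hc1 hp.le
  have k5 : 1 / 2 * B.τ s ≤ d * B.τ s := mul_le_mul_of_nonneg_right hd2 k3.le
  refine mem_HB.2 ⟨fun k hk => ?_, ?_⟩
  · have h4 := h1 k hk
    constructor <;> linarith [h4.1, h4.2]
  · rw [abs_le]
    constructor <;> linarith

/-! ### the theorem -/

variable {Y : Lat B} {L : PLev G} {F Fσ : Bool → BFam 3 D.S₀ Λ} {ς : Bool → D.S₀ → ℝ}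
  {T Tσ : Bool → ConHomeo Λ Λ} {κ₀ κ₁ : V → V} {Zb : D.S₀ → Set M.ι}
  {h h1 h2 h3 h4 h5 f5 : ConHomeo Ω Λ} {u : V} {hΩ : IsOpen Ω} {r q : D.S₀ → ℝ}
  {ι : Type} {Fm : ι → Set V} {ω : TBx K → ℝ} {m : ℝ} {G₀ : Set (TBx K)} {Act₀ : Set M.κ}
  {O₁ : M.κ → V} {La : E.ε → ℝ} {Lf : M.κ → E.ε → ℝ} {Lam1 : M.κ → ℝ}
  {sl : G₀ → Finset (ℝ × ℝ)} {μ δ dT dK Dd : ℝ} {e : K.G}

/-- **[T-HIN]** a mesh set which is passive for the hooks of the plates is invariant in the thin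
bands of the tube `e`.  The displacement of ROUND P has to be small only near the thin bands. -/
theorem inv_thin {sl' : Finset (ℝ × ℝ)}
    {H : HkG M L (Subtype.val : D.S₀ → K.S) F T κ₀ κ₁ c d Zb h2 h3 h4 u}
    (O : HkGF H hΩ r q h5) (P : Sg3 L D.S₀ Fσ ς Tσ)
    (hf5 : ∀ x ∈ Ω, f5.toFun x = PS.map Tσ (h5.toFun x))
    (r0 : ∀ s, 0 ≤ r s) (r1 : ∀ s, r s < 1) (q1 : ∀ s, q s ≤ 1)
    (he : ∀ s : D.S₀, ∀ X k, pwid L (fun β => (Fσ β).e s) s.1 ⟨X, k⟩ ≤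
      q s * r s * pwid L (fun β => (F β).e s) s.1 ⟨X, k⟩)
    -- the exchange
    (R : ROut3 G E D h1 h2 L.lv Fm) (Z : ROutZ G E D h1 h2 L.lv Fm) (hht : HtOk G D)
    (hc1 : c ≤ 1) (hd2 : 1 / 2 ≤ d)
    (hcell : ∀ s : D.S₀, ∀ i ∈ Zb s, h3.toFun '' M.Q i = Pre (κ₁ ∘ κ₀) Λ h2 (M.Q i))
    (hosc : ∀ s : D.S₀, ∀ i ∈ Zb s, ∀ x ∈ M.Q i, ∀ y ∈ M.Q i, ∀ l,
      |h1.toFun x l - h1.toFun y l| ≤ G.p s.1 / 4)
    -- ROUND T
    (O1 : T3OutG G M E h h1 ω m G₀ Act₀ O₁ La Lf Lam1 sl) (heG : (.inl e : TBx K) ∈ G₀)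
    -- the thin bands
    (Th : Thn (eal W e) (ebe W e) sl' μ)
    (hbP : ∀ i : Th.I, ∀ s ∈ D.S₀, K.edge e ⊆ K.sq s →
      ∃ k < L.N s (bt s (K.dir e)), Pσ L Fσ ς e s k ≤ Th.c i - Th.w i ∧
        Th.c i + Th.w i ≤ P'σ L Fσ ς e s k)
    (hno : ∀ i : Th.I, ∀ t, |t - Th.c i| ≤ Th.w i + Dd → NoSl (sl ⟨.inl e, heG⟩) t)
    -- the numbers at the edge
    (hδ0 : 0 ≤ δ) (hδ : ∀ β, ∀ s : D.S₀, K.edge e ⊆ K.sq s.1 → (Fσ β).e s ≤ δ)
    (hT0 : 0 ≤ dT) (hT : ∀ β, ∀ s : D.S₀, K.edge e ⊆ K.sq s.1 → tg s.1 β = K.dir e →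
      ∀ i : Th.I, LocD ((F β).σ s) {t | |t - Th.c i| ≤ Th.w i + Dd} dT)
    (hK0 : 0 ≤ dK) (hK : ∀ β, ∀ s : D.S₀, K.edge e ⊆ K.sq s.1 → L.c s.1 β ≤ dK)
    (hDd : 2 * δ + (2 * dT + 2 * dK) ≤ Dd) (hDa : Dd ≤ 15 * G.be (K.a e))
    (hDb : Dd ≤ 15 * G.be (K.b e))
    -- the mesh set
    {X : Set V} (hX : X ⊆ Ω) (hXm : (∃ k, X = M.F k) ∨ (∃ e, X = E.seg e) ∨ ∃ i, X = M.Q i)
    (hXV : ∀ s : D.S₀, ∀ i ∈ Zb s, Disjoint X (interior (M.Q i)))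
    (hXg : h3.toFun '' X = Pre (κ₁ ∘ κ₀) Λ h2 X)
    -- positions
    (hside : ∀ s : D.S₀, K.edge e ⊆ K.sq s.1 →
      (∀ x ∈ X, h4.toFun x ∈ HB G c d s.1 → f5.toFun x ∈ YB Y e →
        h4.toFun x (tg s.1 (!bt s.1 (K.dir e))) ≤
          K.slo s.1 (tg s.1 (!bt s.1 (K.dir e))) + G.p s.1) ∨
      ∀ x ∈ X, h4.toFun x ∈ HB G c d s.1 → f5.toFun x ∈ YB Y e →
        K.shi s.1 (tg s.1 (!bt s.1 (K.dir e))) - G.p s.1 ≤
          h4.toFun x (tg s.1 (!bt s.1 (K.dir e))))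
    (hpos : ∀ x ∈ X, f5.toFun x ∈ YB Y e → (∀ s : D.S₀, h4.toFun x ∉ HB G c d s.1) →
      h4.toFun x ∈ G.TB true (.inl e)) :
    BandInv (ι := Th.I) (fun _ => true) (dax e) Th.c Th.w (f5.invFun '' YB Y e) f5.toFun X := by
  have hp : ∀ s, 0 < G.p s := fun s => Geo.p_pos (G := G) s
  refine bandInv_thin_tube O P hf5 r0 r1 q1 he hδ0 hδ Th hX hXV hXg ?_ ?_ hpos ?_
  · intro s hes
    have k1 : c * G.p s.1 ≤ 1 * G.p s.1 := mul_le_mul_of_nonneg_right hc1 (hp s.1).le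
    rcases hside s hes with h6 | h6
    · exact ⟨_, H.near_lo hΩ R Z hht s _ (hcell s) (hosc s) (by linarith) le_rfl,
        fun x hx hxb hxY => ⟨hxb, h6 x hx hxb hxY⟩⟩
    · exact ⟨_, H.near_hi hΩ R Z hht s _ (hcell s) (hosc s) (by linarith) le_rfl,
        fun x hx hxb hxY => ⟨hxb, h6 x hx hxb hxY⟩⟩
  · intro s hes i
    exact hbP_of hes (hbP i s.1 s.2 hes)
  · intro i x hx x' hx' hl hl' hn hn' hb hb' heq hxX
    refine vertT H (cc := Th.c i) (ww := Th.w i + 2 * δ)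
      (fun x hx hx' => R.off x hx fun s hs hi => hx' ⟨s, hs⟩
        (pe_HB hht hc1 hd2 hs ((R.box s hs x hx).2 (interior_subset hi))))
      (fun x hx hx' => R.off x hx fun s hs hi => hx' ⟨s, hs⟩
        (pe_HB hht hc1 hd2 hs (interior_subset hi))) hT0
      (fun β s hes htg => (hT β s hes htg i).mono (fun t ht => ?_) le_rfl) hK0 hK hX hXg
      (fun y hy hyT t ht ht' => O1.vi X hXm ⟨.inl e, heG⟩ y hy hyT t ht ht')
      hx hx' hl hn hn' heq hb hb' (fun t ht => ?_) hxX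
    · have ht : |t - Th.c i| ≤ Th.w i + 2 * δ + dT := ht
      show |t - Th.c i| ≤ Th.w i + Dd
      linarith
    obtain ⟨t1, t2⟩ := abs_le.1 ht
    have hw := Th.w_pos i
    have h6 := Th.al_lt i
    have h7 := Th.lt_be i
    obtain ⟨h8, h9⟩ := Vale.Agent.P073.H669.eLo_T (W := W) G e
    change _ ≤ eal W e at h8
    change ebe W e + _ ≤ _ at h9
    exact ⟨⟨by linarith, by linarith⟩, hno i t (by linarith)⟩

/-- the fattened thin bands of `slF` meet no sliver of ROUND T -/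
theorem noSl_of {S₀ : Set K.S} {sl₀ : Finset (ℝ × ℝ)} {Ns : K.S → ℕ} {PP PP' : K.S → ℕ → ℝ}
    (Th : Thn (eal W e) (ebe W e) (slF S₀ e sl₀ Dd Ns PP PP') μ) (hD0 : 0 ≤ Dd) (i : Th.I) {t : ℝ}
    (ht : |t - Th.c i| ≤ Th.w i + Dd) : NoSl sl₀ t := by
  obtain ⟨t1, t2⟩ := abs_le.1 ht
  have hw := Th.w_pos i
  have key : ∀ t₀, |t₀ - Th.c i| ≤ Th.w i → |t - t₀| ≤ Dd → NoSl sl₀ t :=
    fun t₀ g1 g2 => thnF_noSl Th g1 g2
  rcases le_total t (Th.c i - Th.w i) with h10 | h10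
  · refine key (Th.c i - Th.w i) ?_ ?_ <;> rw [abs_le] <;> constructor <;> linarith
  · rcases le_total (Th.c i + Th.w i) t with h11 | h11
    · refine key (Th.c i + Th.w i) ?_ ?_ <;> rw [abs_le] <;> constructor <;> linarith
    · refine key t ?_ ?_ <;> rw [abs_le] <;> constructor <;> linarith

/-- the thin bands of `slF` are in bands of ROUND P -/
theorem inP_of {S₀ : Set K.S} {Fσ : Bool → BFam 3 S₀ Λ} {ς : Bool → S₀ → ℝ}
    {sl₀ : Finset (ℝ × ℝ)} (P : Sg3 L S₀ Fσ ς Tσ)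
    (hg : ∀ s ∈ S₀, K.edge e ⊆ K.sq s → gσ Fσ ς (bt s (K.dir e)) s ≤ 31 * G.a s)
    (Th : Thn (eal W e) (ebe W e) (slF S₀ e sl₀ Dd (fun s => L.N s (bt s (K.dir e)))
      (Pσ L Fσ ς e) (P'σ L Fσ ς e)) μ) (i : Th.I) :
    ∀ s ∈ S₀, K.edge e ⊆ K.sq s → ∃ k < L.N s (bt s (K.dir e)),
      Pσ L Fσ ς e s k ≤ Th.c i - Th.w i ∧ Th.c i + Th.w i ≤ P'σ L Fσ ς e s k :=
  thnF_P Th (bdsσ P e) (fun s hs hes => (endsσ L hes (hg s hs hes)).1)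
    (fun s hs hes => (endsσ L hes (hg s hs hes)).2) i

end P073.H155
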