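import Vale.Agent.P073.H155.THin4
import Vale.Agent.P073.H919.P45
import Vale.Agent.P073.H926.MonoZ
import Vale.Agent.P073.H267.K3St1

/-!
# P073, block H155: **[T-PART]** of `K3C`

`ZtG`: the cells drawn in a tube.  `exists_tpart3`: from the outputs of ROUND T and of ROUND P (`f5`):
the thin bands, the hook of the tubes `h6`, the second staircase `Sm`, with 142's `TLay`.
`S1.exists_tpart3`: the same over the data of `K3C`.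
-/

open Set Metric Topology Filter MeasureTheory

set_option linter.unusedSectionVars false
set_option autoImplicit false

namespace P073.H155

open _root_.P073 _root_.P073.H579 _root_.P073.Net _root_.P073.PA691 _root_.P073.H236
  _root_.P073.H345 _root_.P073.H142 _root_.P073.H919 _root_.P073.H936 _root_.P073.H936.K3
  _root_.P073.H429
open _root_.P073.H880.RP (Sg3 Dat ROut3)
open Vale.Agent.P073.H341 (ROutZ HtOk)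
open Vale.Agent.P073.St (V)
open Vale.Agent.P073.H73 (Mesh)
open Vale.Agent.P073.H193 (Edges edges)
open Vale.Agent.P073.H471 Vale.Agent.P073.H267

section general

variable {Ω Λ : Set V} {v : V} {K : BoxCx Λ v} {S : Rad K} {W : Wid K S} {B : Boxes W} {G : Geo B}
  {M : Mesh Ω} {E : Edges M} {D : Dat K M} {c d : ℝ}
  {L : PLev G} {F Fσ : Bool → BFam 3 D.S₀ Λ} {ς : Bool → D.S₀ → ℝ}
  {T Tσ : Bool → ConHomeo Λ Λ} {κ₀ κ₁ : V → V} {Zb : D.S₀ → Set M.ι}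
  {h h1 h2 h3 h4 h5 f5 : ConHomeo Ω Λ} {u : V} {hΩ : IsOpen Ω} {r q : D.S₀ → ℝ}
  {ι : Type} {Fm : ι → Set V} {ω : TBx K → ℝ} {m : ℝ} {G₀ : Set (TBx K)} {Act₀ : Set M.κ}
  {O₁ : M.κ → V} {La : E.ε → ℝ} {Lf : M.κ → E.ε → ℝ} {Lam1 : M.κ → ℝ}
  {sl : G₀ → Finset (ℝ × ℝ)}
  {H : HkG M L (Subtype.val : D.S₀ → K.S) F T κ₀ κ₁ c d Zb h2 h3 h4 u}
  {O : HkGF H hΩ r q h5}

/-- the cells drawn in the tube `e` -/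
def ZtG (G : Geo B) (D : Dat K M) (Zb : D.S₀ → Set M.ι) (f5 : ConHomeo Ω Λ) (e : K.G) : Set M.ι :=
  {i | ((i ∈ D.Zd ∧ i ∉ D.Pr) ∧ ∀ s, i ∉ Zb s) ∧
    f5.toFun '' M.Q i ⊆ interior (YB (YT G D.S₀) e)}

/-- **[T-PART]** the layer of the tubes, from the outputs of ROUND T and of ROUND P -/
theorem exists_tpart3 (A : PreT O h1 f5 Fσ ς Tσ E Fm) {h3t : ConHomeo Ω Λ}
    {μ₂ : Bool → D.S₀ → ℝ} {T2 : Bool → ConHomeo Λ Λ} (Mt : MapT H h3t μ₂ T2)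
    (O1 : T3OutG G M E h h1 ω m G₀ Act₀ O₁ La Lf Lam1 sl) {G₁ : Set K.G}
    (heG : ∀ b : G₁, (.inl b.1 : TBx K) ∈ G₀)
    (hcube : ∀ i ∈ D.Zd, i ∉ D.Pr → ∃ m z, M.Q i = dyc u m z)
    (hpsv : ∀ i ∈ D.Zd, i ∉ D.Pr → (∀ s, i ∉ Zb s) → PsvT H h1 h3t i)
    {X : G₁ → Finset (ℝ × ℝ)} {μ σ τ δ dT dK Dd D₂ : G₁ → ℝ}
    (N : ∀ b : G₁, NumT L F Fσ ς ω b.1 (sl ⟨.inl b.1, heG b⟩) (X b) (μ b) (σ b) (τ b) (δ b)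
      (dT b) (dK b) (Dd b) (D₂ b)) {δT : G₁ → ℝ} (hδT : ∀ b, 0 < δT b) :
    ∃ Mn : G₁ → ℕ, (∀ b, 0 < Mn b) ∧ (∀ b : G₁, (ebe W b.1 - eal W b.1) / Mn b ≤ δT b) ∧
    ∃ e₀ : G₁ → ℝ, (∀ b, 0 < e₀ b) ∧ ∀ ε : G₁ → ℝ, (∀ b, 0 < ε b) → (∀ b, ε b ≤ e₀ b) →
    ∃ Th : ∀ b : G₁, Thn (eal W b.1) (ebe W b.1)
        (slT L Fσ ς b.1 (sl ⟨.inl b.1, heG b⟩) (X b) (D₂ b)) (μ b),
      (∀ b, (Th b).M = Mn b) ∧ (∀ b, (Th b).e = ε b) ∧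
      (∀ b, TBand L Fσ ς b.1 (sl ⟨.inl b.1, heG b⟩) (X b) (Dd b) (Th b)) ∧
    ∃ HT : HkT M (YT G D.S₀) (Subtype.val : G₁ → K.G) Th (fun b => ZtG G D Zb f5 b.1) f5 u,
    ∃ h6 : ConHomeo Ω Λ, HTube hΩ HT.hookIn h6 ∧
    ∃ K₂ : G₁ → ℝ, (∀ b, 0 < K₂ b) ∧
      (∀ b : G₁, ∀ x ∈ Ω, h6.toFun x ∈ YB ((YS G).add (rT G) (rT_pos G)
        (fun e k => (YS_p_lt G e k).le) fun e k => (YS_q_lt G e k).le) b.1 →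
        ∀ᶠ y in 𝓝 x, ‖h6.toFun y - h6.toFun x‖ ≤ K₂ b * ‖y - x‖) ∧
    ∀ εs : G₁ → ℝ, (∀ b, 0 < εs b) →
    ∃ (ςT : G₁ → ℝ) (h0 : ∀ b, 0 < ςT b) (h1 : ∀ b, ςT b ≤ 1), (∀ b, ςT b * K₂ b ≤ εs b) ∧
      (∀ b, ςT b ≤ εs b) ∧
    ∃ Sm : ConHomeo Λ Λ,
      (tfam (YS G) (rT G) (rT_pos G) (fun e k => (YS_p_lt G e k).le)
        (fun e k => (YS_q_lt G e k).le) HT.inj Th h0 h1).IsH Sm ∧
      TLay B (Subtype.val : G₁ → K.G) (fun b => YB (YT G D.S₀) b.1)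
        (tfam (YS G) (rT G) (rT_pos G) (fun e k => (YS_p_lt G e k).le)
          (fun e k => (YS_q_lt G e k).le) HT.inj Th h0 h1)
        (⋃ b : G₁, ⋃ i ∈ ZtG G D Zb f5 b.1, interior (M.Q i))
        (fun b i => (Th b).c i - (Th b).w i) (fun b i => (Th b).c i + (Th b).w i) ςT f5 h6 Sm := by
  obtain ⟨Mn, k1, k2, e₀, k3, k4⟩ := exists_tpart (M := M) (u := u) H.hΛ A Mt O1
    (φ := (Subtype.val : G₁ → K.G)) Subtype.val_injective heG N hδT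
  refine ⟨Mn, k1, k2, e₀, k3, fun ε hε hε' => ?_⟩
  obtain ⟨Th, k5, k6, k7, k8⟩ := k4 ε hε hε'
  have HT : HkT M (YT G D.S₀) (Subtype.val : G₁ → K.G) Th (fun b => ZtG G D Zb f5 b.1) f5 u :=
    k8 (YT G D.S₀) _ (fun b i hi => hcube i hi.1.1.1 hi.1.1.2) (fun b i hi => hi.2)
      fun b i hi => hpsv i hi.1.1.1 hi.1.1.2 hi.1.2
  obtain ⟨h6, k9, K₂, k10, k11, k12⟩ := exists_tlayer hΩ HT (YT_YS_p G D.S₀)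
    (YT_YS_q G D.S₀) (rT_pos G) (YS_p_lt G) (YS_q_lt G)
  exact ⟨Th, k5, k6, k7, HT, h6, k9, K₂, k10, k11, k12⟩

end general

/-! ### over the data of `K3C` -/

section k3

open Vale.Agent.P073.H926 (pS pB pG ω3T inl_mem_pB KIn3)
open Vale.Agent.P073.H238.K3 (TOut3)
open Vale.Agent.P073.H267.K3 (S1)

variable {c₀ n δ₀ : ℝ} {j : ℕ} {Ω Λ : Set V} {v w : V} {ρ : V → ℝ} {M : Mesh Ω}
  {h : ConHomeo Ω Λ} {J₀ J : Set (ℕ × (Fin 3 → ℤ))} {P Z : Set M.ι} {K : BoxCx Λ w}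
  {D : KIn3 c₀ n j δ₀ v w ρ M h J₀ J P Z} {C : Cells ρ w K} {C₀ μT : ℝ}

/-- drawn cells are dyadic cubes -/
theorem cube_dat (D : KIn3 c₀ n j δ₀ v w ρ M h J₀ J P Z) (C : Cells ρ w K) {i : M.ι}
    (hi : i ∈ (D.dat C).Zd) : ∃ m z, M.Q i = dyc v m z := by
  refine D.inp.cube_of_Zmax (η' := 2 / 2 ^ j) ?_ hi
  have h1 := D.η_le_κ
  have h2 : (2:ℝ) / 2 ^ j = 2 * (1 / 2 ^ j) := by ring
  have h3 := Vale.Agent.P073.H926.κ3_le D.pos D.lt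
  have h4 := D.pos
  have h5 := D.nle
  rw [h2]
  linarith

variable {c d : ℝ} {L : PLev (D.G C)} {F Fσ : Bool → BFam 3 (D.dat C).S₀ Λ}
  {ς : Bool → (D.dat C).S₀ → ℝ} {T Tσ : Bool → ConHomeo Λ Λ} {κ₀ κ₁ : V → V}
  {Zb : (D.dat C).S₀ → Set M.ι} {h2 h3 h4 h5 f5 : ConHomeo Ω Λ} {hΩ : IsOpen Ω}
  {r q : (D.dat C).S₀ → ℝ} {ι : Type} {Fm : ι → Set V}
  {H : HkG M L (Subtype.val : (D.dat C).S₀ → K.S) F T κ₀ κ₁ c d Zb h2 h3 h4 v}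
  {O : HkGF H hΩ r q h5}

/-- **[T-PART] of `K3C`** -/
theorem exists_tpartK (X : S1 D C C₀ μT) (A : PreT O X.h1 f5 Fσ ς Tσ (edges M) Fm)
    {h3t : ConHomeo Ω Λ} {μ₂ : Bool → (D.dat C).S₀ → ℝ} {T2 : Bool → ConHomeo Λ Λ}
    (Mt : MapT H h3t μ₂ T2)
    (hpsv : ∀ i ∈ (D.dat C).Zd, i ∉ (D.dat C).Pr → (∀ s, i ∉ Zb s) → PsvT H X.h1 h3t i)
    {Xw : pG C J₀ → Finset (ℝ × ℝ)} {μ τ δ dT dK Dd D₂ : pG C J₀ → ℝ}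
    (N : ∀ b : pG C J₀, NumT L F Fσ ς (ω3T δ₀ C) b.1 (X.sl ⟨.inl b.1, inl_mem_pB.2 b.2⟩) (Xw b)
      (μ b) (X.σ ⟨.inl b.1, inl_mem_pB.2 b.2⟩) (τ b) (δ b) (dT b) (dK b) (Dd b) (D₂ b))
    {δT : pG C J₀ → ℝ} (hδT : ∀ b, 0 < δT b) :
    ∃ Mn : pG C J₀ → ℕ, (∀ b, 0 < Mn b) ∧
      (∀ b : pG C J₀, (ebe (D.W C) b.1 - eal (D.W C) b.1) / Mn b ≤ δT b) ∧
    ∃ e₀ : pG C J₀ → ℝ, (∀ b, 0 < e₀ b) ∧
    ∀ ε : pG C J₀ → ℝ, (∀ b, 0 < ε b) → (∀ b, ε b ≤ e₀ b) →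
    ∃ Th : ∀ b : pG C J₀, Thn (eal (D.W C) b.1) (ebe (D.W C) b.1)
        (slT L Fσ ς b.1 (X.sl ⟨.inl b.1, inl_mem_pB.2 b.2⟩) (Xw b) (D₂ b)) (μ b),
      (∀ b, (Th b).M = Mn b) ∧ (∀ b, (Th b).e = ε b) ∧
      (∀ b, TBand L Fσ ς b.1 (X.sl ⟨.inl b.1, inl_mem_pB.2 b.2⟩) (Xw b) (Dd b) (Th b)) ∧
    ∃ HT : HkT M (YT (D.G C) (pS C J₀)) (Subtype.val : pG C J₀ → K.G) Th
      (fun b => ZtG (D.G C) (D.dat C) Zb f5 b.1) f5 v,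
    ∃ h6 : ConHomeo Ω Λ, HTube hΩ HT.hookIn h6 ∧
    ∃ K₂ : pG C J₀ → ℝ, (∀ b, 0 < K₂ b) ∧
      (∀ b : pG C J₀, ∀ x ∈ Ω, h6.toFun x ∈ YB ((YS (D.G C)).add (rT (D.G C))
        (rT_pos (D.G C)) (fun e k => (YS_p_lt (D.G C) e k).le)
        fun e k => (YS_q_lt (D.G C) e k).le) b.1 →
        ∀ᶠ y in 𝓝 x, ‖h6.toFun y - h6.toFun x‖ ≤ K₂ b * ‖y - x‖) ∧
    ∀ εs : pG C J₀ → ℝ, (∀ b, 0 < εs b) →
    ∃ (ςT : pG C J₀ → ℝ) (h0 : ∀ b, 0 < ςT b) (h1 : ∀ b, ςT b ≤ 1),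
      (∀ b, ςT b * K₂ b ≤ εs b) ∧ (∀ b, ςT b ≤ εs b) ∧
    ∃ Sm : ConHomeo Λ Λ,
      (tfam (YS (D.G C)) (rT (D.G C)) (rT_pos (D.G C)) (fun e k => (YS_p_lt (D.G C) e k).le)
        (fun e k => (YS_q_lt (D.G C) e k).le) HT.inj Th h0 h1).IsH Sm ∧
      TLay (D.B C) (Subtype.val : pG C J₀ → K.G) (fun b => YB (YT (D.G C) (pS C J₀)) b.1)
        (tfam (YS (D.G C)) (rT (D.G C)) (rT_pos (D.G C)) (fun e k => (YS_p_lt (D.G C) e k).le)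
          (fun e k => (YS_q_lt (D.G C) e k).le) HT.inj Th h0 h1)
        (⋃ b : pG C J₀, ⋃ i ∈ ZtG (D.G C) (D.dat C) Zb f5 b.1, interior (M.Q i))
        (fun b i => (Th b).c i - (Th b).w i) (fun b i => (Th b).c i + (Th b).w i) ςT f5 h6 Sm :=
  exists_tpart3 A Mt X.out.toT3OutG (G₁ := pG C J₀) (fun b => inl_mem_pB.2 b.2)
    (fun _ hi _ => cube_dat D C hi) hpsv N hδT

end k3

end P073.H155
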