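import Vale.Agent.P073.H155.Pos1
import Vale.Agent.P073.H155.Sq

/-!
# P073, H155 (EDGE-DATA): the angular function
-/

open Set Metric Topology Filter

set_option autoImplicit false

namespace P073.H155

open P073.H31

namespace PosIn

variable {ι : Type*} {L : ℝ} {X : Finset ι} {s1 s2 s3 s4 om : ι → ℝ} {ze : ι → ℝ → ℝ}

/-- the total mass between `nu` and `L - nu` -/
noncomputable def Tot (L : ℝ) (X : Finset ι) (s1 s2 s3 s4 om : ι → ℝ) (ze : ι → ℝ → ℝ)
    (ep nu : ℝ) : ℝ :=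
  SS X s1 s2 s3 s4 om ze ep (L - nu) - SS X s1 s2 s3 s4 om ze ep nu

/-- the normalised position -/
noncomputable def au (L : ℝ) (X : Finset ι) (s1 s2 s3 s4 om : ι → ℝ) (ze : ι → ℝ → ℝ)
    (ep nu T : ℝ) : ℝ :=
  (SS X s1 s2 s3 s4 om ze ep (cld nu (L - nu) T) - SS X s1 s2 s3 s4 om ze ep nu) /
    Tot L X s1 s2 s3 s4 om ze ep nu

/-- the angular function -/
noncomputable def tau (L : ℝ) (X : Finset ι) (s1 s2 s3 s4 om : ι → ℝ) (ze : ι → ℝ → ℝ)
    (ep nu T : ℝ) : ℝ :=
  13 / 8 * cl1 (T / nu) + 3 / 4 * au L X s1 s2 s3 s4 om ze ep nu T +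
    13 / 8 * cl1 ((T - (L - nu)) / nu)

variable (P : PosIn L X s1 s2 s3 s4 om ze) {ep nu : ℝ}

include P

theorem Tot_pos (hep : 0 < ep) (hL : 2 * nu < L) : 0 < Tot L X s1 s2 s3 s4 om ze ep nu :=
  sub_pos.2 (P.SS_strictMono hep (by linarith))

theorem au_nonneg (hep : 0 < ep) (hL : 2 * nu < L) (T : ℝ) :
    0 ≤ au L X s1 s2 s3 s4 om ze ep nu T := by
  refine div_nonneg (sub_nonneg.2 (P.SS_mono hep.le ?_)) (P.Tot_pos hep hL).le
  exact (cld_mem (by linarith) T).1

theorem au_le_one (hep : 0 < ep) (hL : 2 * nu < L) (T : ℝ) :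
    au L X s1 s2 s3 s4 om ze ep nu T ≤ 1 := by
  rw [au, div_le_one (P.Tot_pos hep hL), Tot]
  have := P.SS_mono hep.le (cld_mem (show nu ≤ L - nu by linarith) T).2
  linarith

theorem au_mono (hep : 0 < ep) (hL : 2 * nu < L) {T T' : ℝ} (h : T ≤ T') :
    au L X s1 s2 s3 s4 om ze ep nu T ≤ au L X s1 s2 s3 s4 om ze ep nu T' := by
  unfold au
  have h1 := P.Tot_pos hep hL
  have h2 := P.SS_mono hep.le (cld_mono (c := nu) (d := L - nu) h)
  gcongr

omit P in
theorem au_left {T : ℝ} (h : T ≤ nu) :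
    au L X s1 s2 s3 s4 om ze ep nu T = 0 := by
  rw [au, cld_of_le h, sub_self, zero_div]

theorem au_right (hep : 0 < ep) (hL : 2 * nu < L) {T : ℝ} (h : L - nu ≤ T) :
    au L X s1 s2 s3 s4 om ze ep nu T = 1 := by
  rw [au, cld_of_ge (by linarith) h]
  exact div_self (P.Tot_pos hep hL).ne'

omit P in
theorem tau_mid (hnu : 0 < nu) {T : ℝ} (h : nu ≤ T) (h' : T ≤ L - nu) :
    tau L X s1 s2 s3 s4 om ze ep nu T = 13 / 8 + 3 / 4 * au L X s1 s2 s3 s4 om ze ep nu T := by
  rw [tau, cl1_eq_one (by rw [le_div_iff₀ hnu]; linarith),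
    cl1_eq_zero (div_nonpos_of_nonpos_of_nonneg (by linarith) hnu.le)]
  ring

omit P in
theorem tau_left (hnu : 0 < nu) (hL : 2 * nu < L) {T : ℝ} (h0 : 0 ≤ T) (h : T ≤ nu) :
    tau L X s1 s2 s3 s4 om ze ep nu T = 13 / 8 * (T / nu) := by
  rw [tau, au_left h, cl1_eq_self (by positivity) (by rw [div_le_one hnu]; exact h),
    cl1_eq_zero (div_nonpos_of_nonpos_of_nonneg (by linarith) hnu.le)]
  ring

theorem tau_right (hep : 0 < ep) (hnu : 0 < nu) (hL : 2 * nu < L) {T : ℝ} (h0 : L - nu ≤ T)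
    (h : T ≤ L) :
    tau L X s1 s2 s3 s4 om ze ep nu T = 19 / 8 + 13 / 8 * ((T - (L - nu)) / nu) := by
  rw [tau, P.au_right hep hL h0, cl1_eq_one (by rw [le_div_iff₀ hnu]; linarith),
    cl1_eq_self (div_nonneg (by linarith) hnu.le) (by rw [div_le_one hnu]; linarith)]
  ring

omit P in
theorem tau_zero (hnu : 0 < nu) (hL : 2 * nu < L) : tau L X s1 s2 s3 s4 om ze ep nu 0 = 0 := by
  rw [tau_left hnu hL le_rfl hnu.le, zero_div, mul_zero]

theorem tau_last (hep : 0 < ep) (hnu : 0 < nu) (hL : 2 * nu < L) :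
    tau L X s1 s2 s3 s4 om ze ep nu L = 4 := by
  rw [P.tau_right hep hnu hL (by linarith) le_rfl]
  have : (L - (L - nu)) / nu = 1 := by field_simp; ring
  rw [this]; norm_num

theorem tau_strictMono (hep : 0 < ep) (hnu : 0 < nu) (hL : 2 * nu < L) :
    StrictMonoOn (tau L X s1 s2 s3 s4 om ze ep nu) (Icc 0 L) := by
  intro T hT T' hT' h
  have m1 : cl1 (T / nu) ≤ cl1 (T' / nu) := cl1_mono (by gcongr)
  have m2 := P.au_mono hep hL h.le
  have m3 : cl1 ((T - (L - nu)) / nu) ≤ cl1 ((T' - (L - nu)) / nu) := cl1_mono (by gcongr)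
  unfold tau
  rcases lt_or_ge T nu with h1 | h1
  · have : cl1 (T / nu) < cl1 (T' / nu) := by
      have h2 : T / nu < 1 := by rw [div_lt_one hnu]; exact h1
      rw [cl1_eq_self (div_nonneg hT.1 hnu.le) h2.le]
      rcases le_total T' nu with h3 | h3
      · rw [cl1_eq_self (div_nonneg hT'.1 hnu.le) (by rw [div_le_one hnu]; exact h3)]
        gcongr
      · rw [cl1_eq_one (by rw [le_div_iff₀ hnu]; linarith)]
        exact h2
    linarith
  rcases lt_or_ge T (L - nu) with h2 | h2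
  · have : au L X s1 s2 s3 s4 om ze ep nu T < au L X s1 s2 s3 s4 om ze ep nu T' := by
      unfold au
      have hp := P.Tot_pos hep hL
      have h3 : cld nu (L - nu) T < cld nu (L - nu) T' := by
        rw [cld_self h1 h2.le]
        rcases le_total T' (L - nu) with h4 | h4
        · rw [cld_self (h1.trans h.le) h4]; exact h
        · rw [cld_of_ge (by linarith) h4]; exact h2
      have h5 := P.SS_strictMono hep h3
      gcongr
    linarith
  · have : cl1 ((T - (L - nu)) / nu) < cl1 ((T' - (L - nu)) / nu) := by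
      rw [cl1_eq_self (div_nonneg (by linarith) hnu.le)
          (by rw [div_le_one hnu]; linarith [hT.2]),
        cl1_eq_self (div_nonneg (by linarith) hnu.le)
          (by rw [div_le_one hnu]; linarith [hT'.2])]
      gcongr
    linarith

theorem continuous_au : Continuous (au L X s1 s2 s3 s4 om ze ep nu) := by
  unfold au
  exact (((P.continuous_SS ep).comp (continuous_cld _ _)).sub continuous_const).div_const _

theorem conicalOn_au (hL : 2 * nu < L) {Y : Set ℝ} (hY : ConicalSet Y) :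
    ConicalOn (au L X s1 s2 s3 s4 om ze ep nu) Y := by
  have h1 : ConicalOn (fun T => SS X s1 s2 s3 s4 om ze ep (cld nu (L - nu) T)) Y :=
    ConicalOn.comp (Y := Icc nu (L - nu)) (P.conicalOn_SS ep (Convex.conicalSet (convex_Icc _ _)))
      (conicalOn_cld hY _ _) (fun T _ => cld_mem (by linarith) T)
      (continuous_cld _ _).continuousOn
  have h2 := (h1.sub (conicalOn_const (SS X s1 s2 s3 s4 om ze ep nu) hY)).const_smul
    ((Tot L X s1 s2 s3 s4 om ze ep nu)⁻¹)
  refine h2.congr fun T _ => ?_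
  show au L X s1 s2 s3 s4 om ze ep nu T = _ * _
  rw [au, div_eq_inv_mul]

theorem continuous_tau : Continuous (tau L X s1 s2 s3 s4 om ze ep nu) := by
  unfold tau
  have h1 := continuous_cl1
  have h2 := P.continuous_au (ep := ep) (nu := nu)
  fun_prop

theorem conicalOn_tau (hL : 2 * nu < L) {Y : Set ℝ} (hY : ConicalSet Y) :
    ConicalOn (tau L X s1 s2 s3 s4 om ze ep nu) Y := by
  have h2 : ∀ a : ℝ, ConicalOn (fun T => cl1 ((T - a) / nu)) Y := by
    intro a
    refine conicalOn_cl1 ((conicalOn_affR hY (1 / nu) (-a / nu)).congr fun T _ => ?_)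
      (by fun_prop)
    ring
  have h0 : ConicalOn (fun T => cl1 (T / nu)) Y := by
    refine (h2 0).congr fun T _ => ?_
    show _ = cl1 ((T - 0) / nu)
    rw [sub_zero]
  unfold tau
  exact (((h0.const_smul (13 / 8)).add ((P.conicalOn_au hL hY).const_smul (3 / 4))).add
    ((h2 _).const_smul (13 / 8)))

/-- positions on the middle intervals -/
theorem tau_sub (hep : 0 < ep) (hnu : 0 < nu) (hL : 2 * nu < L) {x : ι} (hx : x ∈ X)
    (h1 : nu ≤ s1 x) (h4 : s4 x ≤ L - nu) {T : ℝ} (hT : T ∈ Icc (s2 x) (s3 x)) :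
    tau L X s1 s2 s3 s4 om ze ep nu T = tau L X s1 s2 s3 s4 om ze ep nu (s2 x) +
      3 / 4 * om x / Tot L X s1 s2 s3 s4 om ze ep nu * ze x T := by
  have x2 := P.a2 x hx
  have x3 := P.a3 x hx
  have x4 := P.a4 x hx
  have hp := P.Tot_pos hep hL
  rw [tau_mid hnu (by linarith [hT.1]) (by linarith [hT.2]), tau_mid hnu (by linarith)
    (by linarith), au, au, cld_self (by linarith [hT.1]) (by linarith [hT.2]),
    cld_self (by linarith) (by linarith), P.SS_mid hx hT.1 hT.2]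
  ring

/-- the gaps -/
theorem tau_gap (hep : 0 < ep) (hnu : 0 < nu) (hL : 2 * nu < L) {x y : ι} (hx : x ∈ X)
    (hy : y ∈ X) (hx1 : nu ≤ s1 x) (hy4 : s4 y ≤ L - nu) (h : s4 x ≤ s1 y) :
    tau L X s1 s2 s3 s4 om ze ep nu (s3 x) + 2 * (3 / 4 * om x / Tot L X s1 s2 s3 s4 om ze ep nu) +
      2 * (3 / 4 * om y / Tot L X s1 s2 s3 s4 om ze ep nu) ≤
      tau L X s1 s2 s3 s4 om ze ep nu (s2 y) := by
  have x2 := P.a2 x hx
  have x3 := P.a3 x hx
  have x4 := P.a4 x hx
  have y2 := P.a2 y hy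
  have y3 := P.a3 y hy
  have y4 := P.a4 y hy
  have hp := P.Tot_pos hep hL
  have hg := P.SS_gap hep.le hx hy h
  rw [tau_mid hnu (by linarith) (by linarith), tau_mid hnu (by linarith) (by linarith), au, au,
    cld_self (by linarith) (by linarith), cld_self (by linarith) (by linarith)]
  have h5 : (SS X s1 s2 s3 s4 om ze ep (s3 x) + 2 * om x + 2 * om y) /
      Tot L X s1 s2 s3 s4 om ze ep nu ≤ SS X s1 s2 s3 s4 om ze ep (s2 y) /
      Tot L X s1 s2 s3 s4 om ze ep nu := by gcongr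
  rw [sub_div, sub_div]
  rw [add_div, add_div] at h5
  have e1 : 2 * (3 / 4 * om x / Tot L X s1 s2 s3 s4 om ze ep nu) =
    3 / 4 * (2 * om x / Tot L X s1 s2 s3 s4 om ze ep nu) := by ring
  have e2 : 2 * (3 / 4 * om y / Tot L X s1 s2 s3 s4 om ze ep nu) =
    3 / 4 * (2 * om y / Tot L X s1 s2 s3 s4 om ze ep nu) := by ring
  rw [e1, e2]
  linarith

/-- the total mass -/
theorem Tot_eq (hn1 : ∀ x ∈ X, nu ≤ s1 x) (hn4 : ∀ x ∈ X, s4 x ≤ L - nu) :
    Tot L X s1 s2 s3 s4 om ze ep nu =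
      ep * (be X s2 s3 (L - nu) - be X s2 s3 nu) + 5 * ∑ x ∈ X, om x :=
  P.SS_total hn1 hn4

theorem Tot_ge (hep : 0 < ep) (hL : 2 * nu < L) (hn1 : ∀ x ∈ X, nu ≤ s1 x)
    (hn4 : ∀ x ∈ X, s4 x ≤ L - nu) : 5 * ∑ x ∈ X, om x ≤ Tot L X s1 s2 s3 s4 om ze ep nu := by
  rw [P.Tot_eq hn1 hn4]
  have h1 := P.be_mono (show nu ≤ L - nu by linarith)
  have h2 := mul_nonneg hep.le (sub_nonneg.2 h1)
  linarith

theorem Tot_le (hep : 0 < ep) (hnu : 0 < nu) (hL : 2 * nu < L) (hn1 : ∀ x ∈ X, nu ≤ s1 x)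
    (hn4 : ∀ x ∈ X, s4 x ≤ L - nu) :
    Tot L X s1 s2 s3 s4 om ze ep nu ≤ ep * L + 5 * ∑ x ∈ X, om x := by
  rw [P.Tot_eq hn1 hn4]
  have h1 := be_le (X := X) (s2 := s2) (s3 := s3) (show nu ≤ L - nu by linarith)
  have h2 : ep * (be X s2 s3 (L - nu) - be X s2 s3 nu) ≤ ep * L :=
    mul_le_mul_of_nonneg_left (by linarith) hep.le
  linarith

/-- the slope of the normalised position on an edge -/
theorem abs_au_sub_le (hep : 0 < ep) (hL : 2 * nu < L) {M A B : ℝ} (hM : 0 ≤ M)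
    (hX : ∀ x ∈ X, (A ≤ s1 x ∧ s4 x ≤ B ∧ 2 * om x ≤ M * (s2 x - s1 x) ∧
      2 * om x ≤ M * (s4 x - s3 x) ∧ ∀ T ∈ Icc (s2 x) (s3 x), ∀ T' ∈ Icc (s2 x) (s3 x), T ≤ T' →
      om x * (ze x T' - ze x T) ≤ M * (T' - T)) ∨ s4 x ≤ A ∨ B ≤ s1 x)
    {T T' : ℝ} (hT : T ∈ Icc A B) (hT' : T' ∈ Icc A B) :
    |au L X s1 s2 s3 s4 om ze ep nu T - au L X s1 s2 s3 s4 om ze ep nu T'| ≤
      (ep + M) / Tot L X s1 s2 s3 s4 om ze ep nu * |T - T'| := by
  wlog h : T ≤ T' generalizing T T' with H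
  · rw [abs_sub_comm, abs_sub_comm T T']
    exact H hT' hT (le_of_not_ge h)
  have hp := P.Tot_pos hep hL
  have hcm := cld_mono (c := nu) (d := L - nu) h
  rw [abs_sub_comm, abs_of_nonneg (sub_nonneg.2 (P.au_mono hep hL h)), abs_sub_comm,
    abs_of_nonneg (sub_nonneg.2 h), au, au, ← sub_div, sub_sub_sub_cancel_right, div_mul_eq_mul_div]
  gcongr
  -- the clamped points
  rcases le_or_gt (cld nu (L - nu) T') (cld nu (L - nu) T) with hc | hc
  · rw [le_antisymm hc hcm, sub_self]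
    exact mul_nonneg (by linarith) (sub_nonneg.2 h)
  · have hlt := cld_lt (show nu ≤ L - nu by linarith) hc
    have g1 : T ≤ cld nu (L - nu) T := by
      by_contra hcon
      push Not at hcon
      rcases le_total T nu with k | k
      · rw [cld_of_le k] at hcon; linarith
      rcases le_total T (L - nu) with k' | k'
      · rw [cld_self k k'] at hcon; linarith
      · rw [cld_of_ge (by linarith) k'] at hlt; linarith [hlt.1]
    have g2 : cld nu (L - nu) T' ≤ T' := by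
      by_contra hcon
      push Not at hcon
      rcases le_total T' nu with k | k
      · rw [cld_of_le k] at hlt; linarith [hlt.2]
      rcases le_total T' (L - nu) with k' | k'
      · rw [cld_self k k'] at hcon; linarith
      · rw [cld_of_ge (by linarith) k'] at hcon; linarith
    have h3 := P.SS_le hep.le hM hX hcm (hT.1.trans g1) (g2.trans hT'.2)
    refine h3.trans ?_
    refine mul_le_mul_of_nonneg_left (by linarith) (by linarith)

end PosIn

end P073.H155
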